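/-! Fixed-point (scale `2^64`) interval checker for the compact region. -/

namespace Vale.Agent.P322.BB

def one : Nat := 18446744073709551616
def md (a b : Nat) : Nat := (a * b) >>> 64
def mu (a b : Nat) : Nat := (a * b) >>> 64 + 1
def dd (a b : Nat) : Nat := (a <<< 64) / b
def du (a b : Nat) : Nat := (a <<< 64) / b + 1

/-- Horner evaluation of `∑_{j<n} q^j / (2(k+j)+1)` -/
def horner (q : Nat) : Nat → Nat → Nat
  | 0, _ => 0
  | n + 1, k => one / (2 * k + 1) + md q (horner q n (k + 1))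

/-- lower bound for `2 atanh (num/den)` with `n` terms -/
def at2 (n num den : Nat) : Nat :=
  let z := dd num den
  2 * md z (horner (md z z) n 0)

/-- packed table of lower bounds for `log ((16+j)/16)`, `j = 0..16` -/
def tblN : Nat := 2298585927171149346203683416145467896285847110207372403923520139524895939626502594933348103136395346477301817850073323292482050317867398875683265708165627238334184486563540106528207955532500192561338411967335524816105082822616174927921048841814515305299426654251894914786028523457533237557642814347892371041570858579781652316160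
def tbl (j : Nat) : Nat := (tblN >>> (64 * j)) % one
def L2 : Nat := 12786308645202655658

/-- lower bound for `log (y / 2^64)`, `2^64 ≤ y ≤ 2^65` -/
def lg (y : Nat) : Nat :=
  let j := y >>> 60
  let b := j <<< 60
  tbl (j - 16) + at2 6 (y - b) (y + b)

structure Pt where
  x : Nat
  a : Nat
  b : Nat

def mkB (x : Nat) : Nat :=
  let r := one - x
  let k := 64 - Nat.log2 r
  cond (Nat.beq r 0) 0 (k * L2 - (lg (r <<< k) + 24))

def mkPt (x : Nat) : Pt := ⟨x, lg (one + x), mkB x⟩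

def Tlo (p : Pt) : Nat := (p.a + p.b) / 2
def Thi (p : Pt) : Nat := (p.a + p.b) / 2 + 1025
def l2lo (p : Pt) : Nat := p.b - (p.a + 1024)
def l2hi (p : Pt) : Nat := p.b + 1024 - p.a
def philo (p : Pt) : Nat := (md (one + p.x) p.a - mu (one - p.x) (p.b + 1024)) / 2
def phihi (p : Pt) : Nat := (mu (one + p.x) (p.a + 1024) - md (one - p.x) p.b) / 2 + 1
def hhlo (p : Pt) : Nat := L2 - phihi p
def hhhi (p : Pt) : Nat := L2 + 12 - philo p
def psilo (p : Pt) : Nat := l2lo p - mu p.x (Thi p)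
def psihi (p : Pt) : Nat := l2hi p - md p.x (Tlo p)
def wlo (p : Pt) : Nat := one - mu p.x p.x
def whi (p : Pt) : Nat := one - md p.x p.x
def kaplo (p : Pt) : Nat := dd p.x (mu (whi p) (Thi p)) - one
def kapden (p : Pt) : Nat := md (wlo p) (Tlo p)
def kaphi (p : Pt) : Nat := du p.x (kapden p) - one
def gamlo (p : Pt) : Nat := psilo p + md (kaplo p) (hhlo p)
def gamhi (p : Pt) : Nat := psihi p + mu (kaphi p) (hhhi p)
def kppden (p : Pt) : Nat := md (wlo p) (L2 + l2lo p / 2)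
def kpplo (p : Pt) : Nat := dd (md p.x p.x) (mu (whi p) (L2 + 12 + (l2hi p / 2 + 1)))
def kpphi (p : Pt) : Nat := du (mu p.x p.x) (kppden p)
def aomlo (p : Pt) : Nat := Tlo p + md (kpplo p) (dd (hhlo p) p.x)
def aomhi (p : Pt) : Nat := Thi p + mu (kpphi p) (du (hhhi p) p.x)
def ffhi (p : Pt) : Nat := cond (Nat.beq p.x 0) 0 (du (phihi p) p.x)
def sslo (p : Pt) : Nat := dd (psilo p) p.x
def dchihi (p : Pt) : Nat := Thi p + du p.x (wlo p)
def th0hi (p : Pt) : Nat := mu (whi p) (one / 2 + ((l2hi p / 2 + 1) / 3 + 1))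

/-- interior point with positive denominators -/
def inner (p : Pt) : Bool :=
  Nat.blt 0 p.x && Nat.blt p.x one && Nat.blt 0 (kapden p) && Nat.blt 0 (kppden p) &&
    Nat.blt 0 (wlo p)

inductive Tree where
  | su (m : Nat) (l r : Tree)
  | sv (m : Nat) (l r : Tree)
  | sd (m : Nat) (l r : Tree)
  | sym
  | rA
  | rI
  | rB1
  | rb (w dp t : Nat)
  | r3 (w t : Nat)
  | rb2 (dp : Nat)
  | ra (dp : Nat)

def sc (m : Nat) : Nat := m <<< 24

/-- the line `(g, k)` attached to a hint -/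
def lineG (dp : Nat) : Nat := cond (Nat.beq dp 0) 0 (gamlo (mkPt (sc dp)))
def lineK (dp : Nat) : Nat := cond (Nat.beq dp 0) 0 (kaphi (mkPt (sc dp)))
def lineOK (dp : Nat) : Bool := Nat.beq dp 0 || inner (mkPt (sc dp))

def chkI (u0 v0 d1 : Pt) : Bool :=
  let s := mkPt ((u0.x + v0.x) / 2)
  Nat.blt 0 s.x && Nat.ble s.x one &&
    Nat.ble (kaphi d1) (dd (2 * md s.x s.x) (2 * one + mu s.x s.x)) &&
    Nat.ble (phihi d1) (philo s + md s.x s.x / 2)

def chkB1 (u0 v0 d1 : Pt) : Bool :=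
  let s := mkPt ((u0.x + v0.x) / 2)
  let th := th0hi s
  Nat.blt s.x one && Nat.ble th one &&
    Nat.ble (mu th (dchihi d1) + mu (one - th) (aomhi d1)) (2 * Tlo s)

def GGhi (u1 v1 : Pt) : Nat := mu ((u1.x + v1.x) / 2 + 1) (ffhi u1 + ffhi v1)

def chkb2 (u0 u1 v0 v1 d0 d1 : Pt) (dp : Nat) : Bool :=
  lineOK dp &&
    Nat.ble (GGhi u1 v1 + mu (d1.x - (u0.x + v0.x) / 2) (aomhi d1) + mu (lineK dp) (hhhi d0))
      (2 * philo d0 + md (one - mu u1.x v1.x) (lineG dp))

def brhi (d : Pt) (g k s0 : Nat) : Nat := du (psihi d + mu k (hhhi d) - g) s0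

def chka (u0 u1 v0 v1 d0 d1 : Pt) (dp : Nat) : Bool :=
  let s0 := (u0.x + v0.x) / 2
  let g := lineG dp
  let k := lineK dp
  let m := dd (2 * dd (md u0.x v0.x) (s0 + 1)) (2 * one + mu u1.x v1.x)
  let c := mu (du (mu u1.x v1.x) ((u1.x + v1.x) / 2)) g + mu m (GGhi u1 v1 / 2 + 1)
  let r := (sslo u0 + sslo v0) / 2
  lineOK dp && Nat.blt 0 s0 &&
    Nat.ble (brhi d0 g k s0 + c) (r + md m (philo d0)) &&
    Nat.ble (brhi d1 g k s0 + c) (r + md m (philo d1))

/-- corner test: `ff u + ff v + cu u + cv v + e + σ n ≤ σ p` -/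
def corner (u v : Pt) (cu cv e n p : Nat) : Bool :=
  Nat.ble (ffhi u + ffhi v + mu cu u.x + mu cv v.x + e + mu ((u.x + v.x) / 2 + 1) n)
    (md ((u.x + v.x) / 2) p)

def corners (u0 u1 v0 v1 : Pt) (cu cv e n p : Nat) : Bool :=
  corner u0 v0 cu cv e n p && corner u0 v1 cu cv e n p &&
    corner u1 v0 cu cv e n p && corner u1 v1 cu cv e n p

def chkb (u0 u1 v0 v1 d0 d1 : Pt) (w dp t : Nat) : Bool :=
  let s0 := (u0.x + v0.x) / 2
  let S := (u1.x + v1.x) / 2 + 1
  let W := mkPt (sc w)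
  let g := lineG dp
  let k := lineK dp
  let tt := sc t
  let cu := mu (2 * mu tt tt) g
  let cv := mu (2 * mu (one - tt) (one - tt)) g
  let p := dd (aomlo W) S
  let kq := du (du (kpphi W) S) S
  lineOK dp && inner W && Nat.blt 0 s0 && Nat.ble tt one &&
    corners u0 u1 v0 v1 cu cv (brhi d0 g k s0) (mu kq (hhhi d0)) p &&
    corners u0 u1 v0 v1 cu cv (brhi d1 g k s0) (mu kq (hhhi d1)) p

def chk3 (u0 u1 v0 v1 d0 d1 : Pt) (w t : Nat) : Bool :=
  let S := (u1.x + v1.x) / 2 + 1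
  let W := mkPt (sc w)
  let g := gamhi d1
  let tt := sc t
  let cu := mu (2 * mu tt tt) g
  let cv := mu (2 * mu (one - tt) (one - tt)) g
  let p := dd (aomlo W) S
  let n := mu (du (du (kpphi W) S) S) (hhhi d0)
  inner W && Nat.ble tt one &&
    ((Nat.beq u0.x 0 && Nat.beq v0.x 0) || corner u0 v0 cu cv 0 n p) &&
    corner u0 v1 cu cv 0 n p && corner u1 v0 cu cv 0 n p && corner u1 v1 cu cv 0 n p

def check : Tree → Pt → Pt → Pt → Pt → Pt → Pt → Bool
  | .su m l r, u0, u1, v0, v1, d0, d1 =>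
    let p := mkPt (sc m)
    Nat.ble p.x one && check l u0 p v0 v1 d0 d1 && check r p u1 v0 v1 d0 d1
  | .sv m l r, u0, u1, v0, v1, d0, d1 =>
    let p := mkPt (sc m)
    Nat.ble p.x one && check l u0 u1 v0 p d0 d1 && check r u0 u1 p v1 d0 d1
  | .sd m l r, u0, u1, v0, v1, d0, d1 =>
    let p := mkPt (sc m)
    inner p && check l u0 u1 v0 v1 d0 p && check r u0 u1 v0 v1 p d1
  | .sym, _, u1, v0, _, _, _ => Nat.ble u1.x v0.x
  | .rA, u0, _, v0, _, _, d1 => Nat.ble (2 * d1.x) (u0.x + v0.x)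
  | .rI, u0, _, v0, _, _, d1 => chkI u0 v0 d1
  | .rB1, u0, _, v0, _, _, d1 => chkB1 u0 v0 d1
  | .rb w dp t, u0, u1, v0, v1, d0, d1 => chkb u0 u1 v0 v1 d0 d1 w dp t
  | .r3 w t, u0, u1, v0, v1, d0, d1 => chk3 u0 u1 v0 v1 d0 d1 w t
  | .rb2 dp, u0, u1, v0, v1, d0, d1 => chkb2 u0 u1 v0 v1 d0 d1 dp
  | .ra dp, u0, u1, v0, v1, d0, d1 => chka u0 u1 v0 v1 d0 d1 dp

/-- check a tree on the box with corners given at scale `2^40` -/
def run (t : Tree) (u0 u1 v0 v1 d0 d1 : Nat) : Bool :=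
  Nat.ble (sc u0) one && Nat.ble (sc u1) one && Nat.ble (sc v0) one && Nat.ble (sc v1) one &&
    inner (mkPt (sc d0)) && inner (mkPt (sc d1)) &&
    check t (mkPt (sc u0)) (mkPt (sc u1)) (mkPt (sc v0)) (mkPt (sc v1)) (mkPt (sc d0))
      (mkPt (sc d1))

end Vale.Agent.P322.BB
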