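import Mathlib
import Vale.Agent.P322.BBDef

/-! Soundness of the fixed-point arithmetic and of the logarithm enclosures. -/

namespace Vale.Agent.P322.BB
open Real

noncomputable def val (a : ℕ) : ℝ := (a : ℝ) / 2 ^ 64
def Lo (a : ℕ) (x : ℝ) : Prop := val a ≤ x
def Hi (a : ℕ) (x : ℝ) : Prop := x ≤ val a

theorem one_eq : one = 2 ^ 64 := by decide
theorem val_nonneg (a : ℕ) : 0 ≤ val a := by unfold val; positivity
theorem val_pos {a : ℕ} (h : 0 < a) : 0 < val a := by
  unfold val; have : (0 : ℝ) < a := by exact_mod_cast h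
  positivity
theorem val_zero : val 0 = 0 := by simp [val]
theorem val_one : val one = 1 := by rw [one_eq]; unfold val; norm_num
theorem val_add (a b : ℕ) : val (a + b) = val a + val b := by simp [val, add_div]
theorem val_nmul (n a : ℕ) : val (n * a) = n * val a := by simp [val, mul_div_assoc]
theorem val_le_val {a b : ℕ} (h : a ≤ b) : val a ≤ val b := by
  unfold val; gcongr
theorem val_lt_val {a b : ℕ} (h : a < b) : val a < val b := by
  unfold val; gcongr
theorem val_sub {a b : ℕ} (h : b ≤ a) : val (a - b) = val a - val b := by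
  simp [val, Nat.cast_sub h, sub_div]
theorem le_val_sub (a b : ℕ) : val a - val b ≤ val (a - b) := by
  rcases le_total b a with h | h
  · rw [val_sub h]
  · have := val_le_val h; have := val_nonneg (a - b); linarith
theorem val_div_le (a n : ℕ) : val (a / n) ≤ val a / n := by
  unfold val; rw [div_right_comm]; gcongr; exact Nat.cast_div_le
theorem le_val_div (a : ℕ) {n : ℕ} (hn : 0 < n) : val a / n ≤ val (a / n + 1) := by
  unfold val; rw [div_right_comm]; gcongr
  have hn' : (0 : ℝ) < n := by exact_mod_cast hn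
  rw [div_le_iff₀ hn']
  have := Nat.lt_div_mul_add (a := a) hn
  have h2 : a ≤ (a / n + 1) * n := by rw [Nat.add_mul, one_mul]; omega
  exact_mod_cast h2
theorem val_md (a b : ℕ) : val (md a b) ≤ val a * val b := by
  unfold md; rw [Nat.shiftRight_eq_div_pow]
  refine (val_div_le _ _).trans (le_of_eq ?_)
  simp only [val]; push_cast; ring
theorem val_mu (a b : ℕ) : val a * val b ≤ val (mu a b) := by
  unfold mu; rw [Nat.shiftRight_eq_div_pow]
  refine le_trans (le_of_eq ?_) (le_val_div _ (by positivity))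
  simp only [val]; push_cast; ring
theorem val_dd (a b : ℕ) : val (dd a b) ≤ val a / val b := by
  unfold dd; rw [Nat.shiftLeft_eq]
  refine (val_div_le _ _).trans (le_of_eq ?_)
  simp only [val]; push_cast
  rcases Nat.eq_zero_or_pos b with rfl | hb
  · simp
  · have : (0 : ℝ) < b := by exact_mod_cast hb
    field_simp; norm_num
theorem val_du (a : ℕ) {b : ℕ} (hb : 0 < b) : val a / val b ≤ val (du a b) := by
  unfold du; rw [Nat.shiftLeft_eq]
  refine le_trans (le_of_eq ?_) (le_val_div _ hb)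
  simp only [val]; push_cast
  have : (0 : ℝ) < b := by exact_mod_cast hb
  field_simp; norm_num

theorem Lo.refl (a : ℕ) : Lo a (val a) := le_rfl
theorem Hi.refl (a : ℕ) : Hi a (val a) := le_rfl
theorem Lo.mono {a : ℕ} {x y : ℝ} (h : Lo a x) (hxy : x ≤ y) : Lo a y := le_trans h hxy
theorem Hi.mono {a : ℕ} {x y : ℝ} (h : Hi a x) (hxy : y ≤ x) : Hi a y := le_trans hxy h
theorem Lo.cast {a : ℕ} {x y : ℝ} (h : Lo a x) (hxy : x = y) : Lo a y := hxy ▸ h
theorem Hi.cast {a : ℕ} {x y : ℝ} (h : Hi a x) (hxy : x = y) : Hi a y := hxy ▸ h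
theorem Lo.nonneg {a : ℕ} {x : ℝ} (h : Lo a x) : 0 ≤ x := (val_nonneg a).trans h
theorem Lo.pos {a : ℕ} {x : ℝ} (h : Lo a x) (ha : 0 < a) : 0 < x := (val_pos ha).trans_le h
theorem lo_one : Lo one 1 := val_one.le
theorem hi_one : Hi one 1 := val_one.ge
theorem lo_zero {x : ℝ} (h : 0 ≤ x) : Lo 0 x := by unfold Lo; rwa [val_zero]
theorem hi_zero : Hi 0 0 := by unfold Hi; rw [val_zero]
theorem Lo.add {a b : ℕ} {x y : ℝ} (h : Lo a x) (h' : Lo b y) : Lo (a + b) (x + y) := by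
  unfold Lo at *; rw [val_add]; linarith
theorem Hi.add {a b : ℕ} {x y : ℝ} (h : Hi a x) (h' : Hi b y) : Hi (a + b) (x + y) := by
  unfold Hi at *; rw [val_add]; linarith
theorem Hi.addN {a : ℕ} {x : ℝ} (h : Hi a x) (b : ℕ) : Hi (a + b) x :=
  le_trans h (val_le_val (Nat.le_add_right _ _))
theorem Lo.sub {a b : ℕ} {x y : ℝ} (h : Lo a x) (h' : Hi b y) (h0 : 0 ≤ x - y) :
    Lo (a - b) (x - y) := by
  unfold Lo Hi at *
  rcases le_total b a with hb | hb
  · rw [val_sub hb]; linarith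
  · rw [Nat.sub_eq_zero_of_le hb, val_zero]; exact h0
theorem Hi.sub {a b : ℕ} {x y : ℝ} (h : Hi a x) (h' : Lo b y) : Hi (a - b) (x - y) := by
  unfold Lo Hi at *; have := le_val_sub a b; linarith
theorem Lo.nmul {a : ℕ} {x : ℝ} (n : ℕ) (h : Lo a x) : Lo (n * a) (n * x) := by
  unfold Lo at *; rw [val_nmul]; gcongr
theorem Hi.nmul {a : ℕ} {x : ℝ} (n : ℕ) (h : Hi a x) : Hi (n * a) (n * x) := by
  unfold Hi at *; rw [val_nmul]; gcongr
theorem Lo.two {a : ℕ} {x : ℝ} (h : Lo a x) : Lo (2 * a) (2 * x) := by simpa using h.nmul 2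
theorem Hi.two {a : ℕ} {x : ℝ} (h : Hi a x) : Hi (2 * a) (2 * x) := by simpa using h.nmul 2
theorem Lo.half {a : ℕ} {x : ℝ} (h : Lo a x) : Lo (a / 2) (x / 2) := by
  unfold Lo at *; have := val_div_le a 2; push_cast at this; linarith
theorem Hi.half {a : ℕ} {x : ℝ} (h : Hi a x) : Hi (a / 2 + 1) (x / 2) := by
  unfold Hi at *; have := le_val_div a (n := 2) (by norm_num); push_cast at this; linarith
theorem Hi.third {a : ℕ} {x : ℝ} (h : Hi a x) : Hi (a / 3 + 1) (x / 3) := by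
  unfold Hi at *; have := le_val_div a (n := 3) (by norm_num); push_cast at this; linarith
theorem Lo.md {a b : ℕ} {x y : ℝ} (h : Lo a x) (h' : Lo b y) : Lo (md a b) (x * y) :=
  (val_md a b).trans (mul_le_mul h h' (val_nonneg _) h.nonneg)
theorem Hi.mu {a b : ℕ} {x y : ℝ} (h : Hi a x) (h' : Hi b y) (hy : 0 ≤ y) :
    Hi (mu a b) (x * y) :=
  le_trans (mul_le_mul h h' hy (val_nonneg _)) (val_mu a b)
theorem Hi.mu' {a b : ℕ} {x y : ℝ} (h : Hi a x) (h' : Hi b y) (hx : 0 ≤ x) :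
    Hi (BB.mu a b) (x * y) := by
  refine le_trans ?_ (val_mu a b)
  calc x * y ≤ x * val b := mul_le_mul_of_nonneg_left h' hx
    _ ≤ val a * val b := mul_le_mul_of_nonneg_right h (val_nonneg _)
theorem Lo.dd {a b : ℕ} {x y : ℝ} (h : Lo a x) (h' : Hi b y) (hy : 0 < y) :
    Lo (dd a b) (x / y) :=
  (val_dd a b).trans (div_le_div₀ h.nonneg h hy h')
theorem Hi.du {a b : ℕ} {x y : ℝ} (h : Hi a x) (h' : Lo b y) (hb : 0 < b) :
    Hi (du a b) (x / y) :=
  le_trans (div_le_div₀ (val_nonneg _) h (val_pos hb) h') (val_du a hb)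
theorem le_of_ble {a b : ℕ} {x y : ℝ} (h : Nat.ble a b = true) (hx : Hi a x) (hy : Lo b y) :
    x ≤ y := le_trans hx ((val_le_val (Nat.le_of_ble_eq_true h)).trans hy)

/-! ### the logarithm -/

noncomputable def hs (q : ℝ) : ℕ → ℕ → ℝ
  | 0, _ => 0
  | n + 1, k => 1 / (2 * (k : ℝ) + 1) + q * hs q n (k + 1)

theorem hs_eq (q : ℝ) (n k : ℕ) :
    hs q n k = ∑ i ∈ Finset.range n, q ^ i / (2 * ((k : ℝ) + i) + 1) := by
  induction n generalizing k with
  | zero => simp [hs]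
  | succ n ih =>
    rw [hs, ih, Finset.sum_range_succ', Finset.mul_sum, add_comm]
    congr 1
    · refine Finset.sum_congr rfl fun i _ => ?_
      push_cast; rw [pow_succ]; ring_nf
    · simp

theorem hs_bd {q : ℝ} (h0 : 0 ≤ q) (h1 : q ≤ 1 / 9) (n k : ℕ) : 0 ≤ hs q n k ∧ hs q n k ≤ 9 / 8 := by
  induction n generalizing k with
  | zero => simp [hs]; norm_num
  | succ n ih =>
    obtain ⟨a, b⟩ := ih (k + 1)
    have hk : (0 : ℝ) ≤ k := Nat.cast_nonneg k
    have : 1 / (2 * (k : ℝ) + 1) ≤ 1 := by rw [div_le_one (by positivity)]; linarith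
    rw [hs]
    constructor
    · positivity
    · nlinarith

theorem horner_bd {Q : ℕ} {q : ℝ} (h0 : Lo Q q) (h1 : q ≤ val Q + 2 * val 1) (h2 : q ≤ 1 / 9)
    (n k : ℕ) : val (horner Q n k) ≤ hs q n k ∧ hs q n k ≤ val (horner Q n k) + 6 * val 1 := by
  induction n generalizing k with
  | zero => simp [hs, horner, val_zero, val_nonneg]
  | succ n ih =>
    obtain ⟨a, b⟩ := ih (k + 1)
    obtain ⟨c, d⟩ := hs_bd h0.nonneg h2 n (k + 1)
    rw [hs, horner, val_add]
    have e1 := val_div_le one (2 * k + 1)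
    have e2 := le_val_div one (n := 2 * k + 1) (by omega)
    rw [val_one] at e1 e2
    rw [val_add] at e2
    push_cast at e1 e2
    have e3 := val_md Q (horner Q n (k + 1))
    have e4 := val_mu Q (horner Q n (k + 1))
    have e5 : val (mu Q (horner Q n (k + 1))) = val (md Q (horner Q n (k + 1))) + val 1 := by
      rw [← val_add]; rfl
    have hu := val_nonneg 1
    have hQ := val_nonneg Q
    have hL := val_nonneg (horner Q n (k + 1))
    unfold Lo at h0
    constructor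
    · nlinarith
    · nlinarith

theorem at2_bd (n num den : ℕ) (hden : 0 < den) (h3 : 3 * num ≤ den) :
    val (at2 n num den) ≤ log ((1 + (num : ℝ) / den) / (1 - (num : ℝ) / den)) ∧
      log ((1 + (num : ℝ) / den) / (1 - (num : ℝ) / den)) ≤
        val (at2 n num den) + 10 * val 1 + 9 / 4 * ((num : ℝ) / den) ^ (2 * n + 1) := by
  set z : ℝ := (num : ℝ) / den with hz
  have hd : (0 : ℝ) < den := by exact_mod_cast hden
  have hz0 : 0 ≤ z := by positivity
  have hz3 : z ≤ 1 / 3 := by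
    rw [hz, div_le_div_iff₀ hd (by norm_num)]
    have : ((3 * num : ℕ) : ℝ) ≤ den := by exact_mod_cast h3
    push_cast at this; linarith
  have hzv : val num / val den = z := by simp only [val, hz]; field_simp
  have z1 : val (dd num den) ≤ z := hzv ▸ val_dd num den
  have z2 : z ≤ val (dd num den) + val 1 := by
    rw [← val_add]; exact hzv ▸ val_du num hden
  set Z := dd num den
  have hu := val_nonneg 1
  have hu1 : val 1 ≤ 1 / 100 := by unfold val; norm_num
  have hZ := val_nonneg Z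
  have q1 : Lo (md Z Z) (z * z) := Lo.md z1 z1
  have q2 : z * z ≤ val (md Z Z) + 2 * val 1 := by
    have e4 := val_mu Z Z
    have e5 : val (mu Z Z) = val (md Z Z) + val 1 := by rw [← val_add]; rfl
    nlinarith
  have q3 : z * z ≤ 1 / 9 := by nlinarith
  obtain ⟨a, b⟩ := horner_bd q1 q2 q3 n 0
  obtain ⟨c, d⟩ := hs_bd q1.nonneg q3 n 0
  have hsum : z * hs (z * z) n 0 = ∑ i ∈ Finset.range n, z ^ (2 * i + 1) / (2 * i + 1) := by
    rw [hs_eq, Finset.mul_sum]
    refine Finset.sum_congr rfl fun i _ => ?_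
    rw [pow_succ, pow_mul, sq]; simp only [Nat.cast_zero, zero_add]; ring
  have l1 := Real.sum_range_le_log_div hz0 (by linarith) n
  have l2 := Real.log_div_le_sum_range_add hz0 (by linarith) n
  rw [← hsum] at l1 l2
  have hat : val (at2 n num den) = 2 * val (md Z (horner (md Z Z) n 0)) := by
    have := val_nmul 2 (md Z (horner (md Z Z) n 0)); push_cast at this; exact this
  set L := horner (md Z Z) n 0
  have e3 := val_md Z L
  have e4 := val_mu Z L
  have e5 : val (mu Z L) = val (md Z L) + val 1 := by rw [← val_add]; rfl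
  have hL := val_nonneg L
  have ht : z ^ (2 * n + 1) / (1 - z ^ 2) ≤ 9 / 8 * z ^ (2 * n + 1) := by
    have : 0 ≤ z ^ (2 * n + 1) := by positivity
    rw [div_le_iff₀ (by nlinarith)]; nlinarith
  rw [hat]
  constructor
  · nlinarith
  · nlinarith

theorem tbl_eq : ∀ i < 17, tbl i = at2 20 i (32 + i) := by decide +kernel

theorem tbl_bd {i : ℕ} (hi : i < 17) :
    val (tbl i) ≤ log ((16 + i : ℝ) / 16) ∧ log ((16 + i : ℝ) / 16) ≤ val (tbl i) + 12 * val 1 := by
  obtain ⟨a, b⟩ := at2_bd 20 i (32 + i) (by omega) (by omega)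
  have hi0 : (0 : ℝ) ≤ i := Nat.cast_nonneg i
  have e : (1 + (i : ℝ) / ((32 + i : ℕ) : ℝ)) / (1 - (i : ℝ) / ((32 + i : ℕ) : ℝ)) =
      (16 + i : ℝ) / 16 := by
    push_cast; field_simp; ring
  rw [e] at a b
  rw [tbl_eq i hi]
  refine ⟨a, b.trans ?_⟩
  have hz : (i : ℝ) / ((32 + i : ℕ) : ℝ) ≤ 1 / 3 := by
    have : (i : ℝ) ≤ 16 := by exact_mod_cast (by omega : i ≤ 16)
    push_cast; rw [div_le_div_iff₀ (by positivity) (by norm_num)]; linarith
  have : ((i : ℝ) / ((32 + i : ℕ) : ℝ)) ^ (2 * 20 + 1) ≤ (1 / 3) ^ (2 * 20 + 1) := by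
    gcongr
  have h2 : (9 / 4 : ℝ) * (1 / 3) ^ (2 * 20 + 1) ≤ 2 * val 1 := by unfold val; norm_num
  linarith

theorem L2_bd : val L2 ≤ log 2 ∧ log 2 ≤ val L2 + 12 * val 1 := by
  have h := tbl_bd (i := 16) (by norm_num)
  have e : tbl 16 = L2 := by decide +kernel
  rw [e] at h; norm_num at h; exact h

theorem lo_L2 : Lo L2 (log 2) := L2_bd.1
theorem hi_L2 : Hi (L2 + 12) (log 2) := by
  have := L2_bd.2
  have e : val 12 = 12 * val 1 := by simp [val]; ring
  unfold Hi; rw [val_add, e]; exact this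

theorem lg_bd {y : ℕ} (h1 : one ≤ y) (h2 : y ≤ 2 * one) :
    val (lg y) ≤ log (val y) ∧ log (val y) ≤ val (lg y) + 24 * val 1 := by
  rw [one_eq] at h1 h2
  have hlg : lg y = tbl (y / 2 ^ 60 - 16) +
      at2 6 (y - y / 2 ^ 60 * 2 ^ 60) (y + y / 2 ^ 60 * 2 ^ 60) := by
    simp only [lg, Nat.shiftRight_eq_div_pow, Nat.shiftLeft_eq]
  set j := y / 2 ^ 60 with hj
  have j1 : 16 ≤ j := by omega
  have j2 : j ≤ 32 := by omega
  have b1 : j * 2 ^ 60 ≤ y := by omega
  have b2 : y < j * 2 ^ 60 + 2 ^ 60 := by omega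
  obtain ⟨t1, t2⟩ := tbl_bd (i := j - 16) (by omega)
  obtain ⟨a1, a2⟩ := at2_bd 6 (y - j * 2 ^ 60) (y + j * 2 ^ 60) (by omega) (by omega)
  have hjr : (16 : ℝ) ≤ j := by exact_mod_cast j1
  have hb1 : (j : ℝ) * 2 ^ 60 ≤ y := by exact_mod_cast b1
  have hb2 : (y : ℝ) ≤ j * 2 ^ 60 + 2 ^ 60 := by exact_mod_cast b2.le
  have hy : (0 : ℝ) < y := by nlinarith
  have c1 : ((j - 16 : ℕ) : ℝ) = j - 16 := by rw [Nat.cast_sub j1]; norm_num
  have c2 : ((y - j * 2 ^ 60 : ℕ) : ℝ) = y - j * 2 ^ 60 := by rw [Nat.cast_sub b1]; push_cast; ring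
  have c3 : ((y + j * 2 ^ 60 : ℕ) : ℝ) = y + j * 2 ^ 60 := by push_cast; ring
  rw [c1] at t1 t2
  rw [c2, c3] at a1 a2
  have e1 : (1 + ((y : ℝ) - j * 2 ^ 60) / (y + j * 2 ^ 60)) /
      (1 - ((y : ℝ) - j * 2 ^ 60) / (y + j * 2 ^ 60)) = y / (j * 2 ^ 60) := by
    field_simp; ring
  rw [e1] at a1 a2
  have e2 : log (val y) = log ((16 + ((j : ℝ) - 16)) / 16) + log (y / (j * 2 ^ 60)) := by
    rw [← Real.log_mul (by positivity) (by positivity)]
    congr 1; unfold val; field_simp; ring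
  have hz : ((y : ℝ) - j * 2 ^ 60) / (y + j * 2 ^ 60) ≤ 1 / 33 := by
    rw [div_le_div_iff₀ (by positivity) (by norm_num)]; nlinarith
  have hz0 : 0 ≤ ((y : ℝ) - j * 2 ^ 60) / (y + j * 2 ^ 60) :=
    div_nonneg (by linarith) (by positivity)
  have : (((y : ℝ) - j * 2 ^ 60) / (y + j * 2 ^ 60)) ^ (2 * 6 + 1) ≤ (1 / 33) ^ (2 * 6 + 1) := by
    gcongr
  have h3 : (9 / 4 : ℝ) * (1 / 33) ^ (2 * 6 + 1) ≤ 2 * val 1 := by unfold val; norm_num
  rw [hlg, val_add, e2]
  constructor <;> linarith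

structure PtOk (p : Pt) : Prop where
  le_one : p.x ≤ one
  alo : Lo p.a (log (1 + val p.x))
  ahi : Hi (p.a + 1024) (log (1 + val p.x))
  blo : Lo p.b (-log (1 - val p.x))
  bhi : Hi (p.b + 1024) (-log (1 - val p.x))

theorem val_1024 : val 1024 = 1024 * val 1 := by simp [val]; ring

theorem mkB_eq (x : ℕ) : mkB x = cond (Nat.beq (one - x) 0) 0 ((64 - Nat.log2 (one - x)) * L2 -
    (lg ((one - x) <<< (64 - Nat.log2 (one - x))) + 24)) := by rw [mkB]

theorem mkB_bd {x : ℕ} (hx : x ≤ one) :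
    Lo (mkB x) (-log (1 - val x)) ∧ Hi (mkB x + 1024) (-log (1 - val x)) := by
  have hr : val (one - x) = 1 - val x := by rw [val_sub hx, val_one]
  rw [← hr]
  have hu := val_nonneg 1
  rw [mkB_eq]
  have hrle : one - x ≤ one := Nat.sub_le _ _
  generalize one - x = r at hrle
  by_cases h0 : r = 0
  · have hb : Nat.beq r 0 = true := by rw [h0]; rfl
    rw [hb, cond_true, h0, val_zero, Real.log_zero, neg_zero]
    exact ⟨lo_zero le_rfl, val_nonneg _⟩
  have hb : Nat.beq r 0 = false := by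
    cases hh : Nat.beq r 0
    · rfl
    · exact absurd (Nat.eq_of_beq_eq_true hh) h0
  rw [hb, cond_false]
  have r1 : 2 ^ Nat.log2 r ≤ r := Nat.log2_self_le h0
  have r2 : r < 2 ^ (Nat.log2 r + 1) := Nat.lt_log2_self
  have r3 : r ≤ 2 ^ 64 := by rw [← one_eq]; exact hrle
  have l64 : Nat.log2 r ≤ 64 := by
    by_contra hc
    have : 2 ^ 65 ≤ 2 ^ Nat.log2 r := Nat.pow_le_pow_right (by norm_num) (by omega)
    omega
  obtain ⟨k, hk⟩ : ∃ k, k = 64 - Nat.log2 r := ⟨_, rfl⟩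
  rw [← hk]
  have e64 : 2 ^ Nat.log2 r * 2 ^ k = 2 ^ 64 := by rw [← pow_add]; congr 1; omega
  have y1 : one ≤ r <<< k := by
    rw [one_eq, Nat.shiftLeft_eq, ← e64]; exact Nat.mul_le_mul_right _ r1
  have y2 : r <<< k ≤ 2 * one := by
    rw [one_eq, Nat.shiftLeft_eq, ← e64, ← mul_assoc, ← pow_succ']
    exact Nat.mul_le_mul_right _ r2.le
  obtain ⟨g1, g2⟩ := lg_bd y1 y2
  have hrp : 0 < val r := val_pos (Nat.pos_of_ne_zero h0)
  have ev : log (val (r <<< k)) = log (val r) + k * log 2 := by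
    rw [Nat.shiftLeft_eq, mul_comm, val_nmul]; push_cast
    rw [Real.log_mul (by positivity) hrp.ne', Real.log_pow]; ring
  have hr1 : val r ≤ 1 := by rw [← val_one]; exact val_le_val hrle
  have hneg : 0 ≤ -log (val r) := by have := Real.log_nonpos hrp.le hr1; linarith
  obtain ⟨m1, m2⟩ := L2_bd
  have hk0 : (0 : ℝ) ≤ k := Nat.cast_nonneg k
  have hk64 : (k : ℝ) ≤ 64 := by exact_mod_cast (by omega : k ≤ 64)
  have e24 : val 24 = 24 * val 1 := by simp [val]; ring
  constructor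
  · have := Lo.sub (lo_L2.nmul k) (b := lg (r <<< k) + 24) (y := log (val (r <<< k)))
      (by unfold Hi; rw [val_add, e24]; exact g2) (by rw [ev]; linarith)
    exact this.cast (by rw [ev]; ring)
  · unfold Hi
    have := le_val_sub (k * L2) (lg (r <<< k) + 24)
    rw [val_add, val_nmul, e24] at this
    rw [val_add, val_1024]
    nlinarith

theorem ptOk_mk {x a b : ℕ} (hx : x ≤ one) (h1 : Lo a (log (1 + val x)))
    (h2 : Hi (a + 1024) (log (1 + val x))) (h3 : Lo b (-log (1 - val x)))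
    (h4 : Hi (b + 1024) (-log (1 - val x))) : PtOk ⟨x, a, b⟩ := ⟨hx, h1, h2, h3, h4⟩

theorem mkPt_ok {x : ℕ} (hx : x ≤ one) : PtOk (mkPt x) := by
  obtain ⟨a, b⟩ := lg_bd (y := one + x) (Nat.le_add_right _ _)
    (by rw [two_mul]; exact Nat.add_le_add_left hx _)
  rw [val_add, val_one] at a b
  have hu := val_nonneg 1
  rw [mkPt]
  refine ptOk_mk hx a ?_ (mkB_bd hx).1 (mkB_bd hx).2
  unfold Hi; rw [val_add, val_1024]
  linarith

theorem mkPt_x (x : ℕ) : (mkPt x).x = x := by rw [mkPt]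

end Vale.Agent.P322.BB
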