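import Vale.Agent.P322.Calc1

set_option linter.unusedVariables false

/-! Convexity of `ff`, `ss`, and the comparison of second differences. -/

namespace Vale.Agent.P322
open Real Set

theorem ff_zero : ff 0 = 0 := by simp [ff]
theorem ss_zero : ss 0 = 0 := by simp [ss]
theorem ff_one : ff 1 = log 2 := by simp [ff, phi_one]
theorem T_eq_ss_add {x : ℝ} : T x = ss x + 2 * ff x := by
  by_cases hx : x = 0
  · rw [hx, T_zero, ss_zero, ff_zero]; ring
  · unfold ss ff psi chi
    field_simp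
    ring
theorem mul_ff (x : ℝ) : x * ff x = phi x := by
  by_cases hx : x = 0
  · rw [hx, phi_zero]; ring
  · unfold ff; field_simp
theorem mul_ss (x : ℝ) : x * ss x = psi x := by
  by_cases hx : x = 0
  · rw [hx, psi_zero]; ring
  · unfold ss; field_simp
theorem hasDerivAt_ff {x : ℝ} (h : 0 < x) (h' : x < 1) : HasDerivAt ff (l0 x / x ^ 2) x := by
  have := (hasDerivAt_phi (by linarith) h').div (hasDerivAt_id x) h.ne'
  refine this.congr_deriv ?_
  simp only [id]
  rw [phi_eq]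
  ring
theorem hasDerivAt_ss {x : ℝ} (h : 0 < x) (h' : x < 1) :
    HasDerivAt ss (1 / (1 - x ^ 2) - 2 * (l0 x / x ^ 2)) x := by
  have := (hasDerivAt_T (by linarith) h').sub ((hasDerivAt_ff h h').const_mul 2)
  have e : ss = fun x => T x - 2 * ff x := funext (fun x => by rw [T_eq_ss_add]; ring)
  rw [e]; exact this
theorem hasDerivAt_dff {x : ℝ} (h : 0 < x) (h' : x < 1) :
    HasDerivAt (fun x => l0 x / x ^ 2) ((x ^ 2 / (1 - x ^ 2) - 2 * l0 x) / x ^ 3) x := by
  have := (hasDerivAt_l0 (by linarith) h').div (hasDerivAt_pow 2 x) (by positivity)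
  refine this.congr_deriv ?_
  have h0 := one_sub_sq_pos (by linarith : -1 < x) h'
  simp only [Nat.cast_ofNat, Nat.add_one_sub_one, pow_one]
  field_simp
theorem hasDerivAt_W {x : ℝ} (h : -1 < x) (h' : x < 1) :
    HasDerivAt (fun x : ℝ => 1 / (1 - x ^ 2)) (2 * x / (1 - x ^ 2) ^ 2) x := by
  have h0 := one_sub_sq_pos h h'
  have := (hasDerivAt_const x (1 : ℝ)).div ((hasDerivAt_pow 2 x).const_sub 1) h0.ne'
  refine this.congr_deriv ?_
  simp
theorem ff_nonneg {x : ℝ} (h : 0 ≤ x) (h' : x ≤ 1) : 0 ≤ ff x :=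
  div_nonneg (phi_nonneg (by linarith) h') h
theorem ff_le {x : ℝ} (h : 0 ≤ x) (h' : x ≤ 1) : ff x ≤ x * log 2 := by
  rcases h.eq_or_lt with rfl | hx
  · simp [ff_zero]
  · unfold ff
    rw [div_le_iff₀ hx]
    nlinarith [phi_le_sq (by linarith : -1 ≤ x) h']
theorem continuousOn_ff : ContinuousOn ff (Icc 0 1) := by
  intro x hx
  rcases hx.1.eq_or_lt with rfl | hx0
  · unfold ContinuousWithinAt
    rw [ff_zero]
    have h1 : Filter.Tendsto (fun x : ℝ => x * log 2) (nhdsWithin 0 (Icc 0 1)) (nhds 0) := by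
      have : Continuous (fun x : ℝ => x * log 2) := by fun_prop
      have := (this.tendsto 0).mono_left (nhdsWithin_le_nhds (s := Icc (0 : ℝ) 1))
      simpa using this
    refine tendsto_of_tendsto_of_tendsto_of_le_of_le' tendsto_const_nhds h1 ?_ ?_
    · filter_upwards [self_mem_nhdsWithin] with y hy using ff_nonneg hy.1 hy.2
    · filter_upwards [self_mem_nhdsWithin] with y hy using ff_le hy.1 hy.2
  · exact (continuous_phi.continuousAt.div continuousAt_id hx0.ne').continuousWithinAt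
theorem dff_mono {x y : ℝ} (h : 0 < x) (hxy : x ≤ y) (h' : y < 1) :
    l0 x / x ^ 2 ≤ l0 y / y ^ 2 :=
  calc_mono' (f := fun x => l0 x / x ^ 2) hxy
    (fun z h1 h2 => hasDerivAt_dff (by linarith) (by linarith))
    (fun z h1 h2 => by
      have hz : 0 < z := by linarith
      have h0 := one_sub_sq_pos (by linarith : -1 < z) (by linarith)
      have h3 := l0_le (by linarith : -1 < z) (by linarith)
      have e : z ^ 2 / (2 * (1 - z ^ 2)) = z ^ 2 / (1 - z ^ 2) / 2 := by field_simp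
      refine div_nonneg ?_ (by positivity)
      linarith)
/-- the derivative `l0 x / x²` is monotone -/
theorem convexOn_ff : ConvexOn ℝ (Icc (0 : ℝ) 1) ff :=
  calc_convexOn continuousOn_ff (fun _ h1 h2 => hasDerivAt_ff h1 h2)
    (fun _ _ h1 h2 h3 => dff_mono h1 h2 h3)
theorem ff_le_ff {x y : ℝ} (h : 0 ≤ x) (hxy : x ≤ y) (h' : y ≤ 1) : ff x ≤ ff y :=
  calc_mono hxy (continuousOn_ff.mono (Icc_subset_Icc h h'))
    (fun z h1 h2 => hasDerivAt_ff (by linarith) (by linarith))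
    (fun z h1 h2 => div_nonneg (l0_nonneg (by linarith) (by linarith)) (by positivity))
theorem ss_nonneg {x : ℝ} (h : 0 ≤ x) (h' : x < 1) : 0 ≤ ss x :=
  div_nonneg (psi_nonneg (by linarith) h') h
theorem ss_le_ss {x y : ℝ} (h : 0 ≤ x) (hxy : x ≤ y) (h' : y < 1) : ss x ≤ ss y := by
  rcases h.eq_or_lt with rfl | hx
  · rw [ss_zero]; exact ss_nonneg hxy h'
  refine calc_mono' hxy (fun z h1 h2 => hasDerivAt_ss (by linarith) (by linarith))
    (fun z h1 h2 => ?_)
  have hz : 0 < z := by linarith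
  have h0 := one_sub_sq_pos (by linarith : -1 < z) (by linarith)
  have h3 := l0_le (by linarith : -1 < z) (by linarith)
  have h4 : l0 z / z ^ 2 ≤ z ^ 2 / (2 * (1 - z ^ 2)) / z ^ 2 :=
    div_le_div_of_nonneg_right h3 (by positivity)
  have e : z ^ 2 / (2 * (1 - z ^ 2)) / z ^ 2 = 1 / (1 - z ^ 2) / 2 := by field_simp
  linarith

theorem ff_midpoint {u v : ℝ} (hu : 0 ≤ u) (hu' : u ≤ 1) (hv : 0 ≤ v) (hv' : v ≤ 1) :
    2 * ff ((u + v) / 2) ≤ ff u + ff v :=
  calc_midpoint convexOn_ff ⟨hu, hu'⟩ ⟨hv, hv'⟩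

theorem le_l0' {x : ℝ} (h : 0 ≤ x) (h' : x < 1) : x ^ 2 / 2 + x ^ 4 / 4 ≤ l0 x := by
  have := calc_mono' (f := fun x => l0 x - (x ^ 2 / 2 + x ^ 4 / 4))
    (f' := fun x => x / (1 - x ^ 2) - (x + x ^ 3)) h
    (fun y h1 h2 => by
      have := (hasDerivAt_l0 (by linarith) (by linarith : y < 1)).sub
        (((hasDerivAt_pow 2 y).div_const 2).add ((hasDerivAt_pow 4 y).div_const 4))
      exact this.congr_deriv (by simp))
    (fun y h1 h2 => by
      have h0 := one_sub_sq_pos (by linarith : -1 < y) (by linarith)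
      rw [sub_nonneg, le_div_iff₀ h0]
      nlinarith [pow_pos h1 5])
  simp [l0_zero] at this
  linarith

/-- midpoint inequality from the sign of the second derivative on `(0,1)` -/
theorem calc3_mid {f f' f'' : ℝ → ℝ} (h1 : ∀ x, 0 < x → x < 1 → HasDerivAt f (f' x) x)
    (h2 : ∀ x, 0 < x → x < 1 → HasDerivAt f' (f'' x) x) (h3 : ∀ x, 0 < x → x < 1 → 0 ≤ f'' x)
    {u v : ℝ} (hu : 0 < u) (hu' : u < 1) (hv : 0 < v) (hv' : v < 1) :
    2 * f ((u + v) / 2) ≤ f u + f v := by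
  have ha : 0 < min u v := lt_min hu hv
  have hb : max u v < 1 := max_lt hu' hv'
  have hc : ConvexOn ℝ (Icc (min u v) (max u v)) f :=
    calc_convexOn (fun x hx => (h1 x (by linarith [hx.1]) (by linarith [hx.2])).continuousAt.continuousWithinAt)
      (fun x k1 k2 => h1 x (by linarith) (by linarith))
      (fun x y k1 k2 k3 => calc_mono' k2 (fun z l1 l2 => h2 z (by linarith) (by linarith))
        (fun z l1 l2 => h3 z (by linarith) (by linarith)))
  exact calc_midpoint hc ⟨min_le_left _ _, le_max_left _ _⟩ ⟨min_le_right _ _, le_max_right _ _⟩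

/-- `ss x - x³/6` is convex on `[0,1)` -/
theorem ss_midpoint_cube {u v : ℝ} (hu : 0 < u) (hu' : u < 1) (hv : 0 < v) (hv' : v < 1) :
    2 * ss ((u + v) / 2) + (u + v) / 2 * ((u - v) / 2) ^ 2 ≤ ss u + ss v := by
  have := calc3_mid (f := fun x => ss x - x ^ 3 / 6)
    (f' := fun x => 1 / (1 - x ^ 2) - 2 * (l0 x / x ^ 2) - x ^ 2 / 2)
    (f'' := fun x => 2 * x / (1 - x ^ 2) ^ 2 - 2 * ((x ^ 2 / (1 - x ^ 2) - 2 * l0 x) / x ^ 3) - x)
    (fun x h1 h2 => ((hasDerivAt_ss h1 h2).sub ((hasDerivAt_pow 3 x).div_const 6)).congr_deriv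
      (by simp; ring))
    (fun x h1 h2 => (((hasDerivAt_W (by linarith) h2).sub ((hasDerivAt_dff h1 h2).const_mul 2)).sub
      ((hasDerivAt_pow 2 x).div_const 2)).congr_deriv (by simp))
    (fun x h1 h2 => by
      have h0 := one_sub_sq_pos (by linarith : -1 < x) h2
      have h3 := le_l0' h1.le h2
      have e : 2 * x / (1 - x ^ 2) ^ 2 - 2 * ((x ^ 2 / (1 - x ^ 2) - 2 * l0 x) / x ^ 3) - x =
          (4 * (l0 x - (x ^ 2 / 2 + x ^ 4 / 4)) + 2 * x ^ 6 / (1 - x ^ 2) ^ 2) / x ^ 3 := by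
        field_simp; ring
      rw [e]
      have : 0 ≤ l0 x - (x ^ 2 / 2 + x ^ 4 / 4) := by linarith
      positivity) hu hu' hv hv'
  nlinarith
/-- `ss - 2 ff` is convex on `[0,1)` -/
theorem ss_midpoint_ff {u v : ℝ} (hu : 0 < u) (hu' : u < 1) (hv : 0 < v) (hv' : v < 1) :
    2 * (ff u + ff v - 2 * ff ((u + v) / 2)) ≤ ss u + ss v - 2 * ss ((u + v) / 2) := by
  have := calc3_mid (f := fun x => ss x - 2 * ff x)
    (f' := fun x => 1 / (1 - x ^ 2) - 4 * (l0 x / x ^ 2))
    (f'' := fun x => 2 * x / (1 - x ^ 2) ^ 2 - 4 * ((x ^ 2 / (1 - x ^ 2) - 2 * l0 x) / x ^ 3))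
    (fun x h1 h2 => ((hasDerivAt_ss h1 h2).sub ((hasDerivAt_ff h1 h2).const_mul 2)).congr_deriv
      (by ring))
    (fun x h1 h2 => (hasDerivAt_W (by linarith) h2).sub ((hasDerivAt_dff h1 h2).const_mul 4))
    (fun x h1 h2 => by
      have h0 := one_sub_sq_pos (by linarith : -1 < x) h2
      have h3 := le_l0' h1.le h2
      have e : 2 * x / (1 - x ^ 2) ^ 2 - 4 * ((x ^ 2 / (1 - x ^ 2) - 2 * l0 x) / x ^ 3) =
          (8 * (l0 x - (x ^ 2 / 2 + x ^ 4 / 4)) + 2 * x ^ 8 / (1 - x ^ 2) ^ 2) / x ^ 3 := by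
        field_simp; ring
      rw [e]
      have : 0 ≤ l0 x - (x ^ 2 / 2 + x ^ 4 / 4) := by linarith
      positivity) hu hu' hv hv'
  linarith

theorem calc3_pade {X : ℝ} (h : 0 ≤ X) (h' : X < 1) :
    (6 * X - 3 * X ^ 2) / (6 - 6 * X + X ^ 2) ≤ -log (1 - X) := by
  have := calc_mono' (f := fun X => -log (1 - X) - (6 * X - 3 * X ^ 2) / (6 - 6 * X + X ^ 2))
    (f' := fun X => X ^ 4 / ((1 - X) * (6 - 6 * X + X ^ 2) ^ 2)) h
    (fun y h1 h2 => by
      have hy : 0 < 6 - 6 * y + y ^ 2 := by nlinarith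
      have hy1 : 0 < 1 - y := by linarith
      have := (calc_dlog_sub (by linarith : y < 1)).neg.sub
        ((((hasDerivAt_id y).const_mul 6).sub ((hasDerivAt_pow 2 y).const_mul 3)).div
          ((((hasDerivAt_id y).const_mul 6).const_sub 6).add (hasDerivAt_pow 2 y)) hy.ne')
      refine this.congr_deriv ?_
      simp only [Pi.sub_apply, Pi.add_apply, id, Nat.cast_ofNat, Nat.add_one_sub_one, pow_one]
      field_simp
      ring)
    (fun y h1 h2 => by
      have hy1 : 0 < 1 - y := by linarith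
      positivity)
  simp at this
  linarith

theorem calc3_G_anti {x y : ℝ} (h : 0 < x) (hxy : x ≤ y) (h' : y < 1) :
    l0 y / y ^ 2 - l0 y / 2 - l0 y ^ 2 / 6 ≤ l0 x / x ^ 2 - l0 x / 2 - l0 x ^ 2 / 6 := by
  refine calc_anti' (f := fun x => l0 x / x ^ 2 - l0 x / 2 - l0 x ^ 2 / 6)
    (f' := fun x => (x ^ 2 / (1 - x ^ 2) - 2 * l0 x) / x ^ 3 - x / (1 - x ^ 2) / 2 -
      2 * l0 x * (x / (1 - x ^ 2)) / 6) hxy (fun z h1 h2 => ?_) (fun z h1 h2 => ?_)
  · have hl := hasDerivAt_l0 (by linarith : -1 < z) (by linarith)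
    exact (((hasDerivAt_dff (by linarith) (by linarith)).sub (hl.div_const 2)).sub
      ((hl.pow 2).div_const 6)).congr_deriv (by simp)
  · have hz : 0 < z := by linarith
    have h0 := one_sub_sq_pos (by linarith : -1 < z) (by linarith)
    have hp := calc3_pade (X := z ^ 2) (by positivity) (by linarith)
    have hq : 0 < 6 - 6 * z ^ 2 + (z ^ 2) ^ 2 := by nlinarith
    rw [div_le_iff₀ hq] at hp
    have hl : -log (1 - z ^ 2) = 2 * l0 z := by
      rw [l0_eq (by linarith) (by linarith)]; ring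
    rw [hl] at hp
    have e : (z ^ 2 / (1 - z ^ 2) - 2 * l0 z) / z ^ 3 - z / (1 - z ^ 2) / 2 -
        2 * l0 z * (z / (1 - z ^ 2)) / 6 =
        (6 * z ^ 2 - 3 * (z ^ 2) ^ 2 - 2 * l0 z * (6 - 6 * z ^ 2 + (z ^ 2) ^ 2)) /
          (6 * z ^ 3 * (1 - z ^ 2)) := by
      field_simp; ring
    rw [e]
    exact div_nonpos_of_nonpos_of_nonneg (by linarith) (by positivity)

theorem exp_two_l0 {x : ℝ} (h : -1 < x) (h' : x < 1) : exp (2 * l0 x) = 1 / (1 - x ^ 2) := by
  rw [l0_eq h h', show 2 * (-log (1 - x ^ 2) / 2) = -log (1 - x ^ 2) by ring, exp_neg,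
    exp_log (one_sub_sq_pos h h'), one_div]

theorem l0_midpoint {u v : ℝ} (hu : 0 < u) (hu' : u < 1) (hv : 0 < v) (hv' : v < 1) :
    2 * l0 ((u + v) / 2) ≤ l0 u + l0 v :=
  calc3_mid (fun x h1 h2 => hasDerivAt_l0 (by linarith) h2)
    (fun x h1 h2 => hasDerivAt_div_one_sub (by linarith) h2) (fun x h1 h2 => by positivity)
    hu hu' hv hv'

theorem calc3_key {u v : ℝ} (hv : 0 < v) (hvu : v ≤ u) (hu' : u < 1) :
    2 * (l0 u / u ^ 2 - l0 v / v ^ 2) ≤
      th0 ((u + v) / 2) * (1 / (1 - u ^ 2) - 1 / (1 - v ^ 2)) := by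
  have hG := calc3_G_anti hv hvu hu'
  have hm := l0_midpoint (by linarith : 0 < u) hu' hv (by linarith)
  have hab := l0_le_l0 hv.le hvu hu'
  have hc0 := l0_nonneg (x := (u + v) / 2) (by linarith) (by linarith)
  have hs : 1 - ((u + v) / 2) ^ 2 = exp (-(2 * l0 ((u + v) / 2))) := by
    rw [exp_neg, exp_two_l0 (by linarith) (by linarith)]; simp
  unfold th0
  rw [hs, ← exp_two_l0 (by linarith) hu', ← exp_two_l0 (by linarith) (by linarith)]
  set a := l0 u
  set b := l0 v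
  set c := l0 ((u + v) / 2)
  have h1 : 2 * (a - b) * exp (a + b) ≤ exp (2 * a) - exp (2 * b) := by
    have h2 : a - b ≤ sinh (a - b) := self_le_sinh_iff.mpr (by linarith)
    rw [sinh_eq] at h2
    have e1 : exp (2 * a) = exp (a - b) * exp (a + b) := by rw [← exp_add]; congr 1; ring
    have e2 : exp (2 * b) = exp (-(a - b)) * exp (a + b) := by rw [← exp_add]; congr 1; ring
    rw [e1, e2, ← sub_mul]
    exact mul_le_mul_of_nonneg_right (by linarith) (exp_pos _).le
  have h2 : 1 + (a + b - 2 * c) ≤ exp (-(2 * c)) * exp (a + b) := by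
    rw [← exp_add]
    have := add_one_le_exp (-(2 * c) + (a + b))
    linarith
  have h3 : 1 / 2 + (a + b) / 6 ≤ (1 / 2 + c / 3) * (exp (-(2 * c)) * exp (a + b)) := by
    have := mul_le_mul_of_nonneg_left h2 (by linarith : 0 ≤ 1 / 2 + c / 3)
    nlinarith [mul_nonneg hc0 (by linarith : 0 ≤ a + b - 2 * c)]
  have h4 := mul_le_mul_of_nonneg_left h3 (by linarith : 0 ≤ 2 * (a - b))
  have h5 := mul_le_mul_of_nonneg_left h1
    (by have := exp_pos (-(2 * c)); positivity : 0 ≤ exp (-(2 * c)) * (1 / 2 + c / 3))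
  nlinarith

/-- comparison of second differences of `ff` and `T` -/
theorem lemma_i {u v : ℝ} (hu : 0 < u) (hu' : u < 1) (hv : 0 < v) (hv' : v < 1) :
    2 * (ff u + ff v - 2 * ff ((u + v) / 2)) ≤
      th0 ((u + v) / 2) * (T u + T v - 2 * T ((u + v) / 2)) := by
  wlog hvu : v ≤ u generalizing u v
  · have := this hv hv' hu hu' (le_of_not_ge hvu)
    rw [add_comm v u] at this
    linarith
  set s := (u + v) / 2 with hs
  have := calc_mono' (a := 0) (b := (u - v) / 2)
    (f := fun t => th0 s * (T (s + t) + T (s - t)) - 2 * (ff (s + t) + ff (s - t)))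
    (f' := fun t => th0 s * (1 / (1 - (s + t) ^ 2) - 1 / (1 - (s - t) ^ 2)) -
      2 * (l0 (s + t) / (s + t) ^ 2 - l0 (s - t) / (s - t) ^ 2)) (by linarith)
    (fun t h1 h2 => by
      have d1 : HasDerivAt (fun t : ℝ => s + t) 1 t := by simpa using (hasDerivAt_id t).const_add s
      have d2 : HasDerivAt (fun t : ℝ => s - t) (-1) t := by simpa using (hasDerivAt_id t).const_sub s
      have t1 := (hasDerivAt_T (x := s + t) (by linarith) (by linarith)).comp t d1
      have t2 := (hasDerivAt_T (x := s - t) (by linarith) (by linarith)).comp t d2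
      have f1 := (hasDerivAt_ff (x := s + t) (by linarith) (by linarith)).comp t d1
      have f2 := (hasDerivAt_ff (x := s - t) (by linarith) (by linarith)).comp t d2
      exact (((t1.add t2).const_mul (th0 s)).sub ((f1.add f2).const_mul 2)).congr_deriv (by ring))
    (fun t h1 h2 => by
      have := calc3_key (u := s + t) (v := s - t) (by linarith) (by linarith) (by linarith)
      rw [show (s + t + (s - t)) / 2 = s by ring] at this
      linarith)
  simp only [add_zero, sub_zero] at this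
  rw [show s + (u - v) / 2 = u by rw [hs]; ring, show s - (u - v) / 2 = v by rw [hs]; ring] at this
  linarith
theorem th0_nonneg {s : ℝ} (h : 0 ≤ s) (h' : s < 1) : 0 ≤ th0 s := by
  have h0 := one_sub_sq_pos (by linarith : -1 < s) h'
  have := l0_nonneg (by linarith : -1 < s) h'
  unfold th0; positivity
theorem th0_le_th0 {x y : ℝ} (h : 0 ≤ x) (hxy : x ≤ y) (h' : y < 1) : th0 y ≤ th0 x := by
  refine calc_anti' (f := th0) (f' := fun s => -(2 * s) * (1 / 3 + l0 s / 3)) hxy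
    (fun z h1 h2 => ?_) (fun z h1 h2 => ?_)
  · have := ((hasDerivAt_pow 2 z).const_sub 1).mul
      (((hasDerivAt_l0 (by linarith : -1 < z) (by linarith)).div_const 3).const_add (1 / 2))
    refine this.congr_deriv ?_
    have h0 := one_sub_sq_pos (by linarith : -1 < z) (by linarith)
    simp only [Nat.cast_ofNat, Nat.add_one_sub_one, pow_one]
    field_simp
    ring
  · have := l0_nonneg (by linarith : -1 < z) (by linarith)
    exact mul_nonpos_of_nonpos_of_nonneg (by linarith) (by positivity)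
theorem th0_le_half {s : ℝ} (h : 0 ≤ s) (h' : s < 1) : th0 s ≤ 1 / 2 := by
  have := th0_le_th0 le_rfl h h'
  simpa [th0, l0_zero] using this

theorem GG_symm (u v : ℝ) : GG u v = GG v u := by unfold GG; ring
theorem GG_self (s : ℝ) : GG s s = 2 * phi s := by
  unfold GG; rw [← mul_ff]; ring
theorem GG_le_GG {u v u' v' : ℝ} (hu : 0 ≤ u) (huu : u ≤ u') (hu' : u' ≤ 1)
    (hv : 0 ≤ v) (hvv : v ≤ v') (hv' : v' ≤ 1) : GG u v ≤ GG u' v' := by
  unfold GG
  have h1 := ff_le_ff hu huu hu'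
  have h2 := ff_le_ff hv hvv hv'
  have h3 := ff_nonneg hu (by linarith)
  have h4 := ff_nonneg hv (by linarith)
  exact mul_le_mul (by linarith) (by linarith) (by linarith) (by linarith)
theorem GG_le_phi_add {u v : ℝ} (hu : 0 ≤ u) (hu' : u ≤ 1) (hv : 0 ≤ v) (hv' : v ≤ 1) :
    GG u v ≤ phi u + phi v := by
  unfold GG
  rw [← mul_ff, ← mul_ff]
  rcases le_total u v with h | h
  · nlinarith [mul_nonneg (sub_nonneg.mpr h) (sub_nonneg.mpr (ff_le_ff hu h hv'))]
  · nlinarith [mul_nonneg (sub_nonneg.mpr h) (sub_nonneg.mpr (ff_le_ff hv h hu'))]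
theorem GG_le_sq {u v : ℝ} (hu : 0 ≤ u) (hu' : u ≤ 1) (hv : 0 ≤ v) (hv' : v ≤ 1) :
    GG u v ≤ 2 * log 2 * ((u + v) / 2) ^ 2 := by
  unfold GG
  have h1 := ff_le hu hu'
  have h2 := ff_le hv hv'
  have := mul_le_mul_of_nonneg_left (add_le_add h1 h2) (by linarith : 0 ≤ (u + v) / 2)
  nlinarith

end Vale.Agent.P322
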