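import Vale.Agent.P322.Calc2
import Vale.Agent.P322.Calc3

set_option linter.unusedVariables false

/-! Pointwise sufficient conditions for `Core`. -/

namespace Vale.Agent.P322
open Real Set

theorem core_symm {u v d : ℝ} (h : Core u v d) : Core v u d := by
  intro Q hA hB
  obtain ⟨g, k, hg, hk⟩ := h Q
    (fun k h1 h2 => by
      have := hA k h1 (by rwa [mul_comm v u])
      rw [GG_symm v u, add_comm v u, add_comm (T v) (T u)] at this
      exact this)
    (fun w s h1 h2 h3 h4 => by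
      have := hB w s h1 h2 h3 h4
      rwa [add_comm v u] at this)
  refine ⟨g, k, hg, ?_⟩
  rwa [GG_symm v u, mul_comm v u]

theorem rules_split (u v : ℝ) : (u + v) / 2 * ((T u + T v) / 2) =
    (u + v) / 2 * ((ss u + ss v) / 2) + GG u v := by
  rw [T_eq_ss_add, T_eq_ss_add (x := v)]
  unfold GG; ring

theorem rule_A {u v d : ℝ} (hu : 0 < u) (hu' : u < 1) (hv : 0 < v) (hv' : v < 1)
    (hd : 0 < d) (h : d ≤ (u + v) / 2) : Core u v d := by
  intro Q hA hB
  have h1 := hA 0 le_rfl (by have := mul_pos hu hv; linarith)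
  rw [rules_split] at h1
  refine ⟨0, 0, adm_zero, ?_⟩
  have h2 := ss_midpoint_cube hu hu' hv hv'
  have h3 := psi_le_psi hd.le h (by linarith)
  have h4 := mul_ss ((u + v) / 2)
  have hs : 0 < (u + v) / 2 := by linarith
  have h5 : 0 ≤ (u + v) / 2 * ((u - v) / 2) ^ 2 := by positivity
  have h6 := mul_le_mul_of_nonneg_left (show 2 * ss ((u + v) / 2) ≤ ss u + ss v by linarith) hs.le
  linarith

theorem rule_I {u v d : ℝ} (hu : 0 < u) (hu' : u < 1) (hv : 0 < v) (hv' : v < 1)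
    (hd' : d < 1) (h : (u + v) / 2 ≤ d)
    (h1 : psi d - psi ((u + v) / 2) ≤
      2 * ((u + v) / 2) ^ 2 / (2 + ((u + v) / 2) ^ 2) * (phi d - phi ((u + v) / 2)))
    (h2 : phi d - phi ((u + v) / 2) ≤ ((u + v) / 2) ^ 2 / 2) : Core u v d := by
  intro Q hA hB
  have hc := mul_pos hu hv
  have m1 := ss_midpoint_cube hu hu' hv hv'
  have m2 := ss_midpoint_ff hu hu' hv hv'
  have e1 := mul_ss ((u + v) / 2)
  have e2 := mul_ff ((u + v) / 2)
  have eG : GG u v = (u + v) / 2 * (ff u + ff v) := rfl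
  have eD : u * v = ((u + v) / 2) ^ 2 - ((u - v) / 2) ^ 2 := by ring
  have hs : 0 < (u + v) / 2 := by linarith
  have hA' := hA (2 * (u * v) / (2 + ((u + v) / 2) ^ 2)) (by positivity) (by
    rw [div_mul_eq_mul_div, div_le_iff₀ (by positivity)]
    nlinarith [sq_nonneg ((u - v) / 2)])
  rw [rules_split] at hA'
  refine ⟨0, 0, adm_zero, ?_⟩
  set s := (u + v) / 2
  set D := ((u - v) / 2) ^ 2 with hD
  have hD0 : 0 ≤ D := by positivity
  set r := 1 / (2 + s ^ 2) with hr
  have hr0 : 0 < r := by positivity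
  have hr1 : r * (2 + s ^ 2) = 1 := by rw [hr]; field_simp
  have k1 : 2 * (u * v) / (2 + s ^ 2) = 2 * (s ^ 2 - D) * r := by rw [hr, eD]; ring
  have k2 : 2 * s ^ 2 / (2 + s ^ 2) = 2 * s ^ 2 * r := by rw [hr]; ring
  rw [k1] at hA'
  rw [k2] at h1
  set Y := phi d - phi s with hY
  set Df := ff u + ff v - 2 * ff s with hDf
  set Ds := ss u + ss v - 2 * ss s with hDs
  have hk : 0 ≤ s ^ 2 - D := by linarith
  have a1 : GG u v = 2 * phi s + s * Df := by rw [eG, hDf, ← e2]; ring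
  have a2 : s * ((ss u + ss v) / 2) = psi s + s * Ds / 2 := by rw [hDs, ← e1]; ring
  have a3 : phi d - GG u v / 2 = Y - s * Df / 2 := by rw [a1, hY]; ring
  rw [a2, a3] at hA'
  have b0 : s * D ≤ Ds := by linarith
  have b1 : (s ^ 2 - D) * r * (s * Df) ≤ (s ^ 2 - D) * r * (s * (Ds / 2)) :=
    mul_le_mul_of_nonneg_left (mul_le_mul_of_nonneg_left (by linarith) hs.le) (by positivity)
  have hDs0 : 0 ≤ Ds := le_trans (by positivity) b0
  have b2 : s * Ds / 2 - (s ^ 2 - D) * r * (s * (Ds / 2)) = r * (2 + D) * (s * Ds / 2) := by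
    have : s * Ds / 2 = r * (2 + s ^ 2) * (s * Ds / 2) := by rw [hr1, one_mul]
    linear_combination this
  have b3 : r * 2 * (s * (s * D) / 2) ≤ r * (2 + D) * (s * Ds / 2) := by
    apply mul_le_mul (mul_le_mul_of_nonneg_left (by linarith) hr0.le) _ (by positivity)
      (by positivity)
    have := mul_le_mul_of_nonneg_left b0 hs.le
    linarith
  have b4 : 2 * D * r * Y ≤ 2 * D * r * (s ^ 2 / 2) :=
    mul_le_mul_of_nonneg_left h2 (by positivity)
  nlinarith

theorem rule_B1 {u v d θ : ℝ} (hu : 0 < u) (hu' : u < 1) (hv : 0 < v) (hv' : v < 1)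
    (hd' : d < 1) (h : (u + v) / 2 ≤ d) (hθ : th0 ((u + v) / 2) ≤ θ) (hθ' : θ ≤ 1)
    (h1 : θ * dchi d + (1 - θ) * aom d ≤ 2 * T ((u + v) / 2)) : Core u v d := by
  intro Q hA hB
  have hs : 0 < (u + v) / 2 := by linarith
  have hd : 0 < d := by linarith
  have a1 := hA 0 le_rfl (by have := mul_pos hu hv; linarith)
  have a2 := hB d 1 hd hd' one_pos le_rfl
  have a3 := mul_aom hd
  have a4 := lemma_i hu hu' hv hv'
  have a5 := T_midpoint hu.le hu' hv.le hv'
  have a6 := th0_nonneg hs.le (by linarith)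
  have a7 := chi_sub_le hs.le h hd'
  have a8 := phi_quad_lower (U := d) (u := (u + v) / 2) (by linarith) hd'.le (by linarith)
    (by linarith)
  have e2 := mul_ff ((u + v) / 2)
  have eG : GG u v = (u + v) / 2 * (ff u + ff v) := rfl
  have ec : chi ((u + v) / 2) = (u + v) / 2 * T ((u + v) / 2) := rfl
  have ep : psi d = chi d - 2 * phi d := rfl
  refine ⟨0, 0, adm_zero, ?_⟩
  set s := (u + v) / 2
  have hθ0 : 0 ≤ θ := by linarith
  have b1 := mul_le_mul_of_nonneg_left a1 hθ0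
  have b2 := mul_le_mul_of_nonneg_left a2 (sub_nonneg.mpr hθ')
  have b3 : 2 * (ff u + ff v - 2 * ff s) ≤ θ * (T u + T v - 2 * T s) :=
    a4.trans (mul_le_mul_of_nonneg_right hθ (by linarith))
  have b4 := mul_le_mul_of_nonneg_left b3 hs.le
  have b5 := mul_le_mul_of_nonneg_left a7 hθ0
  have b6 := mul_le_mul_of_nonneg_left h1 (sub_nonneg.mpr h)
  have b7 : kpp d * hh d = d * aom d - chi d := by linarith
  have b8 : (1 - θ) * (s * 1 * aom d - 1 ^ 2 * kpp d * hh d) =
      (1 - θ) * (chi d - (d - s) * aom d) := by rw [one_pow, one_mul, b7]; ring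
  rw [b8] at b2
  rw [ec] at b5
  nlinarith [sq_nonneg (d - s)]

theorem rule_b2 {u v d g k : ℝ} (hd : 0 < d) (hd' : d < 1) (hg : Adm g k)
    (h1 : GG u v + (d - (u + v) / 2) * aom d + k * hh d ≤ 2 * phi d + (1 - u * v) * g) :
    Core u v d := by
  intro Q hA hB
  have a2 := hB d 1 hd hd' one_pos le_rfl
  have a3 := mul_aom hd
  have ep : psi d = chi d - 2 * phi d := rfl
  refine ⟨g, k, hg, ?_⟩
  linarith

theorem rule_b {u v d w S g k : ℝ} (hu : 0 < u) (hv : 0 < v) (hw : 0 < w) (hw' : w < 1)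
    (hS : (u + v) / 2 ≤ S) (hg : Adm g k)
    (h1 : GG u v + psi d + k * hh d ≤
      ((u + v) / 2 / S) ^ 2 * (S * aom w - kpp w * hh d) + (1 - u * v) * g) : Core u v d := by
  intro Q hA hB
  have hs : 0 < (u + v) / 2 := by linarith
  have hS0 : 0 < S := by linarith
  have a2 := hB w ((u + v) / 2 / S) hw hw' (by positivity) ((div_le_one hS0).mpr hS)
  have e : ((u + v) / 2 / S) ^ 2 * (S * aom w - kpp w * hh d) =
      (u + v) / 2 * ((u + v) / 2 / S) * aom w - ((u + v) / 2 / S) ^ 2 * kpp w * hh d := by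
    field_simp
  refine ⟨g, k, hg, ?_⟩
  linarith

theorem rule_a {u v d m g k : ℝ} (hm : 0 ≤ m) (hm' : m * (2 + u * v) ≤ 2 * (u * v))
    (hg : Adm g k)
    (h1 : psi d + k * hh d ≤
      (u + v) / 2 * ((ss u + ss v) / 2) + m * (phi d - GG u v / 2) + (1 - u * v) * g) :
    Core u v d := by
  intro Q hA hB
  have a1 := hA m hm hm'
  rw [rules_split] at a1
  refine ⟨g, k, hg, ?_⟩
  linarith

end Vale.Agent.P322
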