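import Vale.Agent.P322.BBVal
import Vale.Agent.P322.Rules

/-! Soundness of the box checker. -/

namespace Vale.Agent.P322.BB
open Real Vale.Agent.P322

def Sem (u0 u1 v0 v1 d0 d1 : ℝ) : Prop :=
  ∀ u v d : ℝ, u0 ≤ u → u < u1 → v0 ≤ v → v ≤ v1 → d0 ≤ d → d ≤ d1 → 0 < v → v ≤ u → u < 1 →
    (u + v) / 2 ≤ d → Core u v d

theorem Sem.su {u0 u1 v0 v1 d0 d1 : ℝ} (m : ℝ) (hl : Sem u0 m v0 v1 d0 d1)
    (hr : Sem m u1 v0 v1 d0 d1) : Sem u0 u1 v0 v1 d0 d1 := by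
  intro u v d a1 a2 a3 a4 a5 a6 a7 a8 a9 a10
  rcases lt_or_ge u m with h | h
  · exact hl u v d a1 h a3 a4 a5 a6 a7 a8 a9 a10
  · exact hr u v d h a2 a3 a4 a5 a6 a7 a8 a9 a10

theorem Sem.sv {u0 u1 v0 v1 d0 d1 : ℝ} (m : ℝ) (hl : Sem u0 u1 v0 m d0 d1)
    (hr : Sem u0 u1 m v1 d0 d1) : Sem u0 u1 v0 v1 d0 d1 := by
  intro u v d a1 a2 a3 a4 a5 a6 a7 a8 a9 a10
  rcases le_total v m with h | h
  · exact hl u v d a1 a2 a3 h a5 a6 a7 a8 a9 a10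
  · exact hr u v d a1 a2 h a4 a5 a6 a7 a8 a9 a10

theorem Sem.sd {u0 u1 v0 v1 d0 d1 : ℝ} (m : ℝ) (hl : Sem u0 u1 v0 v1 d0 m)
    (hr : Sem u0 u1 v0 v1 m d1) : Sem u0 u1 v0 v1 d0 d1 := by
  intro u v d a1 a2 a3 a4 a5 a6 a7 a8 a9 a10
  rcases le_total d m with h | h
  · exact hl u v d a1 a2 a3 a4 a5 h a7 a8 a9 a10
  · exact hr u v d a1 a2 a3 a4 h a6 a7 a8 a9 a10

/-! ### real box lemmas -/

theorem sem_I {u0 u1 v0 v1 d0 d1 s : ℝ} (hs0 : 0 < s) (hs : s ≤ (u0 + v0) / 2) (hd1 : d1 < 1)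
    (h1 : kap d1 ≤ 2 * (s * s) / (2 * 1 + s * s)) (h2 : phi d1 ≤ phi s + s * s / 2) :
    Sem u0 u1 v0 v1 d0 d1 := by
  intro u v d a1 a2 a3 a4 a5 a6 a7 a8 a9 a10
  have hd : d < 1 := by linarith
  have hsσ : s ≤ (u + v) / 2 := by linarith
  refine rule_I (by linarith) a9 a7 (by linarith) hd a10 ?_ ?_
  · generalize (u + v) / 2 = σ at *
    have e1 := psi_tangent_y (d := d) (x := σ) (by linarith) hd (by linarith) (by linarith)
    have e2 := kap_le_kap (x := d) (y := d1) (by linarith) a6 hd1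
    have e3 := phi_le_phi (x := σ) (y := d) (by linarith) a10 hd.le
    have e4 : 2 * (s * s) / (2 * 1 + s * s) ≤ 2 * σ ^ 2 / (2 + σ ^ 2) := by
      rw [div_le_div_iff₀ (by positivity) (by positivity)]; nlinarith
    have e5 : kap d ≤ 2 * σ ^ 2 / (2 + σ ^ 2) := by linarith
    have := mul_le_mul_of_nonneg_right e5 (sub_nonneg.mpr e3)
    linarith
  · generalize (u + v) / 2 = σ at *
    have e1 := phi_le_phi (x := d) (y := d1) (by linarith) a6 hd1.le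
    have e2 := phi_le_phi (x := s) (y := σ) hs0.le hsσ (by linarith)
    nlinarith

theorem sem_B1 {u0 u1 v0 v1 d0 d1 s θ : ℝ} (hs0 : 0 ≤ s) (hs : s ≤ (u0 + v0) / 2) (hd1 : d1 < 1)
    (h0 : th0 s ≤ θ) (hθ0 : 0 ≤ θ) (hθ : θ ≤ 1)
    (h1 : θ * dchi d1 + (1 - θ) * aom d1 ≤ 2 * T s) : Sem u0 u1 v0 v1 d0 d1 := by
  intro u v d a1 a2 a3 a4 a5 a6 a7 a8 a9 a10
  have hd : d < 1 := by linarith
  have hsσ : s ≤ (u + v) / 2 := by linarith
  have hσ : 0 < (u + v) / 2 := by linarith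
  refine rule_B1 (θ := θ) (by linarith) a9 a7 (by linarith) hd a10 ?_ hθ ?_
  · exact (th0_le_th0 hs0 hsσ (by linarith)).trans h0
  · have e1 := dchi_le_dchi (x := d) (y := d1) (by linarith) a6 hd1
    have e2 := aom_le_aom (x := d) (y := d1) (by linarith) a6 hd1
    have e3 := T_le_T (x := s) (y := (u + v) / 2) (by linarith) hsσ (by linarith)
    have e4 := mul_le_mul_of_nonneg_left e1 hθ0
    have e5 := mul_le_mul_of_nonneg_left e2 (sub_nonneg.mpr hθ)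
    linarith

theorem sem_b2 {u0 u1 v0 v1 d0 d1 g k : ℝ} (hu1 : u1 ≤ 1) (hv1 : v1 ≤ 1) (hd0 : 0 ≤ d0)
    (hd1 : d1 < 1) (hg : Adm g k)
    (h1 : GG u1 v1 + (d1 - (u0 + v0) / 2) * aom d1 + k * hh d0 ≤
      2 * phi d0 + (1 - u1 * v1) * g) : Sem u0 u1 v0 v1 d0 d1 := by
  intro u v d a1 a2 a3 a4 a5 a6 a7 a8 a9 a10
  have hd : d < 1 := by linarith
  have hd' : 0 < d := by linarith
  refine rule_b2 hd' hd hg ?_
  have e1 := GG_le_GG (u := u) (v := v) (by linarith) a2.le hu1 a7.le a4 hv1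
  have e2 := aom_le_aom hd' a6 hd1
  have e3 := aom_pos hd' hd
  have e4 : (d - (u + v) / 2) * aom d ≤ (d1 - (u0 + v0) / 2) * aom d1 :=
    mul_le_mul (by linarith) e2 e3.le (by linarith)
  have e5 := mul_le_mul_of_nonneg_left (hh_le_hh hd0 a5 hd.le) hg.1
  have e6 := phi_le_phi hd0 a5 hd.le
  have e7 : u * v ≤ u1 * v1 := mul_le_mul a2.le a4 a7.le (by linarith)
  have e8 := mul_le_mul_of_nonneg_right (by linarith : 1 - u1 * v1 ≤ 1 - u * v) hg.2.1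
  linarith

theorem harm_mono {a b u v : ℝ} (ha : 0 ≤ a) (hb : 0 ≤ b) (hab : 0 < (a + b) / 2) (h1 : a ≤ u)
    (h2 : b ≤ v) : a * b / ((a + b) / 2) ≤ u * v / ((u + v) / 2) := by
  rw [div_le_div_iff₀ hab (by linarith)]
  have hu : 0 ≤ u := by linarith
  have hv : 0 ≤ v := by linarith
  nlinarith [mul_nonneg (mul_nonneg ha hu) (sub_nonneg.mpr h2),
    mul_nonneg (mul_nonneg hb hv) (sub_nonneg.mpr h1)]

/-- interpolation in `d` of a corner inequality -/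
theorem interp_d {d0 d d1 s g k a C : ℝ} (h0 : 0 ≤ d0) (h1 : d0 ≤ d) (h2 : d ≤ d1) (h3 : d1 < 1)
    (hs : 0 < s) (H0 : (psi d0 + k * hh d0 - g) / s + a * hh d0 ≤ C)
    (H1 : (psi d1 + k * hh d1 - g) / s + a * hh d1 ≤ C) :
    (psi d + k * hh d - g) / s + a * hh d ≤ C := by
  have e : ∀ x, (k / s + a) * phi x - 1 / s * psi x + (C - (k * log 2 - g) / s - a * log 2) =
      C - ((psi x + k * hh x - g) / s + a * hh x) := by
    intro x; unfold hh; ring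
  have := conc_y (α := k / s + a) (β := 1 / s) (C := C - (k * log 2 - g) / s - a * log 2)
    h0 h1 h2 h3 (by positivity) (by rw [e]; linarith) (by rw [e]; linarith)
  rw [e] at this; linarith

theorem sem_a {u0 u1 v0 v1 d0 d1 g k s m c r : ℝ} (hu0 : 0 ≤ u0) (hv0 : 0 ≤ v0) (hu1 : u1 ≤ 1)
    (hv1 : v1 ≤ 1) (hd0 : 0 ≤ d0) (hd1 : d1 < 1) (hg : Adm g k) (hs0 : 0 < s)
    (hs : s ≤ (u0 + v0) / 2) (hm0 : 0 ≤ m)
    (hm : m ≤ 2 * (u0 * v0 / ((u0 + v0) / 2)) / (2 * 1 + u1 * v1))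
    (hc : u0 ≤ u1 → v0 ≤ v1 → u1 * v1 / ((u1 + v1) / 2) * g + m * (GG u1 v1 / 2) ≤ c)
    (hr : u0 < 1 → v0 < 1 → r ≤ (ss u0 + ss v0) / 2)
    (H0 : (psi d0 + k * hh d0 - g) / s + c ≤ r + m * phi d0)
    (H1 : (psi d1 + k * hh d1 - g) / s + c ≤ r + m * phi d1) : Sem u0 u1 v0 v1 d0 d1 := by
  intro u v d a1 a2 a3 a4 a5 a6 a7 a8 a9 a10
  have hd : d < 1 := by linarith
  have hd' : 0 < d := by linarith
  have hu : 0 < u := by linarith
  have hσ : 0 < (u + v) / 2 := by linarith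
  have hsσ : s ≤ (u + v) / 2 := by linarith
  have z0 := harm_mono hu0 hv0 (by linarith) a1 a3
  have z1 := harm_mono hu.le a7.le hσ a2.le a4
  have e7 : u * v ≤ u1 * v1 := mul_le_mul a2.le a4 a7.le (by linarith)
  have huv : 0 < u * v := mul_pos hu a7
  have hc' := hc (by linarith) (by linarith)
  have hr' := hr (by linarith) (by linarith)
  have e1 := GG_le_GG (u := u) (v := v) hu.le a2.le hu1 a7.le a4 hv1
  have e2 := ss_le_ss hu0 a1 a9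
  have e3 := ss_le_ss (y := v) hv0 a3 (by linarith)
  have eh : ∀ x, m * hh x = m * log 2 - m * phi x := by intro x; unfold hh; ring
  have key := interp_d (a := m) (g := g) (k := k) (C := r - c + m * log 2) hd0 a5 a6 hd1 hs0
    (by rw [eh]; linarith) (by rw [eh]; linarith)
  rw [eh] at key
  have hBr : 0 ≤ psi d + k * hh d - g := by have := hg.2.2 d hd'.le hd; linarith
  have e4 : (psi d + k * hh d - g) / ((u + v) / 2) ≤ (psi d + k * hh d - g) / s :=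
    div_le_div_of_nonneg_left hBr hs0 hsσ
  have e5 := mul_le_mul_of_nonneg_right z1 hg.2.1
  have e6 := mul_le_mul_of_nonneg_left e1 hm0
  have e9 : (psi d + k * hh d - g) / ((u + v) / 2) + u * v / ((u + v) / 2) * g ≤
      (ss u + ss v) / 2 + m * (phi d - GG u v / 2) := by linarith
  have hzσ : u * v / ((u + v) / 2) * ((u + v) / 2) = u * v := div_mul_cancel₀ _ hσ.ne'
  refine rule_a (m := m * ((u + v) / 2)) (mul_nonneg hm0 hσ.le) ?_ hg ?_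
  · rw [le_div_iff₀ (by linarith)] at hm
    have h1 := mul_le_mul_of_nonneg_left e7 hm0
    have h2 : m * (2 + u * v) ≤ 2 * (u * v / ((u + v) / 2)) := by linarith
    have h3 := mul_le_mul_of_nonneg_right h2 hσ.le
    rw [mul_assoc 2, hzσ] at h3
    linarith
  · have := mul_le_mul_of_nonneg_right e9 hσ.le
    rw [add_mul, div_mul_cancel₀ _ hσ.ne', mul_right_comm, hzσ] at this
    linarith

theorem conv_ff {a x b c C : ℝ} (ha : 0 ≤ a) (hax : a ≤ x) (hxb : x ≤ b) (hb : b ≤ 1)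
    (H0 : ff a + c * a ≤ C) (H1 : ff b + c * b ≤ C) : ff x + c * x ≤ C := by
  obtain ⟨l, m, hl, hm, hlm, rfl⟩ := (Convex.mem_Icc (hax.trans hxb)).1 ⟨hax, hxb⟩
  have := convexOn_ff.2 (x := a) (y := b) ⟨ha, by linarith⟩ ⟨by linarith, hb⟩ hl hm hlm
  simp only [smul_eq_mul] at this
  have e1 := mul_le_mul_of_nonneg_left H0 hl
  have e2 := mul_le_mul_of_nonneg_left H1 hm
  have e3 : C = l * C + m * C := by rw [← add_mul, hlm, one_mul]
  nlinarith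

theorem conv_uv {u0 u u1 v0 v v1 cu cv E N P : ℝ} (hu0 : 0 ≤ u0) (h1 : u0 ≤ u) (h2 : u ≤ u1)
    (hu1 : u1 ≤ 1) (hv0 : 0 ≤ v0) (h3 : v0 ≤ v) (h4 : v ≤ v1) (hv1 : v1 ≤ 1)
    (H00 : ff u0 + ff v0 + cu * u0 + cv * v0 + E + (u0 + v0) / 2 * N ≤ (u0 + v0) / 2 * P)
    (H01 : ff u0 + ff v1 + cu * u0 + cv * v1 + E + (u0 + v1) / 2 * N ≤ (u0 + v1) / 2 * P)
    (H10 : ff u1 + ff v0 + cu * u1 + cv * v0 + E + (u1 + v0) / 2 * N ≤ (u1 + v0) / 2 * P)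
    (H11 : ff u1 + ff v1 + cu * u1 + cv * v1 + E + (u1 + v1) / 2 * N ≤ (u1 + v1) / 2 * P) :
    ff u + ff v + cu * u + cv * v + E + (u + v) / 2 * N ≤ (u + v) / 2 * P := by
  have k0 := conv_ff (c := cv + (N - P) / 2) (C := -(ff u0 + cu * u0 + E + u0 / 2 * (N - P)))
    hv0 h3 h4 hv1 (by linarith) (by linarith)
  have k1 := conv_ff (c := cv + (N - P) / 2) (C := -(ff u1 + cu * u1 + E + u1 / 2 * (N - P)))
    hv0 h3 h4 hv1 (by linarith) (by linarith)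
  have k := conv_ff (c := cu + (N - P) / 2) (C := -(ff v + cv * v + E + v / 2 * (N - P)))
    hu0 h1 h2 hu1 (by linarith) (by linarith)
  linarith

theorem core_b {u v d w S g k t cu cv E N P : ℝ} (hu : 0 < u) (hv : 0 < v) (hw : 0 < w)
    (hw' : w < 1) (hS : (u + v) / 2 ≤ S) (hg : Adm g k) (hcu : 2 * (t * t) * g ≤ cu)
    (hcv : 2 * ((1 - t) * (1 - t)) * g ≤ cv) (hE : psi d + k * hh d - g ≤ (u + v) / 2 * E)
    (hN : kpp w / S / S * hh d ≤ N) (hP : P ≤ aom w / S)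
    (H : ff u + ff v + cu * u + cv * v + E + (u + v) / 2 * N ≤ (u + v) / 2 * P) :
    Core u v d := by
  have hσ : 0 < (u + v) / 2 := by linarith
  have hS0 : 0 < S := by linarith
  refine rule_b hu hv hw hw' hS hg ?_
  have e : ((u + v) / 2 / S) ^ 2 * (S * aom w - kpp w * hh d) =
      (u + v) / 2 * ((u + v) / 2 * (aom w / S - kpp w / S / S * hh d)) := by field_simp
  rw [e]; unfold GG
  have e1 := mul_le_mul_of_nonneg_left (mul_le_mul_of_nonneg_left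
    (by linarith : P - N ≤ aom w / S - kpp w / S / S * hh d) hσ.le) hσ.le
  have e2 := mul_le_mul_of_nonneg_left H hσ.le
  have e3 := mul_le_mul_of_nonneg_left (add_le_add (mul_le_mul_of_nonneg_right hcu hu.le)
    (mul_le_mul_of_nonneg_right hcv hv.le)) hσ.le
  have e4 : u * v * g ≤ (u + v) / 2 * (2 * (t * t) * g * u + 2 * ((1 - t) * (1 - t)) * g * v) := by
    have := mul_nonneg hg.2.1 (sq_nonneg (t * u - (1 - t) * v))
    nlinarith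
  nlinarith

theorem sem_b {u0 u1 v0 v1 d0 d1 w S g k t cu cv s q P : ℝ} (hu0 : 0 ≤ u0) (hv0 : 0 ≤ v0)
    (hu1 : u1 ≤ 1) (hv1 : v1 ≤ 1) (hd0 : 0 ≤ d0) (hd1 : d1 < 1) (hw : 0 < w) (hw' : w < 1)
    (hS : (u1 + v1) / 2 ≤ S) (hg : Adm g k) (hcu : 2 * (t * t) * g ≤ cu)
    (hcv : 2 * ((1 - t) * (1 - t)) * g ≤ cv) (hs0 : 0 < s) (hs : s ≤ (u0 + v0) / 2)
    (hq : kpp w / S / S ≤ q) (hP : P ≤ aom w / S)
    (H : ∀ u v d, (u = u0 ∨ u = u1) → (v = v0 ∨ v = v1) → (d = d0 ∨ d = d1) →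
      ff u + ff v + cu * u + cv * v + (psi d + k * hh d - g) / s + (u + v) / 2 * (q * hh d) ≤
        (u + v) / 2 * P) : Sem u0 u1 v0 v1 d0 d1 := by
  intro u v d a1 a2 a3 a4 a5 a6 a7 a8 a9 a10
  have hd : d < 1 := by linarith
  have hd' : 0 < d := by linarith
  have hBr : 0 ≤ psi d + k * hh d - g := by have := hg.2.2 d hd'.le hd; linarith
  have K : ∀ u v, (u = u0 ∨ u = u1) → (v = v0 ∨ v = v1) →
      ff u + ff v + cu * u + cv * v + (psi d + k * hh d - g) / s + (u + v) / 2 * (q * hh d) ≤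
        (u + v) / 2 * P := by
    intro x y hx hy
    have := interp_d (a := (x + y) / 2 * q) (g := g) (k := k)
      (C := (x + y) / 2 * P - (ff x + ff y + cu * x + cv * y)) hd0 a5 a6 hd1 hs0
      (by have := H x y d0 hx hy (Or.inl rfl); linarith)
      (by have := H x y d1 hx hy (Or.inr rfl); linarith)
    linarith
  refine core_b (E := (psi d + k * hh d - g) / s) (N := q * hh d) (P := P) (by linarith) a7 hw hw'
    (by linarith : (u + v) / 2 ≤ S) hg hcu hcv ?_ ?_ hP ?_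
  · have e : psi d + k * hh d - g = s * ((psi d + k * hh d - g) / s) := by field_simp
    have := mul_le_mul_of_nonneg_right (by linarith : s ≤ (u + v) / 2) (div_nonneg hBr hs0.le)
    linarith
  · exact mul_le_mul_of_nonneg_right hq (hh_nonneg (by linarith) hd.le)
  · exact conv_uv hu0 a1 a2.le hu1 hv0 a3 a4 hv1 (K _ _ (Or.inl rfl) (Or.inl rfl))
      (K _ _ (Or.inl rfl) (Or.inr rfl)) (K _ _ (Or.inr rfl) (Or.inl rfl))
      (K _ _ (Or.inr rfl) (Or.inr rfl))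

theorem sem_3 {u0 u1 v0 v1 d0 d1 w S t cu cv N P : ℝ} (hu0 : 0 ≤ u0) (hv0 : 0 ≤ v0)
    (hu1 : u1 ≤ 1) (hv1 : v1 ≤ 1) (hd0 : 0 ≤ d0) (hd1 : d1 < 1) (hw : 0 < w) (hw' : w < 1)
    (hS : (u1 + v1) / 2 ≤ S) (hcu : 2 * (t * t) * gam d1 ≤ cu)
    (hcv : 2 * ((1 - t) * (1 - t)) * gam d1 ≤ cv)
    (hN : kpp w / S / S * hh d0 ≤ N) (hP : P ≤ aom w / S)
    (H00 : ff u0 + ff v0 + cu * u0 + cv * v0 + 0 + (u0 + v0) / 2 * N ≤ (u0 + v0) / 2 * P)
    (H01 : ff u0 + ff v1 + cu * u0 + cv * v1 + 0 + (u0 + v1) / 2 * N ≤ (u0 + v1) / 2 * P)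
    (H10 : ff u1 + ff v0 + cu * u1 + cv * v0 + 0 + (u1 + v0) / 2 * N ≤ (u1 + v0) / 2 * P)
    (H11 : ff u1 + ff v1 + cu * u1 + cv * v1 + 0 + (u1 + v1) / 2 * N ≤ (u1 + v1) / 2 * P) :
    Sem u0 u1 v0 v1 d0 d1 := by
  intro u v d a1 a2 a3 a4 a5 a6 a7 a8 a9 a10
  have hd : d < 1 := by linarith
  have hd' : 0 < d := by linarith
  have hS0 : 0 < S := by linarith
  have e1 := gam_le_gam hd' a6 hd1
  refine core_b (t := t) (E := 0) (N := N) (P := P) (by linarith) a7 hw hw'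
    (by linarith : (u + v) / 2 ≤ S) (adm_tangent hd' hd) ?_ ?_ ?_ ?_ hP
    (conv_uv hu0 a1 a2.le hu1 hv0 a3 a4 hv1 H00 H01 H10 H11)
  · exact (mul_le_mul_of_nonneg_left e1 (by nlinarith [mul_self_nonneg t])).trans hcu
  · exact (mul_le_mul_of_nonneg_left e1 (by nlinarith [mul_self_nonneg (1 - t)])).trans hcv
  · unfold gam; linarith
  · have := kpp_pos hw hw'
    exact (mul_le_mul_of_nonneg_left (hh_le_hh hd0 a5 hd.le) (by positivity)).trans hN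

/-! ### the checker -/

theorem lo_mid (a b : ℕ) : Lo ((a + b) / 2) ((val a + val b) / 2) :=
  ((Lo.refl a).add (Lo.refl b)).half
theorem hi_mid (a b : ℕ) : Hi ((a + b) / 2 + 1) ((val a + val b) / 2) :=
  ((Hi.refl a).add (Hi.refl b)).half
theorem le_of_val_le {a b : ℕ} (h : val a ≤ val b) : a ≤ b := by
  by_contra hc
  exact absurd (val_lt_val (Nat.lt_of_not_le hc)) (not_lt.mpr h)

variable {u0 u1 v0 v1 d0 d1 : Pt}

theorem chkI_sound (hd1 : Inn d1) (h : chkI u0 v0 d1 = true) (a b c : ℝ) :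
    Sem (val u0.x) a (val v0.x) b c (val d1.x) := by
  rw [chkI] at h
  simp only [Bool.and_eq_true] at h
  obtain ⟨⟨⟨h1, h2⟩, h3⟩, h4⟩ := h
  have hs : PtOk (mkPt ((u0.x + v0.x) / 2)) := mkPt_ok (by have := ble_le h2; rwa [mkPt_x] at this)
  have hx := lo_mid u0.x v0.x
  rw [← mkPt_x ((u0.x + v0.x) / 2)] at hx
  generalize mkPt ((u0.x + v0.x) / 2) = s at *
  have h0 : 0 < val s.x := val_pos (blt_lt h1)
  exact sem_I h0 hx hd1.x1
    (le_of_ble h3 hd1.hi_kap (((Lo.refl _).md (Lo.refl _)).two.dd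
      (hi_one.two.add ((Hi.refl _).mu (Hi.refl _) h0.le)) (by positivity)))
    (le_of_ble h4 hd1.ok.hi_phi (hs.lo_phi.add ((Lo.refl _).md (Lo.refl _)).half))

theorem chkB1_sound (hd1 : Inn d1) (h : chkB1 u0 v0 d1 = true) (a b c : ℝ) :
    Sem (val u0.x) a (val v0.x) b c (val d1.x) := by
  rw [chkB1] at h
  simp only [Bool.and_eq_true] at h
  obtain ⟨⟨h1, h2⟩, h3⟩ := h
  have hs : PtOk (mkPt ((u0.x + v0.x) / 2)) :=
    mkPt_ok (by have := (blt_lt h1).le; rwa [mkPt_x] at this)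
  have hx := lo_mid u0.x v0.x
  rw [← mkPt_x ((u0.x + v0.x) / 2)] at hx
  generalize mkPt ((u0.x + v0.x) / 2) = s at *
  refine sem_B1 (θ := val (th0hi s)) hs.x0 hx hd1.x1 hs.hi_th0 (val_nonneg _) ?_ ?_
  · rw [← val_one]; exact val_le_val (ble_le h2)
  · exact le_of_ble h3 (((Hi.refl _).mu hd1.hi_dchi (dchi_nonneg hd1.x0.le hd1.x1)).add
      ((hi_one.sub (Lo.refl _)).mu hd1.hi_aom (aom_pos hd1.x0 hd1.x1).le)) hs.lo_T.two

theorem chkb2_sound {dp : ℕ} (hu1 : PtOk u1) (hv1 : PtOk v1) (hd0 : Inn d0) (hd1 : Inn d1)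
    (h : chkb2 u0 u1 v0 v1 d0 d1 dp = true) :
    Sem (val u0.x) (val u1.x) (val v0.x) (val v1.x) (val d0.x) (val d1.x) := by
  rw [chkb2] at h
  simp only [Bool.and_eq_true] at h
  obtain ⟨h1, h2⟩ := h
  have huv : 0 ≤ 1 - val u1.x * val v1.x := by
    have := mul_le_one₀ hu1.x1 hv1.x0 hv1.x1; linarith
  exact sem_b2 hu1.x1 hv1.x1 hd0.x0.le hd1.x1 (line_adm h1)
    (le_of_ble h2 (((hi_GG hu1 hv1).add (((Hi.refl _).sub (lo_mid _ _)).mu hd1.hi_aom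
      (aom_pos hd1.x0 hd1.x1).le)).add ((Hi.refl _).mu hd0.ok.hi_hh hd0.ok.hh0))
      (hd0.ok.lo_phi.two.add ((lo_one.sub ((Hi.refl _).mu (Hi.refl _) hv1.x0) huv).md (Lo.refl _))))

theorem chka_sound {dp : ℕ} (hu0 : PtOk u0) (hu1 : PtOk u1) (hv0 : PtOk v0) (hv1 : PtOk v1)
    (hd0 : Inn d0) (hd1 : Inn d1) (h : chka u0 u1 v0 v1 d0 d1 dp = true) :
    Sem (val u0.x) (val u1.x) (val v0.x) (val v1.x) (val d0.x) (val d1.x) := by
  rw [chka] at h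
  simp only [Bool.and_eq_true] at h
  obtain ⟨⟨⟨h1, h2⟩, h3⟩, h4⟩ := h
  have hs := blt_lt h2
  have hx : val ((u0.x + v0.x) / 2) ≤ (val u0.x + val v0.x) / 2 := lo_mid u0.x v0.x
  have hs0 := val_pos hs
  have huv := mul_nonneg hu1.x0 hv1.x0
  refine sem_a hu0.x0 hv0.x0 hu1.x1 hv1.x1 hd0.x0.le hd1.x1 (line_adm h1) hs0 hx (val_nonneg _)
    ((((Lo.refl _).md (Lo.refl _)).dd (hi_mid _ _) (hs0.trans_le hx)).two.dd
      (hi_one.two.add ((Hi.refl _).mu (Hi.refl _) hv1.x0)) (by positivity)) ?_ ?_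
    (le_of_ble h3 ((hi_br hd0.ok _ _ hs).add (Hi.refl _))
      ((Lo.refl _).add ((Lo.refl _).md hd0.ok.lo_phi)))
    (le_of_ble h4 ((hi_br hd1.ok _ _ hs).add (Hi.refl _))
      ((Lo.refl _).add ((Lo.refl _).md hd1.ok.lo_phi)))
  · intro a1 a2
    have b1 := le_of_val_le a1
    have b2 := le_of_val_le a2
    have b3 : 0 < (u1.x + v1.x) / 2 := by omega
    have hG : 0 ≤ GG (val u1.x) (val v1.x) / 2 := by
      have := hu1.ff0; have := hv1.ff0; have := hu1.x0; have := hv1.x0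
      unfold GG; positivity
    exact (((((Hi.refl _).mu (Hi.refl _) hv1.x0).du (lo_mid _ _) b3).mu (Hi.refl _)
      (val_nonneg _)).add ((Hi.refl _).mu (hi_GG hu1 hv1).half hG))
  · intro a1 a2
    exact ((hu0.lo_ss a1).add (hv0.lo_ss a2)).half

theorem corners_sound (hu0 : PtOk u0) (hu1 : PtOk u1) (hv0 : PtOk v0) (hv1 : PtOk v1)
    {cu cv e n q : ℕ} {E N : ℝ} (hE : Hi e E) (hN : Hi n N) (hN0 : 0 ≤ N)
    (h : corners u0 u1 v0 v1 cu cv e n q = true) (u v : ℝ) (hu : u = val u0.x ∨ u = val u1.x)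
    (hv : v = val v0.x ∨ v = val v1.x) :
    ff u + ff v + val cu * u + val cv * v + E + (u + v) / 2 * N ≤ (u + v) / 2 * val q := by
  rw [corners] at h
  simp only [Bool.and_eq_true] at h
  obtain ⟨⟨⟨h1, h2⟩, h3⟩, h4⟩ := h
  rcases hu with rfl | rfl <;> rcases hv with rfl | rfl
  · exact corner_sound hu0 hv0 hE hN hN0 h1
  · exact corner_sound hu0 hv1 hE hN hN0 h2
  · exact corner_sound hu1 hv0 hE hN hN0 h3
  · exact corner_sound hu1 hv1 hE hN hN0 h4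

theorem hi_cu (t g : ℕ) {G : ℝ} (hG : Hi g G) (h0 : 0 ≤ G) :
    Hi (mu (2 * mu t t) g) (2 * (val t * val t) * G) :=
  ((Hi.refl _).mu (Hi.refl _) (val_nonneg _)).two.mu hG h0

theorem hi_cv {t : ℕ} (ht : t ≤ one) (g : ℕ) {G : ℝ} (hG : Hi g G) (h0 : 0 ≤ G) :
    Hi (mu (2 * mu (one - t) (one - t)) g) (2 * ((1 - val t) * (1 - val t)) * G) := by
  have := hi_cu (one - t) g hG h0
  rwa [val_sub ht, val_one] at this

theorem chkb_sound {w dp t : ℕ} (hu0 : PtOk u0) (hu1 : PtOk u1) (hv0 : PtOk v0) (hv1 : PtOk v1)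
    (hd0 : Inn d0) (hd1 : Inn d1) (h : chkb u0 u1 v0 v1 d0 d1 w dp t = true) :
    Sem (val u0.x) (val u1.x) (val v0.x) (val v1.x) (val d0.x) (val d1.x) := by
  rw [chkb] at h
  simp only [Bool.and_eq_true] at h
  obtain ⟨⟨⟨⟨⟨h1, h2⟩, h3⟩, h4⟩, h5⟩, h6⟩ := h
  have hW := inn_of_inner h2
  generalize mkPt (sc w) = W at *
  have hs := blt_lt h3
  have hS : 0 < (u1.x + v1.x) / 2 + 1 := Nat.succ_pos _
  refine sem_b (t := val (sc t)) hu0.x0 hv0.x0 hu1.x1 hv1.x1 hd0.x0.le hd1.x1 hW.x0 hW.x1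
    (hi_mid u1.x v1.x) (line_adm h1) (hi_cu _ _ (Hi.refl _) (val_nonneg _))
    (hi_cv (ble_le h4) _ (Hi.refl _) (val_nonneg _)) (val_pos hs) (lo_mid u0.x v0.x)
    ((hW.hi_kpp.du (Lo.refl _) hS).du (Lo.refl _) hS)
    (hW.lo_aom.dd (Hi.refl _) (val_pos hS)) ?_
  intro u v d hu hv hd
  rcases hd with rfl | rfl
  · exact corners_sound hu0 hu1 hv0 hv1 (hi_br hd0.ok _ _ hs)
      ((Hi.refl _).mu hd0.ok.hi_hh hd0.ok.hh0) (mul_nonneg (val_nonneg _) hd0.ok.hh0) h5 u v hu hv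
  · exact corners_sound hu0 hu1 hv0 hv1 (hi_br hd1.ok _ _ hs)
      ((Hi.refl _).mu hd1.ok.hi_hh hd1.ok.hh0) (mul_nonneg (val_nonneg _) hd1.ok.hh0) h6 u v hu hv

theorem chk3_sound {w t : ℕ} (hu0 : PtOk u0) (hu1 : PtOk u1) (hv0 : PtOk v0) (hv1 : PtOk v1)
    (hd0 : Inn d0) (hd1 : Inn d1) (h : chk3 u0 u1 v0 v1 d0 d1 w t = true) :
    Sem (val u0.x) (val u1.x) (val v0.x) (val v1.x) (val d0.x) (val d1.x) := by
  rw [chk3] at h
  simp only [Bool.and_eq_true, Bool.or_eq_true] at h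
  obtain ⟨⟨⟨⟨⟨h1, h2⟩, h3⟩, h4⟩, h5⟩, h6⟩ := h
  have hW := inn_of_inner h1
  generalize mkPt (sc w) = W at *
  have hS : 0 < (u1.x + v1.x) / 2 + 1 := Nat.succ_pos _
  have hg := gam_nonneg hd1.x0 hd1.x1
  refine sem_3 (t := val (sc t)) hu0.x0 hv0.x0 hu1.x1 hv1.x1 hd0.x0.le hd1.x1 hW.x0 hW.x1
    (hi_mid u1.x v1.x) (hi_cu _ _ hd1.hi_gam hg) (hi_cv (ble_le h2) _ hd1.hi_gam hg)
    (((hW.hi_kpp.du (Lo.refl _) hS).du (Lo.refl _) hS).mu hd0.ok.hi_hh hd0.ok.hh0)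
    (hW.lo_aom.dd (Hi.refl _) (val_pos hS)) ?_
    (corner_sound hu0 hv1 hi_zero (Hi.refl _) (val_nonneg _) h4)
    (corner_sound hu1 hv0 hi_zero (Hi.refl _) (val_nonneg _) h5)
    (corner_sound hu1 hv1 hi_zero (Hi.refl _) (val_nonneg _) h6)
  rcases h3 with ⟨a, b⟩ | h3
  · rw [Nat.eq_of_beq_eq_true a, Nat.eq_of_beq_eq_true b, val_zero, ff_zero]; simp
  · exact corner_sound hu0 hv0 hi_zero (Hi.refl _) (val_nonneg _) h3

theorem check_sound (t : Tree) : ∀ u0 u1 v0 v1 d0 d1 : Pt, PtOk u0 → PtOk u1 → PtOk v0 →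
    PtOk v1 → Inn d0 → Inn d1 → check t u0 u1 v0 v1 d0 d1 = true →
    Sem (val u0.x) (val u1.x) (val v0.x) (val v1.x) (val d0.x) (val d1.x) := by
  induction t with
  | su m l r ihl ihr =>
    intro u0 u1 v0 v1 d0 d1 hu0 hu1 hv0 hv1 hd0 hd1 h
    rw [check] at h
    simp only [Bool.and_eq_true] at h
    obtain ⟨⟨h1, h2⟩, h3⟩ := h
    have hp : PtOk (mkPt (sc m)) := mkPt_ok (by have := ble_le h1; rwa [mkPt_x] at this)
    exact Sem.su _ (ihl _ _ _ _ _ _ hu0 hp hv0 hv1 hd0 hd1 h2)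
      (ihr _ _ _ _ _ _ hp hu1 hv0 hv1 hd0 hd1 h3)
  | sv m l r ihl ihr =>
    intro u0 u1 v0 v1 d0 d1 hu0 hu1 hv0 hv1 hd0 hd1 h
    rw [check] at h
    simp only [Bool.and_eq_true] at h
    obtain ⟨⟨h1, h2⟩, h3⟩ := h
    have hp : PtOk (mkPt (sc m)) := mkPt_ok (by have := ble_le h1; rwa [mkPt_x] at this)
    exact Sem.sv _ (ihl _ _ _ _ _ _ hu0 hu1 hv0 hp hd0 hd1 h2)
      (ihr _ _ _ _ _ _ hu0 hu1 hp hv1 hd0 hd1 h3)
  | sd m l r ihl ihr =>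
    intro u0 u1 v0 v1 d0 d1 hu0 hu1 hv0 hv1 hd0 hd1 h
    rw [check] at h
    simp only [Bool.and_eq_true] at h
    obtain ⟨⟨h1, h2⟩, h3⟩ := h
    have hp := inn_of_inner h1
    exact Sem.sd _ (ihl _ _ _ _ _ _ hu0 hu1 hv0 hv1 hd0 hp h2)
      (ihr _ _ _ _ _ _ hu0 hu1 hv0 hv1 hp hd1 h3)
  | sym =>
    intro u0 u1 v0 v1 d0 d1 hu0 hu1 hv0 hv1 hd0 hd1 h
    rw [check] at h
    have := val_le_val (ble_le h)
    intro u v d a1 a2 a3 a4 a5 a6 a7 a8 a9 a10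
    linarith
  | rA =>
    intro u0 u1 v0 v1 d0 d1 hu0 hu1 hv0 hv1 hd0 hd1 h
    rw [check] at h
    have := le_of_ble h (Hi.refl _).two ((Lo.refl _).add (Lo.refl _))
    intro u v d a1 a2 a3 a4 a5 a6 a7 a8 a9 a10
    exact rule_A (by linarith) a9 a7 (by linarith) (by linarith) (by linarith)
  | rI =>
    intro u0 u1 v0 v1 d0 d1 hu0 hu1 hv0 hv1 hd0 hd1 h
    rw [check] at h
    exact chkI_sound hd1 h _ _ _
  | rB1 =>
    intro u0 u1 v0 v1 d0 d1 hu0 hu1 hv0 hv1 hd0 hd1 h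
    rw [check] at h
    exact chkB1_sound hd1 h _ _ _
  | rb w dp t =>
    intro u0 u1 v0 v1 d0 d1 hu0 hu1 hv0 hv1 hd0 hd1 h
    rw [check] at h
    exact chkb_sound hu0 hu1 hv0 hv1 hd0 hd1 h
  | r3 w t =>
    intro u0 u1 v0 v1 d0 d1 hu0 hu1 hv0 hv1 hd0 hd1 h
    rw [check] at h
    exact chk3_sound hu0 hu1 hv0 hv1 hd0 hd1 h
  | rb2 dp =>
    intro u0 u1 v0 v1 d0 d1 hu0 hu1 hv0 hv1 hd0 hd1 h
    rw [check] at h
    exact chkb2_sound hu1 hv1 hd0 hd1 h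
  | ra dp =>
    intro u0 u1 v0 v1 d0 d1 hu0 hu1 hv0 hv1 hd0 hd1 h
    rw [check] at h
    exact chka_sound hu0 hu1 hv0 hv1 hd0 hd1 h

def Cov (u0 u1 v0 v1 d0 d1 : ℕ) : Prop :=
  Sem (val (sc u0)) (val (sc u1)) (val (sc v0)) (val (sc v1)) (val (sc d0)) (val (sc d1))

theorem Cov.su {u0 u1 v0 v1 d0 d1 : ℕ} (m : ℕ) (hl : Cov u0 m v0 v1 d0 d1)
    (hr : Cov m u1 v0 v1 d0 d1) : Cov u0 u1 v0 v1 d0 d1 := Sem.su _ hl hr
theorem Cov.sv {u0 u1 v0 v1 d0 d1 : ℕ} (m : ℕ) (hl : Cov u0 u1 v0 m d0 d1)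
    (hr : Cov u0 u1 m v1 d0 d1) : Cov u0 u1 v0 v1 d0 d1 := Sem.sv _ hl hr
theorem Cov.sd {u0 u1 v0 v1 d0 d1 : ℕ} (m : ℕ) (hl : Cov u0 u1 v0 v1 d0 m)
    (hr : Cov u0 u1 v0 v1 m d1) : Cov u0 u1 v0 v1 d0 d1 := Sem.sd _ hl hr

theorem run_sound {t : Tree} {u0 u1 v0 v1 d0 d1 : ℕ} (h : run t u0 u1 v0 v1 d0 d1 = true) :
    Cov u0 u1 v0 v1 d0 d1 := by
  rw [run] at h
  simp only [Bool.and_eq_true] at h
  obtain ⟨⟨⟨⟨⟨⟨h1, h2⟩, h3⟩, h4⟩, h5⟩, h6⟩, h7⟩ := h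
  have := check_sound t _ _ _ _ _ _ (mkPt_ok (ble_le h1)) (mkPt_ok (ble_le h2))
    (mkPt_ok (ble_le h3)) (mkPt_ok (ble_le h4)) (inn_of_inner h5) (inn_of_inner h6) h7
  simp only [mkPt_x] at this
  exact this

end Vale.Agent.P322.BB
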