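import Vale.Agent.P322.Calc1

set_option linter.unusedVariables false

/-! Tangent lines: `kap`, `gam`, `kpp`, `aom`. -/

namespace Vale.Agent.P322
open Real Set

theorem kap_nonneg {d : ℝ} (h : 0 < d) (h' : d < 1) : 0 ≤ kap d := by
  have h0 := one_sub_sq_pos (by linarith : -1 < d) h'
  have h1 := T_pos h h'
  have h2 := T_le_div h.le h'
  rw [le_div_iff₀ h0] at h2
  unfold kap
  rw [sub_nonneg, le_div_iff₀ (by positivity)]
  linarith

theorem hasDerivAt_kap {d : ℝ} (h : 0 < d) (h' : d < 1) :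
    HasDerivAt kap (((1 + d ^ 2) * T d - d) / ((1 - d ^ 2) * T d) ^ 2) d := by
  have h0 := one_sub_sq_pos (by linarith : -1 < d) h'
  have h1 := T_pos h h'
  have := ((hasDerivAt_id d).div (((hasDerivAt_pow 2 d).const_sub 1).mul
    (hasDerivAt_T (by linarith) h')) (by simp; constructor <;> linarith)).sub_const 1
  refine this.congr_deriv ?_
  simp only [Pi.mul_apply, id]
  congr 1
  field_simp
  simp
  ring

/-- derivative numerator `(1+d²) T d - d ≥ 0` -/
theorem kap_le_kap {x y : ℝ} (h : 0 < x) (hxy : x ≤ y) (h' : y < 1) : kap x ≤ kap y :=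
  calc_mono' hxy (fun z h1 h2 => hasDerivAt_kap (by linarith) (by linarith))
    (fun z h1 h2 => by
      have h3 := le_T' (by linarith : 0 ≤ z) (by linarith)
      refine div_nonneg ?_ (by positivity)
      nlinarith [sq_nonneg z])
theorem kap_mul_T {d : ℝ} (h : 0 < d) (h' : d < 1) : kap d * T d = d / (1 - d ^ 2) - T d := by
  have h0 := one_sub_sq_pos (by linarith : -1 < d) h'
  have h1 := T_pos h h'
  unfold kap
  field_simp
theorem kap_le_poly {d : ℝ} (h : 0 < d) (h' : d < 1) :
    kap d ≤ (2 / 3 * d ^ 2 + d ^ 4 / 3) / (1 - d ^ 2) := by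
  have h0 := one_sub_sq_pos (by linarith : -1 < d) h'
  have h1 := T_pos h h'
  have h2 := le_T h.le h'
  have h3 := le_T' h.le h'
  have h4 := kap_mul_T h h'
  have h5 := kap_nonneg h h'
  have h6 : kap d * d ≤ d / (1 - d ^ 2) - (d + d ^ 3 / 3) := by nlinarith
  have e : d / (1 - d ^ 2) - (d + d ^ 3 / 3) = (2 / 3 * d ^ 2 + d ^ 4 / 3) / (1 - d ^ 2) * d := by
    field_simp; ring
  rw [e] at h6
  exact le_of_mul_le_mul_right h6 h
theorem le_kap {d : ℝ} (h : 0 < d) (h' : d < 1) : 2 / 3 * (d ^ 2 - d ^ 4) ≤ kap d := by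
  have h0 := one_sub_sq_pos (by linarith : -1 < d) h'
  have h1 := T_pos h h'
  have h2 := T_le_poly h.le h'
  have h3 : (1 - d ^ 2) * T d ≤ d * (1 - 2 / 3 * (d ^ 2 - d ^ 4)) := by
    have := mul_le_mul_of_nonneg_left h2 h0.le
    have e : (1 - d ^ 2) * (d + d ^ 3 / 3 + d ^ 5 / (1 - d ^ 2)) =
        d * (1 - 2 / 3 * (d ^ 2 - d ^ 4)) := by field_simp; ring
    linarith
  unfold kap
  rw [le_sub_iff_add_le, le_div_iff₀ (by positivity)]
  set y := 2 / 3 * (d ^ 2 - d ^ 4) with hy
  have hy0 : 0 ≤ y := by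
    have : d ^ 2 - d ^ 4 = d ^ 2 * (1 - d ^ 2) := by ring
    rw [hy, this]; positivity
  have := mul_le_mul_of_nonneg_left h3 (by linarith : 0 ≤ y + 1)
  nlinarith [mul_nonneg h.le (sq_nonneg y)]

/-- `psi` is a convex function of `phi`, with slope `kap`:
the derivative of `psi x - kap d * phi x` is `T x * (kap x - kap d)` -/
theorem psi_tangent_y {d x : ℝ} (h : 0 < d) (h' : d < 1) (hx : 0 ≤ x) (hx' : x < 1) :
    psi d + kap d * (phi x - phi d) ≤ psi x := by
  have hd : ∀ z, -1 < z → z < 1 → HasDerivAt (fun x => psi x - kap d * phi x)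
      (z / (1 - z ^ 2) - T z - kap d * T z) z := fun z h1 h2 =>
    (hasDerivAt_psi h1 h2).sub ((hasDerivAt_phi h1 h2).const_mul (kap d))
  rcases le_total d x with hle | hle
  · have := calc_mono' hle (fun z h1 h2 => hd z (by linarith) (by linarith))
      (fun z h1 h2 => by
        rw [← kap_mul_T (by linarith) (by linarith), ← sub_mul]
        exact mul_nonneg (sub_nonneg.mpr (kap_le_kap h h1.le (by linarith)))
          (T_nonneg (by linarith) (by linarith)))
    linarith
  · have := calc_anti' hle (fun z h1 h2 => hd z (by linarith) (by linarith))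
      (fun z h1 h2 => by
        rw [← kap_mul_T (by linarith) (by linarith), ← sub_mul]
        exact mul_nonpos_of_nonpos_of_nonneg
          (sub_nonpos.mpr (kap_le_kap (by linarith) h2.le h'))
          (T_nonneg (by linarith) (by linarith)))
    linarith
theorem adm_zero : Adm 0 0 :=
  ⟨le_rfl, le_rfl, fun d h h' => by simpa using psi_nonneg (by linarith) h'⟩
theorem gam_nonneg {d : ℝ} (h : 0 < d) (h' : d < 1) : 0 ≤ gam d :=
  add_nonneg (psi_nonneg (by linarith) h')
    (mul_nonneg (kap_nonneg h h') (hh_nonneg (by linarith) h'.le))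
theorem adm_tangent {d : ℝ} (h : 0 < d) (h' : d < 1) : Adm (gam d) (kap d) := by
  refine ⟨kap_nonneg h h', gam_nonneg h h', fun x hx hx' => ?_⟩
  have := psi_tangent_y h h' hx hx'
  unfold gam hh
  linarith
theorem gam_le_gam {x y : ℝ} (h : 0 < x) (hxy : x ≤ y) (h' : y < 1) : gam x ≤ gam y := by
  have h1 := (adm_tangent h (by linarith)).2.2 y (by linarith) h'
  have h2 := mul_le_mul_of_nonneg_right (kap_le_kap h hxy h') (hh_nonneg (by linarith) h'.le)
  have e : gam y = psi y + kap y * hh y := rfl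
  linarith
theorem admP_zero : AdmP 0 0 :=
  ⟨le_rfl, kap_nonneg (by norm_num) (by norm_num),
    fun d h h' => by simpa using psi_nonneg (by linarith) h'⟩
theorem admP_tangent {d : ℝ} (h : 0 < d) (h' : d ≤ 39 / 100) :
    AdmP (kap d * phi d - psi d) (kap d) := by
  refine ⟨kap_nonneg h (by linarith), kap_le_kap h h' (by norm_num), fun x hx hx' => ?_⟩
  have := psi_tangent_y h (by linarith) hx hx'
  linarith
/-- a function `α phi - β psi + C` with `β ≥ 0` is concave in `phi` -/
theorem conc_y {d0 d d1 α β C : ℝ} (h0 : 0 ≤ d0) (h1 : d0 ≤ d) (h2 : d ≤ d1) (h3 : d1 < 1)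
    (hβ : 0 ≤ β) (H0 : 0 ≤ α * phi d0 - β * psi d0 + C) (H1 : 0 ≤ α * phi d1 - β * psi d1 + C) :
    0 ≤ α * phi d - β * psi d + C := by
  rcases h1.eq_or_lt with rfl | hlt
  · exact H0
  have hd : 0 < d := by linarith
  have t0 := mul_le_mul_of_nonneg_left (psi_tangent_y hd (by linarith) h0 (by linarith)) hβ
  have t1 := mul_le_mul_of_nonneg_left (psi_tangent_y hd (by linarith) (by linarith) h3) hβ
  have p0 := phi_le_phi h0 h1 (by linarith)
  have p1 := phi_le_phi hd.le h2 h3.le
  rcases le_total 0 (α - β * kap d) with hs | hs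
  · nlinarith [mul_nonneg hs (sub_nonneg.mpr p0)]
  · nlinarith [mul_nonneg (neg_nonneg.mpr hs) (sub_nonneg.mpr p1)]

theorem kpp_pos {w : ℝ} (h : 0 < w) (h' : w < 1) : 0 < kpp w := by
  have h0 := one_sub_sq_pos (by linarith : -1 < w) h'
  have h1 := ell_pos (by linarith : -1 < w) h'
  unfold kpp; positivity

theorem hasDerivAt_kpp {w : ℝ} (h : 0 < w) (h' : w < 1) :
    HasDerivAt kpp (w * (2 * ell w - w ^ 2) / ((1 - w ^ 2) * ell w) ^ 2) w := by
  have h0 := one_sub_sq_pos (by linarith : -1 < w) h'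
  have h1 := ell_pos (by linarith : -1 < w) h'
  have := (hasDerivAt_pow 2 w).div (((hasDerivAt_pow 2 w).const_sub 1).mul
    (hasDerivAt_ell (by linarith) h')) (by simp; constructor <;> linarith)
  refine this.congr_deriv ?_
  simp only [Pi.mul_apply]
  congr 1
  field_simp
  simp
  ring

/-- with `W = 1/(1-w²)`, `kpp = (W-1)/(log 2 + log W / 2)` -/
theorem kpp_le_kpp {x y : ℝ} (h : 0 < x) (hxy : x ≤ y) (h' : y < 1) : kpp x ≤ kpp y :=
  calc_mono' hxy (fun z h1 h2 => hasDerivAt_kpp (by linarith) (by linarith))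
    (fun z h1 h2 => by
      have h3 := le_l0 (by linarith : -1 < z) (by linarith)
      have h4 := log_pos (by norm_num : (1 : ℝ) < 2)
      refine div_nonneg (mul_nonneg (by linarith) ?_) (by positivity)
      unfold ell; linarith)

theorem hasDerivAt_hh_div {m : ℝ} (h : 0 < m) (h' : m < 1) :
    HasDerivAt (fun m => hh m / m) (-(ell m / m ^ 2)) m := by
  have := (hasDerivAt_hh (by linarith) h').div (hasDerivAt_id m) h.ne'
  refine this.congr_deriv ?_
  simp only [id]
  rw [hh_eq]
  field_simp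
  ring

/-- the derivative of `T m + kpp w * (hh m / m)` is `ell m / m² * (kpp m - kpp w)` -/
theorem aom_le {w m : ℝ} (hw : 0 < w) (hw' : w < 1) (hm : 0 < m) (hm' : m < 1) :
    aom w ≤ T m + kpp w * (hh m / m) := by
  have hd : ∀ z, 0 < z → z < 1 → HasDerivAt (fun m => T m + kpp w * (hh m / m))
      (ell z / z ^ 2 * (kpp z - kpp w)) z := by
    intro z h1 h2
    have := (hasDerivAt_T (by linarith) h2).add ((hasDerivAt_hh_div h1 h2).const_mul (kpp w))
    refine this.congr_deriv ?_
    have h0 := one_sub_sq_pos (by linarith : -1 < z) h2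
    have h3 := ell_pos (by linarith : -1 < z) h2
    have e : kpp z = z ^ 2 / ((1 - z ^ 2) * ell z) := rfl
    rw [e]
    field_simp
    ring
  have hp : ∀ z, 0 < z → z < 1 → 0 ≤ ell z / z ^ 2 := fun z h1 h2 =>
    div_nonneg (ell_pos (by linarith) h2).le (by positivity)
  rcases le_total w m with hle | hle
  · exact calc_mono' hle (fun z h1 h2 => hd z (by linarith) (by linarith))
      (fun z h1 h2 => mul_nonneg (hp z (by linarith) (by linarith))
        (sub_nonneg.mpr (kpp_le_kpp hw h1.le (by linarith))))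
  · exact calc_anti' hle (fun z h1 h2 => hd z (by linarith) (by linarith))
      (fun z h1 h2 => mul_nonpos_of_nonneg_of_nonpos (hp z (by linarith) (by linarith))
        (sub_nonpos.mpr (kpp_le_kpp (by linarith) h2.le hw')))
theorem aom_pos {w : ℝ} (h : 0 < w) (h' : w < 1) : 0 < aom w := by
  have h1 := T_pos h h'
  have h2 := kpp_pos h h'
  have h3 := hh_pos (by linarith : -1 < w) h'
  unfold aom; positivity
theorem aom_le_aom {x y : ℝ} (h : 0 < x) (hxy : x ≤ y) (h' : y < 1) : aom x ≤ aom y := by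
  have h1 := aom_le h (by linarith) (by linarith : 0 < y) h'
  have h2 := mul_le_mul_of_nonneg_right (kpp_le_kpp h hxy h')
    (div_nonneg (hh_nonneg (by linarith) h'.le) (by linarith : 0 ≤ y))
  have e : aom y = T y + kpp y * (hh y / y) := rfl
  linarith
theorem mul_aom {w : ℝ} (h : 0 < w) : w * aom w = chi w + kpp w * hh w := by
  unfold aom chi
  field_simp
/-- `T m * hh m / m` is antitone; the derivative has the sign of
`hh m * (m/(1-m²) - T m) - m * T m ^ 2`; use `mul_ell_le_T` twice: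
`hh ≤ (1-m²) ell` and `ell * (m - (1-m²) T) ≤ ell * m² T ≤ m T²`. -/
theorem TA_anti {x y : ℝ} (h : 0 < x) (hxy : x ≤ y) (h' : y < 1) :
    T y * (hh y / y) ≤ T x * (hh x / x) := by
  refine calc_anti' (f := fun m => T m * (hh m / m))
    (f' := fun m => 1 / (1 - m ^ 2) * (hh m / m) + T m * -(ell m / m ^ 2)) hxy
    (fun z h1 h2 => (hasDerivAt_T (by linarith) (by linarith)).mul
      (hasDerivAt_hh_div (by linarith) (by linarith))) (fun z h1 h2 => ?_)
  have hz : 0 < z := by linarith
  have hz' : z < 1 := by linarith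
  have h0 := one_sub_sq_pos (by linarith : -1 < z) hz'
  have h3 := ell_pos (by linarith : -1 < z) hz'
  have h4 := mul_ell_le_T hz.le hz'
  have h5 := le_T' hz.le hz'
  have h6 : hh z ≤ (1 - z ^ 2) * ell z := by rw [hh_eq]; nlinarith
  have h7 : z * hh z ≤ (1 - z ^ 2) * (T z * ell z) := by
    have := mul_le_mul_of_nonneg_left h6 hz.le
    have := mul_le_mul_of_nonneg_right h5 (mul_pos h0 h3).le
    nlinarith
  have e : 1 / (1 - z ^ 2) * (hh z / z) + T z * -(ell z / z ^ 2) =
      (z * hh z - (1 - z ^ 2) * (T z * ell z)) / ((1 - z ^ 2) * z ^ 2) := by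
    field_simp; ring
  rw [e]
  exact div_nonpos_of_nonpos_of_nonneg (by linarith) (by positivity)

theorem exists_hh_eq {x : ℝ} (h : 0 < x) (h' : x < log 2) : ∃ d, 0 < d ∧ d < 1 ∧ hh d = x := by
  have := intermediate_value_Ioo' (zero_le_one' ℝ) continuous_hh.continuousOn
  obtain ⟨d, hd, e⟩ := this (show x ∈ Ioo (hh 1) (hh 0) by rw [hh_one, hh_zero]; exact ⟨h, h'⟩)
  exact ⟨d, hd.1, hd.2, e⟩
theorem exists_phi_eq {y d0 : ℝ} (h0 : 0 ≤ d0) (h1 : d0 ≤ 1) (h : 0 ≤ y) (h' : y ≤ phi d0) :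
    ∃ d, 0 ≤ d ∧ d ≤ d0 ∧ phi d = y := by
  have := intermediate_value_Icc h0 continuous_phi.continuousOn
  obtain ⟨d, hd, e⟩ := this (show y ∈ Icc (phi 0) (phi d0) by rw [phi_zero]; exact ⟨h, h'⟩)
  exact ⟨d, hd.1, hd.2, e⟩
theorem exists_T_eq {t : ℝ} (h : 0 < t) : ∃ m, 0 < m ∧ m < 1 ∧ T m = t := by
  have hE : 1 < exp (2 * t) := one_lt_exp_iff.mpr (by linarith)
  set E := exp (2 * t) with hEd
  refine ⟨(E - 1) / (E + 1), div_pos (by linarith) (by linarith),
    (div_lt_one (by linarith)).mpr (by linarith), ?_⟩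
  unfold T
  have e1 : 1 + (E - 1) / (E + 1) = E * (2 / (E + 1)) := by field_simp; ring
  have e2 : 1 - (E - 1) / (E + 1) = 2 / (E + 1) := by field_simp; ring
  rw [e1, e2, log_mul (by linarith) (by positivity), hEd, log_exp]
  ring

end Vale.Agent.P322
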