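import Vale.Agent.P322.BBArith
import Vale.Agent.P322.Calc2
import Vale.Agent.P322.Calc3

/-! Enclosures for the derived one-variable functions. -/

namespace Vale.Agent.P322.BB
open Real Vale.Agent.P322

variable {p : Pt}

theorem PtOk.x0 (_ : PtOk p) : 0 ≤ val p.x := val_nonneg _
theorem PtOk.x1 (h : PtOk p) : val p.x ≤ 1 := by rw [← val_one]; exact val_le_val h.le_one
theorem PtOk.xm (h : PtOk p) : -1 < val p.x := by have := h.x0; linarith

theorem PtOk.lo_T (h : PtOk p) : Lo (Tlo p) (T (val p.x)) := by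
  rw [Tlo]; exact (h.alo.add h.blo).half.cast (by unfold T; ring)
theorem PtOk.hi_T (h : PtOk p) : Hi (Thi p) (T (val p.x)) := by
  have e0 : ∀ a b : ℕ, (a + b) / 2 + 1025 = (a + 1024 + (b + 1024)) / 2 + 1 := by
    intro a b; omega
  rw [Thi, e0 p.a p.b]; exact (h.ahi.add h.bhi).half.cast (by unfold T; ring)
theorem PtOk.T0 (h : PtOk p) : 0 ≤ T (val p.x) := h.lo_T.nonneg
theorem l2lo_eq (p : Pt) : l2lo p = p.b - (p.a + 1024) := rfl
theorem PtOk.lo_l2 (h : PtOk p) (h1 : val p.x < 1) : Lo (l2lo p) (2 * l0 (val p.x)) := by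
  have e : -log (1 - val p.x) - log (1 + val p.x) = 2 * l0 (val p.x) := by unfold l0; ring
  have := l0_nonneg h.xm h1
  rw [l2lo_eq]; exact (h.blo.sub h.ahi (by rw [e]; linarith)).cast e
theorem PtOk.hi_l2 (h : PtOk p) : Hi (l2hi p) (2 * l0 (val p.x)) := by
  rw [l2hi]; exact (h.bhi.sub h.alo).cast (by unfold l0; ring)
theorem PtOk.lo_phi (h : PtOk p) : Lo (philo p) (phi (val p.x)) := by
  have e : (1 + val p.x) * log (1 + val p.x) - (1 - val p.x) * -log (1 - val p.x) =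
      2 * phi (val p.x) := by unfold phi; ring
  have := phi_nonneg h.xm.le h.x1
  rw [philo]
  exact (((lo_one.add (Lo.refl _)).md h.alo).sub
    ((hi_one.sub (Lo.refl _)).mu h.bhi h.blo.nonneg) (by rw [e]; linarith)).half.cast
    (by rw [e]; ring)
theorem PtOk.hi_phi (h : PtOk p) : Hi (phihi p) (phi (val p.x)) := by
  have := h.x1
  rw [phihi]
  exact (((hi_one.add (Hi.refl _)).mu h.ahi h.alo.nonneg).sub
    ((lo_one.sub (Hi.refl _) (by linarith)).md h.blo)).half.cast (by unfold phi; ring)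
theorem PtOk.hh0 (h : PtOk p) : 0 ≤ hh (val p.x) := hh_nonneg h.xm.le h.x1
theorem PtOk.lo_hh (h : PtOk p) : Lo (hhlo p) (hh (val p.x)) := by
  rw [hhlo]; exact lo_L2.sub h.hi_phi h.hh0
theorem PtOk.hi_hh (h : PtOk p) : Hi (hhhi p) (hh (val p.x)) := by
  rw [hhhi]; exact hi_L2.sub h.lo_phi
theorem PtOk.lo_psi (h : PtOk p) (h1 : val p.x < 1) : Lo (psilo p) (psi (val p.x)) := by
  have := psi_nonneg h.xm h1
  rw [psilo, psi_eq]; rw [psi_eq] at this
  exact (h.lo_l2 h1).sub ((Hi.refl _).mu h.hi_T h.T0) this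
theorem PtOk.hi_psi (h : PtOk p) : Hi (psihi p) (psi (val p.x)) := by
  rw [psihi, psi_eq]; exact h.hi_l2.sub ((Lo.refl _).md h.lo_T)
theorem PtOk.w0 (h : PtOk p) : 0 ≤ 1 - val p.x ^ 2 := by have := h.x0; have := h.x1; nlinarith
theorem PtOk.lo_w (h : PtOk p) : Lo (wlo p) (1 - val p.x ^ 2) := by
  have := h.w0
  rw [wlo, sq]; rw [sq] at this
  exact lo_one.sub ((Hi.refl _).mu (Hi.refl _) h.x0) this
theorem PtOk.hi_w (_ : PtOk p) : Hi (whi p) (1 - val p.x ^ 2) := by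
  rw [whi, sq]; exact hi_one.sub ((Lo.refl _).md (Lo.refl _))
theorem PtOk.hi_ff (h : PtOk p) : Hi (ffhi p) (ff (val p.x)) := by
  rw [ffhi]
  by_cases h0 : p.x = 0
  · have hb : Nat.beq p.x 0 = true := by rw [h0]; rfl
    rw [hb, cond_true, h0, val_zero, ff_zero]; exact hi_zero
  · have hb : Nat.beq p.x 0 = false := by
      cases hh : Nat.beq p.x 0
      · rfl
      · exact absurd (Nat.eq_of_beq_eq_true hh) h0
    rw [hb, cond_false]
    exact h.hi_phi.du (Lo.refl _) (Nat.pos_of_ne_zero h0)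
theorem PtOk.ff0 (h : PtOk p) : 0 ≤ ff (val p.x) := ff_nonneg h.x0 h.x1
theorem PtOk.lo_ss (h : PtOk p) (h1 : val p.x < 1) : Lo (sslo p) (ss (val p.x)) := by
  rw [sslo]
  exact (val_dd _ _).trans (div_le_div_of_nonneg_right (h.lo_psi h1) h.x0)
theorem hi_half : Hi (one / 2) (1 / 2) := by
  have : one / 2 = 2 ^ 63 := by decide
  rw [this]; unfold Hi val; norm_num
theorem PtOk.hi_th0 (h : PtOk p) : Hi (th0hi p) (th0 (val p.x)) := by
  rw [th0hi]
  exact (h.hi_w.mu' (hi_half.add h.hi_l2.half.third) h.w0).cast (by unfold th0; ring)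

structure Inn (p : Pt) : Prop where
  ok : PtOk p
  pos : 0 < p.x
  lt : p.x < one
  kd : 0 < kapden p
  kp : 0 < kppden p
  w : 0 < wlo p

theorem blt_lt {a b : ℕ} (h : Nat.blt a b = true) : a < b := Nat.blt_eq.mp h
theorem ble_le {a b : ℕ} (h : Nat.ble a b = true) : a ≤ b := Nat.le_of_ble_eq_true h

theorem inn_of_inner {x : ℕ} (h : inner (mkPt x) = true) : Inn (mkPt x) := by
  rw [inner] at h
  simp only [Bool.and_eq_true] at h
  obtain ⟨⟨⟨⟨h1, h2⟩, h3⟩, h4⟩, h5⟩ := h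
  have h6 := blt_lt h2
  refine ⟨mkPt_ok ?_, blt_lt h1, h6, blt_lt h3, blt_lt h4, blt_lt h5⟩
  rw [mkPt_x] at h6; exact h6.le

theorem Inn.x0 (h : Inn p) : 0 < val p.x := val_pos h.pos
theorem Inn.x1 (h : Inn p) : val p.x < 1 := by rw [← val_one]; exact val_lt_val h.lt
theorem Inn.lo_kap (h : Inn p) : Lo (kaplo p) (kap (val p.x)) := by
  rw [kaplo]
  exact ((Lo.refl _).dd (h.ok.hi_w.mu h.ok.hi_T h.ok.T0)
    (mul_pos (one_sub_sq_pos h.ok.xm h.x1) (T_pos h.x0 h.x1))).sub hi_one (kap_nonneg h.x0 h.x1)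
theorem Inn.hi_kap (h : Inn p) : Hi (kaphi p) (kap (val p.x)) := by
  have : Lo (kapden p) ((1 - val p.x ^ 2) * T (val p.x)) := by
    rw [kapden]; exact h.ok.lo_w.md h.ok.lo_T
  rw [kaphi]
  exact ((Hi.refl _).du this h.kd).sub lo_one
theorem Inn.lo_gam (h : Inn p) : Lo (gamlo p) (gam (val p.x)) := by
  rw [gamlo]; exact (h.ok.lo_psi h.x1).add (h.lo_kap.md h.ok.lo_hh)
theorem Inn.hi_gam (h : Inn p) : Hi (gamhi p) (gam (val p.x)) := by
  rw [gamhi]; exact h.ok.hi_psi.add (h.hi_kap.mu h.ok.hi_hh h.ok.hh0)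
theorem Inn.lo_kpp (h : Inn p) : Lo (kpplo p) (kpp (val p.x)) := by
  have e : log 2 + 2 * l0 (val p.x) / 2 = ell (val p.x) := by unfold ell; ring
  have h1 := ell_pos h.ok.xm h.x1
  rw [kpplo]
  exact (((Lo.refl _).md (Lo.refl _)).dd
    (h.ok.hi_w.mu ((hi_L2.add h.ok.hi_l2.half).cast e) h1.le)
    (mul_pos (one_sub_sq_pos h.ok.xm h.x1) h1)).cast (by unfold kpp; rw [← sq])
theorem Inn.hi_kpp (h : Inn p) : Hi (kpphi p) (kpp (val p.x)) := by
  have e : log 2 + 2 * l0 (val p.x) / 2 = ell (val p.x) := by unfold ell; ring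
  have : Lo (kppden p) ((1 - val p.x ^ 2) * ell (val p.x)) := by
    rw [kppden]; exact h.ok.lo_w.md ((lo_L2.add (h.ok.lo_l2 h.x1).half).cast e)
  rw [kpphi]
  exact (((Hi.refl _).mu (Hi.refl _) h.ok.x0).du this h.kp).cast (by unfold kpp; rw [← sq])
theorem Inn.lo_aom (h : Inn p) : Lo (aomlo p) (aom (val p.x)) := by
  rw [aomlo]; exact h.ok.lo_T.add (h.lo_kpp.md (h.ok.lo_hh.dd (Hi.refl _) h.x0))
theorem Inn.hi_aom (h : Inn p) : Hi (aomhi p) (aom (val p.x)) := by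
  rw [aomhi]
  exact h.ok.hi_T.add (h.hi_kpp.mu (h.ok.hi_hh.du (Lo.refl _) h.pos) (div_nonneg h.ok.hh0 h.ok.x0))
theorem Inn.hi_dchi (h : Inn p) : Hi (dchihi p) (dchi (val p.x)) := by
  rw [dchihi]; exact h.ok.hi_T.add ((Hi.refl _).du h.ok.lo_w h.w)

theorem line_adm {dp : ℕ} (h : lineOK dp = true) : Adm (val (lineG dp)) (val (lineK dp)) := by
  rw [lineG, lineK]
  cases hb : Nat.beq dp 0
  · rw [cond_false, cond_false]
    rw [lineOK, hb, Bool.false_or] at h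
    have hi := inn_of_inner h
    obtain ⟨-, -, h3⟩ := adm_tangent hi.x0 hi.x1
    refine ⟨val_nonneg _, val_nonneg _, fun d hd hd' => le_trans ?_ (h3 d hd hd')⟩
    have h1 : _ ≤ _ := hi.lo_gam
    have h2 : _ ≤ _ := hi.hi_kap
    have h4 := hh_nonneg (by linarith : -1 ≤ d) hd'.le
    nlinarith
  · rw [cond_true, cond_true, val_zero]; exact adm_zero

theorem hi_GG {u v : Pt} (hu : PtOk u) (hv : PtOk v) :
    Hi (GGhi u v) (GG (val u.x) (val v.x)) := by
  rw [GGhi]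
  exact ((Hi.refl _).add (Hi.refl _)).half.mu (hu.hi_ff.add hv.hi_ff) (add_nonneg hu.ff0 hv.ff0)

theorem hi_br {d : Pt} (hd : PtOk d) (g k : ℕ) {s0 : ℕ} (hs : 0 < s0) :
    Hi (brhi d g k s0) ((psi (val d.x) + val k * hh (val d.x) - val g) / val s0) := by
  rw [brhi]
  exact ((hd.hi_psi.add ((Hi.refl _).mu hd.hi_hh hd.hh0)).sub (Lo.refl _)).du (Lo.refl _) hs

theorem corner_sound {u v : Pt} (hu : PtOk u) (hv : PtOk v) {cu cv e n q : ℕ} {E N : ℝ}
    (hE : Hi e E) (hN : Hi n N) (hN0 : 0 ≤ N) (h : corner u v cu cv e n q = true) :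
    ff (val u.x) + ff (val v.x) + val cu * val u.x + val cv * val v.x + E +
      (val u.x + val v.x) / 2 * N ≤ (val u.x + val v.x) / 2 * val q := by
  rw [corner] at h
  exact le_of_ble h
    (((((hu.hi_ff.add hv.hi_ff).add ((Hi.refl _).mu (Hi.refl _) hu.x0)).add
      ((Hi.refl _).mu (Hi.refl _) hv.x0)).add hE).add
      (((Hi.refl _).add (Hi.refl _)).half.mu hN hN0))
    (((Lo.refl _).add (Lo.refl _)).half.md (Lo.refl _))

end Vale.Agent.P322.BB
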