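import Vale.Agent.P322.CertAll

namespace Vale.Agent.P322
open Real Set

/-- the compact region, by a checked branch-and-bound certificate -/
theorem core_bulk {u v d : ℝ} (hu' : u < 1) (hv : 0 < v) (hvu : v ≤ u)
    (h : (u + v) / 2 ≤ d) (hd : 1 / 64 ≤ d) (hd' : d ≤ 1 - 1 / 2 ^ 23) : Core u v d := by
  have e : ∀ m : ℕ, BB.val (BB.sc m) = (m : ℝ) / 2 ^ 40 := by
    intro m
    have e0 : BB.sc m = m <<< 24 := rfl
    rw [e0, Nat.shiftLeft_eq, BB.val]; push_cast; ring
  have H := BB.cov_all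
  rw [BB.Cov] at H
  simp only [e] at H
  refine H u v d ?_ ?_ ?_ ?_ ?_ ?_ hv hvu hu' h <;> norm_num <;> linarith

end Vale.Agent.P322
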