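import Vale.Agent.P322.Fn

set_option linter.unusedVariables false

/-! Basic calculus for `T`, `l0`, `phi`, `hh`, `chi`, `psi`. -/

namespace Vale.Agent.P322
open Real Set

theorem calc_mono {f f' : ℝ → ℝ} {a b : ℝ} (hab : a ≤ b) (hc : ContinuousOn f (Icc a b))
    (hd : ∀ x, a < x → x < b → HasDerivAt f (f' x) x)
    (h0 : ∀ x, a < x → x < b → 0 ≤ f' x) : f a ≤ f b := by
  have hm : MonotoneOn f (Icc a b) := by
    refine monotoneOn_of_deriv_nonneg (convex_Icc a b) hc ?_ ?_
    · intro x hx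
      rw [interior_Icc] at hx
      exact (hd x hx.1 hx.2).differentiableAt.differentiableWithinAt
    · intro x hx
      rw [interior_Icc] at hx
      rw [(hd x hx.1 hx.2).deriv]
      exact h0 x hx.1 hx.2
  exact hm (left_mem_Icc.mpr hab) (right_mem_Icc.mpr hab) hab

theorem calc_anti {f f' : ℝ → ℝ} {a b : ℝ} (hab : a ≤ b) (hc : ContinuousOn f (Icc a b))
    (hd : ∀ x, a < x → x < b → HasDerivAt f (f' x) x)
    (h0 : ∀ x, a < x → x < b → f' x ≤ 0) : f b ≤ f a := by
  have := calc_mono (f := fun x => -f x) (f' := fun x => -f' x) hab hc.neg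
    (fun x h1 h2 => (hd x h1 h2).neg) (fun x h1 h2 => neg_nonneg.mpr (h0 x h1 h2))
  simpa using this

theorem calc_mono' {f f' : ℝ → ℝ} {a b : ℝ} (hab : a ≤ b)
    (hd : ∀ x, a ≤ x → x ≤ b → HasDerivAt f (f' x) x)
    (h0 : ∀ x, a < x → x < b → 0 ≤ f' x) : f a ≤ f b :=
  calc_mono hab (fun x hx => (hd x hx.1 hx.2).continuousAt.continuousWithinAt)
    (fun x h1 h2 => hd x h1.le h2.le) h0

theorem calc_anti' {f f' : ℝ → ℝ} {a b : ℝ} (hab : a ≤ b)
    (hd : ∀ x, a ≤ x → x ≤ b → HasDerivAt f (f' x) x)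
    (h0 : ∀ x, a < x → x < b → f' x ≤ 0) : f b ≤ f a :=
  calc_anti hab (fun x hx => (hd x hx.1 hx.2).continuousAt.continuousWithinAt)
    (fun x h1 h2 => hd x h1.le h2.le) h0

theorem calc_convexOn {f f' : ℝ → ℝ} {a b : ℝ} (hc : ContinuousOn f (Icc a b))
    (hd : ∀ x, a < x → x < b → HasDerivAt f (f' x) x)
    (hm : ∀ x y, a < x → x ≤ y → y < b → f' x ≤ f' y) : ConvexOn ℝ (Icc a b) f := by
  refine MonotoneOn.convexOn_of_deriv (convex_Icc a b) hc ?_ ?_
  · intro x hx
    rw [interior_Icc] at hx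
    exact (hd x hx.1 hx.2).differentiableAt.differentiableWithinAt
  · intro x hx y hy hxy
    rw [interior_Icc] at hx hy
    rw [(hd x hx.1 hx.2).deriv, (hd y hy.1 hy.2).deriv]
    exact hm x y hx.1 hxy hy.2

theorem calc_midpoint {f : ℝ → ℝ} {s : Set ℝ} (hf : ConvexOn ℝ s f) {u v : ℝ} (hu : u ∈ s)
    (hv : v ∈ s) : 2 * f ((u + v) / 2) ≤ f u + f v := by
  have := hf.2 hu hv (show (0 : ℝ) ≤ 1 / 2 by norm_num) (show (0 : ℝ) ≤ 1 / 2 by norm_num)
    (by norm_num)
  simp only [smul_eq_mul] at this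
  have e : (u + v) / 2 = 1 / 2 * u + 1 / 2 * v := by ring
  rw [e]; linarith

theorem one_sub_sq_pos {x : ℝ} (h : -1 < x) (h' : x < 1) : 0 < 1 - x ^ 2 := by nlinarith

theorem phi_eq (x : ℝ) : phi x = x * T x - l0 x := by unfold phi T l0; ring
theorem psi_eq (x : ℝ) : psi x = 2 * l0 x - x * T x := by unfold psi chi; rw [phi_eq]; ring
theorem hh_eq (x : ℝ) : hh x = ell x - x * T x := by unfold hh ell; rw [phi_eq]; ring
theorem T_neg (x : ℝ) : T (-x) = -T x := by
  unfold T; rw [sub_neg_eq_add, ← sub_eq_add_neg]; ring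
theorem l0_neg (x : ℝ) : l0 (-x) = l0 x := by
  unfold l0; rw [sub_neg_eq_add, ← sub_eq_add_neg]; ring
theorem phi_neg (x : ℝ) : phi (-x) = phi x := by rw [phi_eq, phi_eq, T_neg, l0_neg]; ring
theorem hh_neg (x : ℝ) : hh (-x) = hh x := by unfold hh; rw [phi_neg]
theorem chi_neg (x : ℝ) : chi (-x) = chi x := by unfold chi; rw [T_neg]; ring
theorem psi_neg (x : ℝ) : psi (-x) = psi x := by unfold psi; rw [chi_neg, phi_neg]
theorem phi_abs (x : ℝ) : phi |x| = phi x := by
  rcases abs_choice x with h | h <;> rw [h]; exact phi_neg x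
theorem psi_abs (x : ℝ) : psi |x| = psi x := by
  rcases abs_choice x with h | h <;> rw [h]; exact psi_neg x
theorem T_zero : T 0 = 0 := by simp [T]
theorem l0_zero : l0 0 = 0 := by simp [l0]
theorem phi_zero : phi 0 = 0 := by simp [phi]
theorem psi_zero : psi 0 = 0 := by simp [psi, chi, phi_zero]
theorem hh_zero : hh 0 = log 2 := by simp [hh, phi_zero]
theorem phi_one : phi 1 = log 2 := by
  unfold phi; norm_num
theorem hh_one : hh 1 = 0 := by simp [hh, phi_one]
theorem l0_eq {x : ℝ} (h : -1 < x) (h' : x < 1) : l0 x = -log (1 - x ^ 2) / 2 := by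
  unfold l0
  rw [← log_mul (by linarith) (by linarith)]
  congr 3; ring

theorem calc_dlog_add {x : ℝ} (h : -1 < x) : HasDerivAt (fun x => log (1 + x)) (1 / (1 + x)) x := by
  have := ((hasDerivAt_id x).const_add 1).log (by simp; linarith)
  simpa using this

theorem calc_dlog_sub {x : ℝ} (h : x < 1) : HasDerivAt (fun x => log (1 - x)) (-1 / (1 - x)) x := by
  have := ((hasDerivAt_id x).const_sub 1).log (by simp; linarith)
  simpa using this

theorem hasDerivAt_T {x : ℝ} (h : -1 < x) (h' : x < 1) : HasDerivAt T (1 / (1 - x ^ 2)) x := by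
  have := ((calc_dlog_add h).sub (calc_dlog_sub h')).div_const 2
  refine this.congr_deriv ?_
  have h1 : 1 + x ≠ 0 := by linarith
  have h2 : 1 - x ≠ 0 := by linarith
  have h3 : 1 - x ^ 2 = (1 + x) * (1 - x) := by ring
  rw [h3]; field_simp; ring
theorem hasDerivAt_l0 {x : ℝ} (h : -1 < x) (h' : x < 1) : HasDerivAt l0 (x / (1 - x ^ 2)) x := by
  have := ((calc_dlog_add h).add (calc_dlog_sub h')).neg.div_const 2
  refine this.congr_deriv ?_
  have h1 : 1 + x ≠ 0 := by linarith
  have h2 : 1 - x ≠ 0 := by linarith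
  have h3 : 1 - x ^ 2 = (1 + x) * (1 - x) := by ring
  rw [h3]; field_simp; ring
theorem hasDerivAt_chi {x : ℝ} (h : -1 < x) (h' : x < 1) : HasDerivAt chi (dchi x) x := by
  have := (hasDerivAt_id x).mul (hasDerivAt_T h h')
  refine this.congr_deriv ?_
  simp [dchi]; ring
theorem hasDerivAt_phi {x : ℝ} (h : -1 < x) (h' : x < 1) : HasDerivAt phi (T x) x := by
  have := (hasDerivAt_chi h h').sub (hasDerivAt_l0 h h')
  have e : phi = fun x => chi x - l0 x := funext (fun x => phi_eq x)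
  rw [e]
  refine this.congr_deriv ?_
  simp [dchi]
theorem hasDerivAt_hh {x : ℝ} (h : -1 < x) (h' : x < 1) : HasDerivAt hh (-T x) x :=
  (hasDerivAt_phi h h').const_sub (log 2)
theorem hasDerivAt_psi {x : ℝ} (h : -1 < x) (h' : x < 1) :
    HasDerivAt psi (x / (1 - x ^ 2) - T x) x := by
  have := (hasDerivAt_chi h h').sub ((hasDerivAt_phi h h').const_mul 2)
  refine this.congr_deriv ?_
  simp [dchi]; ring
theorem continuous_phi : Continuous phi := by
  have h1 : Continuous (fun x : ℝ => (1 + x) * log (1 + x)) :=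
    continuous_mul_log.comp (continuous_const.add continuous_id)
  have h2 : Continuous (fun x : ℝ => (1 - x) * log (1 - x)) :=
    continuous_mul_log.comp (continuous_const.sub continuous_id)
  exact (h1.add h2).div_const 2
theorem continuous_hh : Continuous hh := continuous_const.sub continuous_phi

theorem hasDerivAt_ell {x : ℝ} (h : -1 < x) (h' : x < 1) : HasDerivAt ell (x / (1 - x ^ 2)) x :=
  (hasDerivAt_l0 h h').const_add (log 2)

theorem hasDerivAt_div_one_sub {x : ℝ} (h : -1 < x) (h' : x < 1) :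
    HasDerivAt (fun x : ℝ => x / (1 - x ^ 2)) ((1 + x ^ 2) / (1 - x ^ 2) ^ 2) x := by
  have h0 := one_sub_sq_pos h h'
  have := (hasDerivAt_id x).div ((hasDerivAt_pow 2 x).const_sub 1) (by simpa using h0.ne')
  refine this.congr_deriv ?_
  simp; ring

theorem T_lt_T {x y : ℝ} (h : -1 < x) (hxy : x < y) (h' : y < 1) : T x < T y := by
  unfold T
  have h1 := log_lt_log (by linarith : 0 < 1 + x) (by linarith : 1 + x < 1 + y)
  have h2 := log_lt_log (by linarith : 0 < 1 - y) (by linarith : 1 - y < 1 - x)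
  linarith
theorem T_le_T {x y : ℝ} (h : -1 < x) (hxy : x ≤ y) (h' : y < 1) : T x ≤ T y := by
  rcases hxy.eq_or_lt with rfl | hlt
  · exact le_rfl
  · exact (T_lt_T h hlt h').le
theorem T_nonneg {x : ℝ} (h : 0 ≤ x) (h' : x < 1) : 0 ≤ T x := by
  rw [← T_zero]; exact T_le_T (by norm_num) h h'
theorem T_pos {x : ℝ} (h : 0 < x) (h' : x < 1) : 0 < T x := by
  rw [← T_zero]; exact T_lt_T (by norm_num) h h'
theorem le_T {x : ℝ} (h : 0 ≤ x) (h' : x < 1) : x + x ^ 3 / 3 ≤ T x := by
  have := calc_mono' (f := fun x => T x - (x + x ^ 3 / 3))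
    (f' := fun x => 1 / (1 - x ^ 2) - (1 + 3 * x ^ 2 / 3)) h
    (fun y h1 h2 => by
      have := (hasDerivAt_T (by linarith) (by linarith : y < 1)).sub
        ((hasDerivAt_id y).add ((hasDerivAt_pow 3 y).div_const 3))
      exact this.congr_deriv (by simp))
    (fun y h1 h2 => by
      have h0 := one_sub_sq_pos (by linarith : -1 < y) (by linarith)
      rw [sub_nonneg, le_div_iff₀ h0]; nlinarith [sq_nonneg (y ^ 2)])
  simp [T_zero] at this
  linarith
theorem T_le_poly {x : ℝ} (h : 0 ≤ x) (h' : x < 1) :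
    T x ≤ x + x ^ 3 / 3 + x ^ 5 / (1 - x ^ 2) := by
  have := calc_mono' (f := fun x => x + x ^ 3 / 3 + x ^ 4 * (x / (1 - x ^ 2)) - T x)
    (f' := fun x => 1 + 3 * x ^ 2 / 3 + (4 * x ^ 3 * (x / (1 - x ^ 2)) +
      x ^ 4 * ((1 + x ^ 2) / (1 - x ^ 2) ^ 2)) - 1 / (1 - x ^ 2)) h
    (fun y h1 h2 => by
      have := (((hasDerivAt_id y).add ((hasDerivAt_pow 3 y).div_const 3)).add
        ((hasDerivAt_pow 4 y).mul (hasDerivAt_div_one_sub (by linarith) (by linarith : y < 1)))).sub
        (hasDerivAt_T (by linarith) (by linarith : y < 1))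
      exact this.congr_deriv (by simp))
    (fun y h1 h2 => by
      have h0 := one_sub_sq_pos (by linarith : -1 < y) (by linarith)
      have e : 1 + 3 * y ^ 2 / 3 + (4 * y ^ 3 * (y / (1 - y ^ 2)) +
          y ^ 4 * ((1 + y ^ 2) / (1 - y ^ 2) ^ 2)) - 1 / (1 - y ^ 2) =
          3 * y ^ 4 / (1 - y ^ 2) + y ^ 4 * ((1 + y ^ 2) / (1 - y ^ 2) ^ 2) := by
        field_simp; ring
      rw [e]; positivity)
  simp [T_zero] at this
  have e : x ^ 5 / (1 - x ^ 2) = x ^ 4 * (x / (1 - x ^ 2)) := by ring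
  rw [e]; linarith
theorem T_le_div {x : ℝ} (h : 0 ≤ x) (h' : x < 1) : T x ≤ x / (1 - x ^ 2) := by
  have h0 := one_sub_sq_pos (by linarith : -1 < x) h'
  refine (T_le_poly h h').trans ?_
  have e : x / (1 - x ^ 2) - (x + x ^ 3 / 3 + x ^ 5 / (1 - x ^ 2)) = 2 / 3 * x ^ 3 := by
    field_simp; ring
  have : 0 ≤ x ^ 3 := by positivity
  linarith
theorem le_T' {x : ℝ} (h : 0 ≤ x) (h' : x < 1) : x ≤ T x := by
  have := le_T h h'
  have : 0 ≤ x ^ 3 := by positivity
  linarith
theorem convexOn_T {b : ℝ} (hb : b < 1) : ConvexOn ℝ (Icc 0 b) T := by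
  refine calc_convexOn (f' := fun x => 1 / (1 - x ^ 2))
    (fun x hx => (hasDerivAt_T (by linarith [hx.1]) (by linarith [hx.2])).continuousAt.continuousWithinAt)
    (fun x h1 h2 => hasDerivAt_T (by linarith) (by linarith)) ?_
  intro x y h1 h2 h3
  have h0 := one_sub_sq_pos (by linarith : -1 < y) (by linarith)
  exact one_div_le_one_div_of_le h0 (by nlinarith)
/-- `T` is convex on `[0,1)`: midpoint form -/
theorem T_midpoint {u v : ℝ} (hu : 0 ≤ u) (hu' : u < 1) (hv : 0 ≤ v) (hv' : v < 1) :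
    2 * T ((u + v) / 2) ≤ T u + T v :=
  calc_midpoint (convexOn_T (max_lt hu' hv')) ⟨hu, le_max_left _ _⟩ ⟨hv, le_max_right _ _⟩

theorem le_l0 {x : ℝ} (h : -1 < x) (h' : x < 1) : x ^ 2 / 2 ≤ l0 x := by
  rw [l0_eq h h']
  have := log_le_sub_one_of_pos (one_sub_sq_pos h h')
  linarith
theorem l0_nonneg {x : ℝ} (h : -1 < x) (h' : x < 1) : 0 ≤ l0 x :=
  le_trans (by positivity) (le_l0 h h')
theorem l0_le_l0 {x y : ℝ} (h : 0 ≤ x) (hxy : x ≤ y) (h' : y < 1) : l0 x ≤ l0 y := by
  rw [l0_eq (by linarith) (by linarith), l0_eq (by linarith) h']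
  have := log_le_log (one_sub_sq_pos (by linarith : -1 < y) h') (by nlinarith : 1 - y ^ 2 ≤ 1 - x ^ 2)
  linarith
theorem l0_le {x : ℝ} (h : -1 < x) (h' : x < 1) : l0 x ≤ x ^ 2 / (2 * (1 - x ^ 2)) := by
  rw [l0_eq h h']
  have h0 := one_sub_sq_pos h h'
  have := one_sub_inv_le_log_of_pos h0
  have e : x ^ 2 / (2 * (1 - x ^ 2)) = -(1 - (1 - x ^ 2)⁻¹) / 2 := by field_simp; ring
  rw [e]; linarith
theorem ell_pos {x : ℝ} (h : -1 < x) (h' : x < 1) : 0 < ell x := by
  unfold ell
  have := l0_nonneg h h'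
  have := log_pos (by norm_num : (1 : ℝ) < 2)
  linarith

/-- Pinsker form: `phi'' ≥ 1` -/
theorem phi_quad_lower {U u : ℝ} (hU : -1 ≤ U) (hU' : U ≤ 1) (hu : -1 < u) (hu' : u < 1) :
    phi u + T u * (U - u) + (U - u) ^ 2 / 2 ≤ phi U := by
  have hT : ∀ x y, -1 < x → x ≤ y → y < 1 → T x - x ≤ T y - y := by
    intro x y h1 h2 h3
    exact calc_mono' (f := fun x => T x - x) (f' := fun x => 1 / (1 - x ^ 2) - 1) h2
      (fun z k1 k2 => (hasDerivAt_T (by linarith) (by linarith)).sub (hasDerivAt_id z))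
      (fun z k1 k2 => by
        have h0 := one_sub_sq_pos (by linarith : -1 < z) (by linarith)
        rw [sub_nonneg, le_div_iff₀ h0]; nlinarith)
  have hd : ∀ x, -1 < x → x < 1 → HasDerivAt (fun x => phi x - T u * x - (x - u) ^ 2 / 2)
      (T x - T u - (x - u)) x := by
    intro x h1 h2
    have := ((hasDerivAt_phi h1 h2).sub ((hasDerivAt_id x).const_mul (T u))).sub
      ((((hasDerivAt_id x).sub_const u).pow 2).div_const 2)
    refine this.congr_deriv ?_
    simp
  have hc : Continuous (fun x => phi x - T u * x - (x - u) ^ 2 / 2) := by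
    have := continuous_phi
    fun_prop
  rcases le_total u U with hle | hle
  · have := calc_mono hle hc.continuousOn (fun x h1 h2 => hd x (by linarith) (by linarith))
      (fun x h1 h2 => by linarith [hT u x hu h1.le (by linarith)])
    simp at this
    linarith
  · have := calc_anti hle hc.continuousOn (fun x h1 h2 => hd x (by linarith) (by linarith))
      (fun x h1 h2 => by linarith [hT x u (by linarith) h2.le hu'])
    simp at this
    linarith

theorem phi_lt_phi {x y : ℝ} (h : 0 ≤ x) (hxy : x < y) (h' : y ≤ 1) : phi x < phi y := by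
  have := phi_quad_lower (U := y) (u := x) (by linarith) h' (by linarith) (by linarith)
  have h1 := T_nonneg h (by linarith)
  have h2 : 0 < (y - x) ^ 2 := by have : 0 < y - x := by linarith
                                  positivity
  nlinarith
theorem phi_le_phi {x y : ℝ} (h : 0 ≤ x) (hxy : x ≤ y) (h' : y ≤ 1) : phi x ≤ phi y := by
  rcases hxy.eq_or_lt with rfl | hlt
  · exact le_rfl
  · exact (phi_lt_phi h hlt h').le
theorem le_phi {x : ℝ} (h : -1 ≤ x) (h' : x ≤ 1) : x ^ 2 / 2 + x ^ 4 / 12 ≤ phi x := by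
  have key : ∀ x : ℝ, 0 ≤ x → x ≤ 1 → x ^ 2 / 2 + x ^ 4 / 12 ≤ phi x := by
    intro x h h'
    have := calc_mono (f := fun x => phi x - (x ^ 2 / 2 + x ^ 4 / 12))
      (f' := fun x => T x - (2 * x / 2 + 4 * x ^ 3 / 12)) h
      (by have := continuous_phi; fun_prop)
      (fun y h1 h2 => by
        have := (hasDerivAt_phi (by linarith) (by linarith : y < 1)).sub
          (((hasDerivAt_pow 2 y).div_const 2).add ((hasDerivAt_pow 4 y).div_const 12))
        exact this.congr_deriv (by simp))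
      (fun y h1 h2 => by linarith [le_T h1.le (by linarith : y < 1)])
    simp [phi_zero] at this
    linarith
  have := key |x| (abs_nonneg x) (abs_le.mpr ⟨h, h'⟩)
  rw [phi_abs, sq_abs, show |x| ^ 4 = x ^ 4 from Even.pow_abs (by decide) x] at this
  exact this
theorem phi_nonneg {x : ℝ} (h : -1 ≤ x) (h' : x ≤ 1) : 0 ≤ phi x :=
  le_trans (by positivity) (le_phi h h')
theorem phi_le_poly {x : ℝ} (h : -1 < x) (h' : x < 1) :
    phi x ≤ x ^ 2 / 2 + x ^ 4 / 12 + x ^ 6 / (6 * (1 - x ^ 2)) := by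
  have key : ∀ x : ℝ, 0 ≤ x → x < 1 →
      phi x ≤ x ^ 2 / 2 + x ^ 4 / 12 + x ^ 6 / (6 * (1 - x ^ 2)) := by
    intro x h h'
    have := calc_mono' (f := fun x => x ^ 2 / 2 + x ^ 4 / 12 + x ^ 5 * (x / (1 - x ^ 2)) / 6 - phi x)
      (f' := fun x => 2 * x / 2 + 4 * x ^ 3 / 12 + (5 * x ^ 4 * (x / (1 - x ^ 2)) +
        x ^ 5 * ((1 + x ^ 2) / (1 - x ^ 2) ^ 2)) / 6 - T x) h
      (fun y h1 h2 => by
        have := ((((hasDerivAt_pow 2 y).div_const 2).add ((hasDerivAt_pow 4 y).div_const 12)).add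
          (((hasDerivAt_pow 5 y).mul (hasDerivAt_div_one_sub (by linarith)
            (by linarith : y < 1))).div_const 6)).sub
          (hasDerivAt_phi (by linarith) (by linarith : y < 1))
        exact this.congr_deriv (by simp))
      (fun y h1 h2 => by
        have h0 := one_sub_sq_pos (by linarith : -1 < y) (by linarith)
        have h3 := T_le_poly h1.le (by linarith : y < 1)
        have e : (5 * y ^ 4 * (y / (1 - y ^ 2)) + y ^ 5 * ((1 + y ^ 2) / (1 - y ^ 2) ^ 2)) / 6 =
            y ^ 5 / (1 - y ^ 2) + y ^ 7 / (3 * (1 - y ^ 2) ^ 2) := by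
          field_simp; ring
        have : 0 ≤ y ^ 7 / (3 * (1 - y ^ 2) ^ 2) := by positivity
        rw [e]; linarith)
    simp [phi_zero] at this
    have h0 := one_sub_sq_pos (by linarith : -1 < x) h'
    have e : x ^ 6 / (6 * (1 - x ^ 2)) = x ^ 5 * (x / (1 - x ^ 2)) / 6 := by field_simp
    rw [e]; linarith
  have := key |x| (abs_nonneg x) (abs_lt.mpr ⟨h, h'⟩)
  rw [phi_abs, sq_abs, show |x| ^ 4 = x ^ 4 from Even.pow_abs (by decide) x,
    show |x| ^ 6 = x ^ 6 from Even.pow_abs (by decide) x] at this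
  exact this

theorem psi_le_psi {x y : ℝ} (h : 0 ≤ x) (hxy : x ≤ y) (h' : y < 1) : psi x ≤ psi y :=
  calc_mono' hxy (fun z h1 h2 => hasDerivAt_psi (by linarith) (by linarith))
    (fun z h1 h2 => sub_nonneg.mpr (T_le_div (by linarith) (by linarith)))
theorem psi_nonneg {x : ℝ} (h : -1 < x) (h' : x < 1) : 0 ≤ psi x := by
  rw [← psi_abs, ← psi_zero]
  exact psi_le_psi le_rfl (abs_nonneg x) (abs_lt.mpr ⟨h, h'⟩)

theorem phi_div_sq_le {x y : ℝ} (h : 0 < x) (hxy : x ≤ y) (h' : y ≤ 1) :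
    phi x / x ^ 2 ≤ phi y / y ^ 2 := by
  refine calc_mono (f := fun x => phi x / x ^ 2)
    (f' := fun x => (T x * x ^ 2 - phi x * (2 * x)) / (x ^ 2) ^ 2) hxy ?_ ?_ ?_
  · refine continuous_phi.continuousOn.div (by fun_prop) (fun z hz => ?_)
    have : 0 < z := by linarith [hz.1]
    positivity
  · intro z h1 h2
    have hz : 0 < z := by linarith
    have := (hasDerivAt_phi (by linarith) (by linarith : z < 1)).div (hasDerivAt_pow 2 z)
      (by positivity)
    exact this.congr_deriv (by simp)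
  · intro z h1 h2
    have hz : 0 < z := by linarith
    have h3 := psi_nonneg (by linarith : -1 < z) (by linarith)
    unfold psi chi at h3
    refine div_nonneg ?_ (by positivity)
    nlinarith

/-- `phi x / x ^ 2` is monotone; in particular `phi x ≤ x ^ 2 * log 2` -/
theorem phi_le_sq {x : ℝ} (h : -1 ≤ x) (h' : x ≤ 1) : phi x ≤ x ^ 2 * log 2 := by
  rw [← phi_abs, ← sq_abs]
  rcases (abs_nonneg x).eq_or_lt with h0 | h0
  · rw [← h0, phi_zero]; simp
  · have := phi_div_sq_le h0 (abs_le.mpr ⟨h, h'⟩) le_rfl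
    rw [phi_one, one_pow, div_one, div_le_iff₀ (by positivity)] at this
    linarith
theorem hh_ge {x : ℝ} (h : -1 ≤ x) (h' : x ≤ 1) : (1 - x ^ 2) * log 2 ≤ hh x := by
  unfold hh; linarith [phi_le_sq h h']
theorem hh_nonneg {x : ℝ} (h : -1 ≤ x) (h' : x ≤ 1) : 0 ≤ hh x := by
  refine le_trans ?_ (hh_ge h h')
  have := log_pos (by norm_num : (1 : ℝ) < 2)
  have : 0 ≤ 1 - x ^ 2 := by nlinarith
  positivity
theorem hh_pos {x : ℝ} (h : -1 < x) (h' : x < 1) : 0 < hh x := by
  refine lt_of_lt_of_le ?_ (hh_ge h.le h'.le)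
  have := log_pos (by norm_num : (1 : ℝ) < 2)
  have := one_sub_sq_pos h h'
  positivity
theorem hh_le_hh {x y : ℝ} (h : 0 ≤ x) (hxy : x ≤ y) (h' : y ≤ 1) : hh y ≤ hh x := by
  unfold hh; linarith [phi_le_phi h hxy h']

theorem calc_kl {p q : ℝ} (hp : 0 ≤ p) (hq : 0 < q) : p * log p - p * log q ≤ p * (p - q) / q := by
  rcases hp.eq_or_lt with rfl | hp
  · simp
  · have h1 := log_le_sub_one_of_pos (div_pos hp hq)
    rw [log_div hp.ne' hq.ne'] at h1
    have e : p * (p - q) / q = p * (p / q - 1) := by field_simp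
    rw [e, ← mul_sub]
    exact mul_le_mul_of_nonneg_left h1 hp.le

/-- relative entropy is at most the chi-square divergence -/
theorem phi_quad_upper {A a : ℝ} (hA : -1 ≤ A) (hA' : A ≤ 1) (ha : -1 < a) (ha' : a < 1) :
    phi A ≤ phi a + T a * (A - a) + (A - a) ^ 2 / (1 - a ^ 2) := by
  have h1 := calc_kl (p := 1 + A) (q := 1 + a) (by linarith) (by linarith)
  have h2 := calc_kl (p := 1 - A) (q := 1 - a) (by linarith) (by linarith)
  have e : (A - a) ^ 2 / (1 - a ^ 2) = ((1 + A) * (1 + A - (1 + a)) / (1 + a) +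
      (1 - A) * (1 - A - (1 - a)) / (1 - a)) / 2 := by
    have h1 : 1 + a ≠ 0 := by linarith
    have h2 : 1 - a ≠ 0 := by linarith
    have h3 : 1 - a ^ 2 = (1 + a) * (1 - a) := by ring
    rw [h3]; field_simp; ring
  rw [e]
  unfold phi T
  linarith

theorem hasDerivAt_dpsi {x : ℝ} (h : -1 < x) (h' : x < 1) :
    HasDerivAt (fun x : ℝ => x / (1 - x ^ 2) - T x) (2 * x ^ 2 / (1 - x ^ 2) ^ 2) x := by
  have := (hasDerivAt_div_one_sub h h').sub (hasDerivAt_T h h')
  refine this.congr_deriv ?_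
  have h0 := one_sub_sq_pos h h'
  field_simp; ring

theorem dpsi_mono {x y : ℝ} (h : -1 < x) (hxy : x ≤ y) (h' : y < 1) :
    x / (1 - x ^ 2) - T x ≤ y / (1 - y ^ 2) - T y :=
  calc_mono' (f := fun x : ℝ => x / (1 - x ^ 2) - T x) hxy
    (fun z h1 h2 => hasDerivAt_dpsi (by linarith) (by linarith)) (fun z h1 h2 => by positivity)

/-- `psi` is convex on `(-1,1)` (its second derivative is `2x²/(1-x²)²`) -/
theorem psi_tangent {U u : ℝ} (hU : -1 < U) (hU' : U < 1) (hu : -1 < u) (hu' : u < 1) :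
    psi u + (u / (1 - u ^ 2) - T u) * (U - u) ≤ psi U := by
  have hd : ∀ x, -1 < x → x < 1 → HasDerivAt (fun x => psi x - (u / (1 - u ^ 2) - T u) * x)
      ((x / (1 - x ^ 2) - T x) - (u / (1 - u ^ 2) - T u)) x := by
    intro x h1 h2
    have := (hasDerivAt_psi h1 h2).sub ((hasDerivAt_id x).const_mul (u / (1 - u ^ 2) - T u))
    exact this.congr_deriv (by simp)
  rcases le_total u U with hle | hle
  · have := calc_mono' hle (fun x h1 h2 => hd x (by linarith) (by linarith))
      (fun x h1 h2 => sub_nonneg.mpr (dpsi_mono hu h1.le (by linarith)))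
    linarith
  · have := calc_anti' hle (fun x h1 h2 => hd x (by linarith) (by linarith))
      (fun x h1 h2 => sub_nonpos.mpr (dpsi_mono (by linarith) h2.le hu'))
    linarith
theorem psi_ge_two_phi {x : ℝ} (h : -1 < x) (h' : x < 1) : 2 * phi x - x ^ 2 ≤ psi x := by
  have k1 : ∀ x : ℝ, 0 ≤ x → x < 1 → 0 ≤ (x / (1 - x ^ 2) - T x) - 2 * T x + 2 * x := by
    intro x h h'
    have := calc_mono' (f := fun x => (x / (1 - x ^ 2) - T x) - 2 * T x + 2 * x)
      (f' := fun x => 2 * x ^ 2 / (1 - x ^ 2) ^ 2 - 2 * (1 / (1 - x ^ 2)) + 2) h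
      (fun y h1 h2 => by
        have := ((hasDerivAt_dpsi (by linarith) (by linarith : y < 1)).sub
          ((hasDerivAt_T (by linarith) (by linarith : y < 1)).const_mul 2)).add
          ((hasDerivAt_id y).const_mul 2)
        exact this.congr_deriv (by simp))
      (fun y h1 h2 => by
        have h0 := one_sub_sq_pos (by linarith : -1 < y) (by linarith)
        have e : 2 * y ^ 2 / (1 - y ^ 2) ^ 2 - 2 * (1 / (1 - y ^ 2)) + 2 =
            2 * y ^ 4 / (1 - y ^ 2) ^ 2 := by field_simp; ring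
        rw [e]; positivity)
    simpa [T_zero] using this
  have key : ∀ x : ℝ, 0 ≤ x → x < 1 → 2 * phi x - x ^ 2 ≤ psi x := by
    intro x h h'
    have := calc_mono' (f := fun x => psi x - 2 * phi x + x ^ 2)
      (f' := fun x => (x / (1 - x ^ 2) - T x) - 2 * T x + 2 * x) h
      (fun y h1 h2 => by
        have := ((hasDerivAt_psi (by linarith) (by linarith : y < 1)).sub
          ((hasDerivAt_phi (by linarith) (by linarith : y < 1)).const_mul 2)).add
          (hasDerivAt_pow 2 y)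
        exact this.congr_deriv (by simp))
      (fun y h1 h2 => k1 y h1.le (by linarith))
    simp [psi_zero, phi_zero] at this
    linarith
  have := key |x| (abs_nonneg x) (abs_lt.mpr ⟨h, h'⟩)
  rwa [phi_abs, psi_abs, sq_abs] at this
theorem le_psi {x : ℝ} (h : -1 < x) (h' : x < 1) : x ^ 4 / 6 ≤ psi x := by
  have k1 : ∀ x : ℝ, 0 ≤ x → x < 1 → 0 ≤ (x / (1 - x ^ 2) - T x) - 4 * x ^ 3 / 6 := by
    intro x h h'
    have := calc_mono' (f := fun x => (x / (1 - x ^ 2) - T x) - 4 * x ^ 3 / 6)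
      (f' := fun x => 2 * x ^ 2 / (1 - x ^ 2) ^ 2 - 4 * (3 * x ^ 2) / 6) h
      (fun y h1 h2 => by
        have := (hasDerivAt_dpsi (by linarith) (by linarith : y < 1)).sub
          (((hasDerivAt_pow 3 y).const_mul 4).div_const 6)
        exact this.congr_deriv (by simp))
      (fun y h1 h2 => by
        have h0 := one_sub_sq_pos (by linarith : -1 < y) (by linarith)
        rw [sub_nonneg, le_div_iff₀ (by positivity)]
        have : (1 - y ^ 2) ^ 2 ≤ 1 := by nlinarith
        nlinarith [sq_nonneg y])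
    simpa [T_zero] using this
  have key : ∀ x : ℝ, 0 ≤ x → x < 1 → x ^ 4 / 6 ≤ psi x := by
    intro x h h'
    have := calc_mono' (f := fun x => psi x - x ^ 4 / 6)
      (f' := fun x => (x / (1 - x ^ 2) - T x) - 4 * x ^ 3 / 6) h
      (fun y h1 h2 => by
        have := (hasDerivAt_psi (by linarith) (by linarith : y < 1)).sub
          ((hasDerivAt_pow 4 y).div_const 6)
        exact this.congr_deriv (by simp))
      (fun y h1 h2 => k1 y h1.le (by linarith))
    simp [psi_zero] at this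
    linarith
  have := key |x| (abs_nonneg x) (abs_lt.mpr ⟨h, h'⟩)
  rwa [psi_abs, show |x| ^ 4 = x ^ 4 from Even.pow_abs (by decide) x] at this
theorem psi_le_poly {x : ℝ} (h : -1 < x) (h' : x < 1) :
    psi x ≤ x ^ 4 / 6 + x ^ 6 / (6 * (1 - x ^ 2)) := by
  have key : ∀ x : ℝ, 0 ≤ x → x < 1 → psi x ≤ x ^ 4 / 6 + x ^ 6 / (6 * (1 - x ^ 2)) := by
    intro x h h'
    have := calc_mono' (f := fun x => x ^ 4 / 6 + x ^ 5 * (x / (1 - x ^ 2)) / 6 - psi x)
      (f' := fun x => 4 * x ^ 3 / 6 + (5 * x ^ 4 * (x / (1 - x ^ 2)) +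
        x ^ 5 * ((1 + x ^ 2) / (1 - x ^ 2) ^ 2)) / 6 - (x / (1 - x ^ 2) - T x)) h
      (fun y h1 h2 => by
        have := (((hasDerivAt_pow 4 y).div_const 6).add
          (((hasDerivAt_pow 5 y).mul (hasDerivAt_div_one_sub (by linarith)
            (by linarith : y < 1))).div_const 6)).sub
          (hasDerivAt_psi (by linarith) (by linarith : y < 1))
        exact this.congr_deriv (by simp))
      (fun y h1 h2 => by
        have h0 := one_sub_sq_pos (by linarith : -1 < y) (by linarith)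
        have h3 := le_T h1.le (by linarith : y < 1)
        have e : (5 * y ^ 4 * (y / (1 - y ^ 2)) + y ^ 5 * ((1 + y ^ 2) / (1 - y ^ 2) ^ 2)) / 6 =
            y / (1 - y ^ 2) - y - y ^ 3 + y ^ 7 / (3 * (1 - y ^ 2) ^ 2) := by
          field_simp; ring
        have : 0 ≤ y ^ 7 / (3 * (1 - y ^ 2) ^ 2) := by positivity
        rw [e]; linarith)
    simp [psi_zero] at this
    have h0 := one_sub_sq_pos (by linarith : -1 < x) h'
    have e : x ^ 6 / (6 * (1 - x ^ 2)) = x ^ 5 * (x / (1 - x ^ 2)) / 6 := by field_simp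
    rw [e]; linarith
  have := key |x| (abs_nonneg x) (abs_lt.mpr ⟨h, h'⟩)
  rwa [psi_abs, sq_abs, show |x| ^ 4 = x ^ 4 from Even.pow_abs (by decide) x,
    show |x| ^ 6 = x ^ 6 from Even.pow_abs (by decide) x] at this

theorem dchi_le_dchi {x y : ℝ} (h : 0 ≤ x) (hxy : x ≤ y) (h' : y < 1) : dchi x ≤ dchi y := by
  unfold dchi
  have h1 := T_le_T (by linarith : -1 < x) hxy h'
  have h2 := dpsi_mono (by linarith : -1 < x) hxy h'
  linarith
theorem chi_sub_le {s d : ℝ} (hs : 0 ≤ s) (hsd : s ≤ d) (hd : d < 1) :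
    chi d - chi s ≤ (d - s) * dchi d := by
  have := calc_anti' (f := fun x => chi x - dchi d * x) (f' := fun x => dchi x - dchi d) hsd
    (fun y h1 h2 => by
      have := (hasDerivAt_chi (by linarith) (by linarith : y < 1)).sub
        ((hasDerivAt_id y).const_mul (dchi d))
      exact this.congr_deriv (by simp))
    (fun y h1 h2 => sub_nonpos.mpr (dchi_le_dchi (by linarith) h2.le hd))
  linarith
theorem dchi_nonneg {x : ℝ} (h : 0 ≤ x) (h' : x < 1) : 0 ≤ dchi x := by
  unfold dchi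
  have := T_nonneg h h'
  have h0 := one_sub_sq_pos (by linarith : -1 < x) h'
  positivity

theorem convexOn_phi : ConvexOn ℝ (Icc (-1 : ℝ) 1) phi :=
  calc_convexOn continuous_phi.continuousOn (fun _ h1 h2 => hasDerivAt_phi h1 h2)
    (fun _ _ h1 h2 h3 => T_le_T h1 h2 h3)
theorem concaveOn_hh : ConcaveOn ℝ (Icc (-1 : ℝ) 1) hh := by
  have := (concaveOn_const (log 2) (convex_Icc (-1 : ℝ) 1)).sub convexOn_phi
  exact this
theorem hh_add_le {u v : ℝ} (hu : 0 ≤ u) (hu' : u ≤ 1) (hv : 0 ≤ v) (hv' : v ≤ 1) :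
    hh (u + v - 1) ≤ hh u + hh v := by
  have := calc_anti (f := fun t => hh t - hh (t + v - 1)) (f' := fun t => -T t - -T (t + v - 1))
    hu' (by have := continuous_hh; fun_prop)
    (fun y h1 h2 => by
      have h3 : HasDerivAt (fun t : ℝ => t + v - 1) 1 y := by
        simpa using ((hasDerivAt_id y).add_const v).sub_const 1
      have h4 := (hasDerivAt_hh (x := y + v - 1) (by linarith) (by linarith)).comp y h3
      have := (hasDerivAt_hh (by linarith) h2).sub h4
      exact this.congr_deriv (by simp))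
    (fun y h1 h2 => by
      have := T_le_T (x := y + v - 1) (y := y) (by linarith) (by linarith) h2
      linarith)
  simp [hh_one] at this
  linarith
/-- `T m - m * ell m` is concave on `[0,1]` (derivative `1 - ell m`) and vanishes at both ends -/
theorem mul_ell_le_T {m : ℝ} (h : 0 ≤ m) (h' : m < 1) : m * ell m ≤ T m := by
  set g : ℝ → ℝ := fun m => ((1 + m) * log (1 + m) - (1 - m) * log (1 - m)) / 2 - m * log 2 with hg
  have e : ∀ x, g x = T x - x * ell x := by
    intro x; simp only [hg, T, ell, l0]; ring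
  have hc : Continuous g := by
    have h1 : Continuous (fun x : ℝ => (1 + x) * log (1 + x)) :=
      continuous_mul_log.comp (continuous_const.add continuous_id)
    have h2 : Continuous (fun x : ℝ => (1 - x) * log (1 - x)) :=
      continuous_mul_log.comp (continuous_const.sub continuous_id)
    exact ((h1.sub h2).div_const 2).sub (continuous_id.mul continuous_const)
  have hd : ∀ x, -1 < x → x < 1 → HasDerivAt g (1 - ell x) x := by
    intro x h1 h2
    have := (hasDerivAt_T h1 h2).sub ((hasDerivAt_id x).mul (hasDerivAt_ell h1 h2))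
    rw [show g = fun x => T x - x * ell x from funext e]
    refine this.congr_deriv ?_
    have h0 := one_sub_sq_pos h1 h2
    simp only [id]
    field_simp; ring
  have hm : ∀ x y, 0 ≤ x → x ≤ y → y < 1 → ell x ≤ ell y := by
    intro x y h1 h2 h3
    unfold ell; linarith [l0_le_l0 h1 h2 h3]
  have g0 : g 0 = 0 := by simp [hg]
  have g1 : g 1 = 0 := by simp only [hg]; norm_num
  have : 0 ≤ g m := by
    rcases le_total (ell m) 1 with h1 | h1
    · rw [← g0]
      exact calc_mono h hc.continuousOn (fun x k1 k2 => hd x (by linarith) (by linarith))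
        (fun x k1 k2 => by linarith [hm x m k1.le k2.le h'])
    · rw [← g1]
      exact calc_anti h'.le hc.continuousOn (fun x k1 k2 => hd x (by linarith) k2)
        (fun x k1 k2 => by linarith [hm m x h k1.le k2])
  rw [e] at this
  linarith

theorem T_one_sub {p : ℝ} (h : 0 < p) (h' : p < 1) :
    T (1 - 2 * p) = (log (1 - p) - log p) / 2 := by
  unfold T
  rw [show 1 + (1 - 2 * p) = 2 * (1 - p) by ring, show 1 - (1 - 2 * p) = 2 * p by ring,
    log_mul two_ne_zero (by linarith), log_mul two_ne_zero h.ne']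
  ring
theorem hh_one_sub {p : ℝ} (h : 0 ≤ p) (h' : p ≤ 1) :
    hh (1 - 2 * p) = -p * log p - (1 - p) * log (1 - p) := by
  have k : ∀ q : ℝ, 2 * q * log (2 * q) = 2 * q * (log 2 + log q) := by
    intro q
    by_cases hq : q = 0
    · simp [hq]
    · rw [log_mul two_ne_zero hq]
  unfold hh phi
  rw [show 1 + (1 - 2 * p) = 2 * (1 - p) by ring, show 1 - (1 - 2 * p) = 2 * p by ring, k, k]
  ring
theorem ell_one_sub {p : ℝ} (h : 0 < p) (h' : p < 1) :
    ell (1 - 2 * p) = -(log p + log (1 - p)) / 2 := by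
  unfold ell l0
  rw [show 1 + (1 - 2 * p) = 2 * (1 - p) by ring, show 1 - (1 - 2 * p) = 2 * p by ring,
    log_mul two_ne_zero (by linarith), log_mul two_ne_zero h.ne']
  ring

end Vale.Agent.P322
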