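import Vale.Agent.P322.BBSound
import Vale.Agent.P322.Cert0
import Vale.Agent.P322.Cert1
import Vale.Agent.P322.Cert2
import Vale.Agent.P322.Cert3
import Vale.Agent.P322.Cert4
import Vale.Agent.P322.Cert5
import Vale.Agent.P322.Cert6
import Vale.Agent.P322.Cert7

namespace Vale.Agent.P322.BB
set_option maxRecDepth 100000

theorem cov_all : Cov 0 1099511627776 0 1099511627776 17179869184 1099511496704 :=
  (Cov.su 1096290402304 (Cov.sv 1096290402304 (Cov.sd 1096290402304 (Cov.su 549755813888 (Cov.sv 549755813888 (Cov.sd 755914244096 (Cov.su 68719476736 (Cov.sv 68719476736 (Cov.sd 171798691840 (Cov.su 12884901888 (run_sound c0) (Cov.sv 12884901888 (run_sound c1) (run_sound c2))) (run_sound c3)) (run_sound c4)) (Cov.sv 68719476736 (run_sound c5) (Cov.sd 171798691840 (run_sound c6) (Cov.sd 412316860416 (run_sound c7) (run_sound c8))))) (run_sound c9)) (run_sound c10)) (Cov.sv 549755813888 (Cov.sd 755914244096 (Cov.sv 68719476736 (run_sound c11) (Cov.sd 171798691840 (run_sound c12) (Cov.sd 412316860416 (run_sound c13) (Cov.su 893353197568 (Cov.sv 274877906944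 (run_sound c14) (Cov.sd 584115552256 (Cov.su 755914244096 (Cov.sv 412316860416 (run_sound c15) (Cov.sd 498216206336 (run_sound c16) (Cov.su 652835028992 (Cov.sv 481036337152 (run_sound c17) (Cov.sd 541165879296 (run_sound c18) (Cov.su 601295421440 (run_sound c19) (run_sound c20)))) (run_sound c21)))) (run_sound c22)) (Cov.su 755914244096 (Cov.sv 412316860416 (run_sound c23) (Cov.sd 670014898176 (run_sound c24) (run_sound c25))) (run_sound c26)))) (run_sound c27))))) (run_sound c28)) (Cov.sd 755914244096 (Cov.sd 171798691840 (run_sound c29) (Cov.sd 412316860416 (run_sound c30) (Cov.su 893353197568 (Cov.sv 893353197568 (Cov.sd 584115552256 (run_sound c31) (Cov.su 755914244096 (Cov.sv 755914244096 (Cov.sd 670014898176 (Cov.su 652835028992 (Cov.sv 652835028992 (Cov.sd 627065225216 (Cov.su 601295421440 (run_sound c32) (Cov.sv 601295421440 (Cov.sd 605590388736 (run_sound c33) (run_sound c34)) (run_sound c35))) (run_sound c36)) (run_sound c37)) (Cov.sv 652835028992 (Cov.sd 627065225216 (run_sound c38) (Cov.su 704374636544 (Cov.sv 601295421440 (run_sound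 c39) (run_sound c40)) (run_sound c41))) (run_sound c42))) (Cov.su 652835028992 (run_sound c43) (Cov.sv 652835028992 (run_sound c44) (run_sound c45)))) (run_sound c46)) (Cov.sv 755914244096 (Cov.sd 670014898176 (run_sound c47) (Cov.sv 652835028992 (run_sound c48) (run_sound c49))) (run_sound c50)))) (run_sound c51)) (run_sound c52)))) (Cov.su 1047972020224 (Cov.sv 1047972020224 (Cov.sd 1065151889408 (Cov.su 893353197568 (Cov.sv 893353197568 (Cov.sd 979252543488 (Cov.sd 893353197568 (Cov.su 755914244096 (run_sound c53) (Cov.sv 755914244096 (Cov.sd 824633720832 (Cov.sv 652835028992 (run_sound c54) (Cov.su 824633720832 (run_sound c55) (run_sound c56))) (run_sound c57)) (run_sound c58))) (run_sound c59)) (run_sound c60)) (run_sound c61)) (Cov.sv 893353197568 (Cov.sd 979252543488 (Cov.sd 893353197568 (Cov.sv 755914244096 (run_sound c62) (run_sound c63)) (Cov.sv 755914244096 (run_sound c64) (Cov.su 996432412672 (run_sound c65) (run_sound c66)))) (run_sound c67)) (Cov.sd 979252543488 (run_sound c68) (run_sound c69)))) (run_sound c70)) (run_sound c71))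 (Cov.sv 1047972020224 (Cov.sd 1065151889408 (Cov.sv 893353197568 (run_sound c72) (Cov.sd 979252543488 (run_sound c73) (Cov.su 1082331758592 (run_sound c74) (run_sound c75)))) (run_sound c76)) (Cov.sd 1065151889408 (run_sound c77) (Cov.su 1086626725888 (run_sound c78) (run_sound c79)))))))) (Cov.sd 1099490656256 (run_sound c80) (run_sound c81))) (run_sound c82)) (Cov.sv 1096290402304 (Cov.sd 1096290402304 (run_sound c83) (Cov.su 1099499044864 (Cov.sd 1099490656256 (Cov.sv 996432412672 (run_sound c84) (Cov.su 1099243192320 (Cov.sd 1099243192320 (Cov.sv 1082331758592 (run_sound c85) (Cov.sd 1098572103680 (run_sound c86) (run_sound c87))) (run_sound c88)) (run_sound c89))) (run_sound c90)) (run_sound c91))) (Cov.sd 1096290402304 (run_sound c92) (Cov.su 1099499044864 (Cov.sv 1099499044864 (Cov.sd 1099490656256 (Cov.su 1099243192320 (Cov.sv 1099243192320 (Cov.sd 1099243192320 (Cov.sd 1098572103680 (run_sound c93) (run_sound c94)) (run_sound c95)) (run_sound c96)) (Cov.sv 1099243192320 (Cov.sd 1099243192320 (run_sound c97) (Cov.su 1099444518912 (run_sound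 c98) (run_sound c99))) (run_sound c100))) (Cov.su 1099310301184 (run_sound c101) (Cov.sv 1099310301184 (run_sound c102) (run_sound c103)))) (run_sound c104)) (Cov.sv 1099499044864 (Cov.sd 1099490656256 (run_sound c105) (Cov.su 1099510972416 (Cov.sv 1099310301184 (run_sound c106) (Cov.sd 1099510054912 (Cov.sv 1099461296128 (run_sound c107) (run_sound c108)) (run_sound c109))) (run_sound c110))) (Cov.sd 1099490656256 (run_sound c111) (Cov.su 1099510972416 (Cov.sv 1099510972416 (Cov.sd 1099510054912 (run_sound c112) (run_sound c113)) (run_sound c114)) (Cov.sv 1099510972416 (run_sound c115) (run_sound c116)))))))))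

end Vale.Agent.P322.BB
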