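import Vale.Agent.P322.Rules

namespace Vale.Agent.P322
open Real Set

theorem low_log_le {p : ℝ} (h1 : p < 1) : log (1 - p) ≤ -p := by
  have := log_le_sub_one_of_pos (x := 1 - p) (by linarith)
  linarith

theorem low_le_mul_log {p : ℝ} (h1 : p < 1) : -p ≤ (1 - p) * log (1 - p) := by
  have hp : 0 < 1 - p := by linarith
  have h := one_sub_inv_le_log_of_pos hp
  have h2 := mul_le_mul_of_nonneg_left h hp.le
  have e : (1 - p) * (1 - (1 - p)⁻¹) = -p := by field_simp; ring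
  linarith

theorem low_le_log {p : ℝ} (h0 : 0 < p) (h1 : p ≤ 1 / 2) : -(2 * p) ≤ log (1 - p) := by
  have h2 := low_le_mul_log (p := p) (by linarith)
  have h3 := low_log_le (p := p) (by linarith)
  nlinarith

theorem low_T_le {p : ℝ} (h0 : 0 < p) (h1 : p < 1) : T (1 - 2 * p) ≤ -log p / 2 := by
  rw [T_one_sub h0 h1]
  have := low_log_le h1
  linarith

theorem low_le_T {p : ℝ} (h0 : 0 < p) (h1 : p ≤ 1 / 2) : -log p / 2 - p ≤ T (1 - 2 * p) := by
  rw [T_one_sub h0 (by linarith)]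
  have := low_le_log h0 h1
  linarith

theorem low_hh_le {p : ℝ} (h0 : 0 < p) (h1 : p < 1) : hh (1 - 2 * p) ≤ p * (-log p + 1) := by
  rw [hh_one_sub h0.le h1.le]
  have := low_le_mul_log h1
  linarith

theorem low_le_hh {p : ℝ} (h0 : 0 < p) (h1 : p < 1) :
    p * (-log p + (1 - p)) ≤ hh (1 - 2 * p) := by
  rw [hh_one_sub h0.le h1.le]
  have := mul_le_mul_of_nonneg_left (low_log_le h1) (by linarith : 0 ≤ 1 - p)
  linarith

theorem low_le_ell {p : ℝ} (h0 : 0 < p) (h1 : p < 1) : -log p / 2 ≤ ell (1 - 2 * p) := by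
  rw [ell_one_sub h0 h1]
  have := low_log_le h1
  linarith

theorem low_ell_le {p : ℝ} (h0 : 0 < p) (h1 : p ≤ 1 / 2) : ell (1 - 2 * p) ≤ -log p / 2 + p := by
  rw [ell_one_sub h0 (by linarith)]
  have := low_le_log h0 h1
  linarith

theorem low_L_ge {p : ℝ} (n : ℕ) (h0 : 0 < p) (h1 : p ≤ 1 / 2 ^ n) :
    n * (6931 / 10000) ≤ -log p := by
  have h2 : log p ≤ log (1 / 2 ^ n) := log_le_log h0 h1
  rw [one_div, log_inv, log_pow] at h2
  have h3 := log_two_gt_d9
  have h4 : (n : ℝ) * (6931 / 10000) ≤ n * log 2 :=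
    mul_le_mul_of_nonneg_left (by linarith) (Nat.cast_nonneg n)
  linarith

theorem low_div_le {p : ℝ} (h0 : 0 < p) (h1 : p ≤ 1 / 2) :
    (1 - 2 * p) / (1 - (1 - 2 * p) ^ 2) ≤ 1 / (4 * p) := by
  have e : 1 - (1 - 2 * p) ^ 2 = 4 * p * (1 - p) := by ring
  have hp : 0 < 1 - p := by linarith
  rw [e, div_le_div_iff₀ (by positivity) (by positivity)]
  nlinarith

/-- `kpp d * hh d / d ≤ 0.531` -/
theorem low_kpp_hh {p : ℝ} (h0 : 0 < p) (h1 : p ≤ 1 / 2 ^ 24) :
    kpp (1 - 2 * p) * (hh (1 - 2 * p) / (1 - 2 * p)) ≤ 531 / 1000 := by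
  have hp : p ≤ 1 / 1000 := h1.trans (by norm_num)
  have hL := low_L_ge 24 h0 h1
  have hd : 0 < 1 - 2 * p := by linarith
  have h2 := low_div_le h0 (by linarith)
  have h3 := low_hh_le h0 (by linarith)
  have h4 := low_le_ell h0 (by linarith)
  have h5 := hh_nonneg (x := 1 - 2 * p) (by linarith) (by linarith)
  push_cast at hL
  generalize -log p = L at *
  have he : 0 < ell (1 - 2 * p) := by linarith
  have hq : 0 < 1 - (1 - 2 * p) ^ 2 := by nlinarith
  have e : kpp (1 - 2 * p) * (hh (1 - 2 * p) / (1 - 2 * p)) =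
      (1 - 2 * p) / (1 - (1 - 2 * p) ^ 2) * hh (1 - 2 * p) / ell (1 - 2 * p) := by
    unfold kpp
    field_simp
  rw [e, div_le_iff₀ he]
  have h6 : (1 - 2 * p) / (1 - (1 - 2 * p) ^ 2) * hh (1 - 2 * p) ≤ 1 / (4 * p) * (p * (L + 1)) :=
    mul_le_mul h2 h3 h5 (by positivity)
  have e2 : 1 / (4 * p) * (p * (L + 1)) = (L + 1) / 4 := by field_simp
  linarith

theorem low_aom_le {p : ℝ} (h0 : 0 < p) (h1 : p ≤ 1 / 2 ^ 24) :
    aom (1 - 2 * p) ≤ -log p / 2 + 531 / 1000 := by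
  have hp : p ≤ 1 / 1000 := h1.trans (by norm_num)
  have := low_kpp_hh h0 h1
  have := low_T_le h0 (by linarith)
  unfold aom
  linarith

/-- upper bound for `kap` -/
theorem low_kap_le {p t : ℝ} (h0 : 0 < p) (h1 : p < 1 / 2) (ht : 0 < t) (hT : t ≤ T (1 - 2 * p)) :
    kap (1 - 2 * p) ≤ 1 / (4 * p) / t := by
  have h2 := low_div_le h0 h1.le
  have hd : 0 < 1 - 2 * p := by linarith
  have hq : 0 < 1 - (1 - 2 * p) ^ 2 := by nlinarith
  have h3 : (1 - 2 * p) / (1 - (1 - 2 * p) ^ 2) / T (1 - 2 * p) ≤ 1 / (4 * p) / t :=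
    div_le_div₀ (by positivity) h2 ht hT
  unfold kap
  rw [← div_div]
  linarith

theorem low_GG_le {u v : ℝ} (hu : 0 < u) (hu' : u < 1) (hv : 0 < v) (hv' : v < 1) :
    GG u v ≤ 2 * log 2 - hh (1 - 2 * (1 - (u + v) / 2)) := by
  have h1 := GG_le_phi_add hu.le hu'.le hv.le hv'.le
  have h2 := hh_add_le hu.le hu'.le hv.le hv'.le
  have e : 1 - 2 * (1 - (u + v) / 2) = u + v - 1 := by ring
  rw [e]
  unfold hh at *
  linarith

theorem low_case1 {u v p : ℝ} (hu : 0 < u) (hu' : u < 1) (hv : 0 < v) (hv' : v < 1)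
    (h0 : 0 < p) (h1 : p ≤ 1 / 2 ^ 24) (h : (u + v) / 2 ≤ 1 - 2 * p)
    (h4 : 1 - 4 * p ≤ (u + v) / 2) : Core u v (1 - 2 * p) := by
  have hp : p ≤ 1 / 1000 := h1.trans (by norm_num)
  have hL := low_L_ge 24 h0 h1
  push_cast at hL
  have hs0 : 0 ≤ (u + v) / 2 := by linarith
  have hs1 : (u + v) / 2 < 1 := by linarith
  refine rule_B1 (θ := th0 ((u + v) / 2)) hu hu' hv hv' (by linarith) h le_rfl
    ((th0_le_half hs0 hs1).trans (by norm_num)) ?_
  generalize (u + v) / 2 = s at *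
  have hT : T (1 - 2 * (2 * p)) ≤ T s := T_le_T (by linarith) (by linarith) hs1
  have hT2 := low_le_T (p := 2 * p) (by linarith) (by linarith)
  rw [log_mul two_ne_zero h0.ne'] at hT2
  have hl2 := log_two_lt_d9
  have hl2' := log_two_gt_d9
  have ha := low_aom_le h0 h1
  have hl0 : l0 s ≤ -log p / 2 := by
    have h5 : l0 s ≤ l0 (1 - 2 * p) := l0_le_l0 hs0 h (by linarith)
    have h6 := low_ell_le h0 (by linarith)
    unfold ell at h6
    linarith
  have hl0' : 0 ≤ l0 s := l0_nonneg (by linarith) hs1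
  have hθ0 := th0_nonneg hs0 hs1
  have hθ : th0 s ≤ 8 * p * (1 / 2 + -log p / 6) := by
    unfold th0
    refine mul_le_mul ?_ (by linarith) (by linarith) (by linarith)
    nlinarith
  have hk : 0 ≤ kpp (1 - 2 * p) * (hh (1 - 2 * p) / (1 - 2 * p)) :=
    mul_nonneg (kpp_pos (by linarith) (by linarith)).le
      (div_nonneg (hh_nonneg (by linarith) (by linarith)) (by linarith))
  have hda : dchi (1 - 2 * p) - aom (1 - 2 * p) ≤ 1 / (4 * p) := by
    have := low_div_le h0 (by linarith)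
    unfold dchi aom
    linarith
  have h7 : th0 s * (dchi (1 - 2 * p) - aom (1 - 2 * p)) ≤ th0 s * (1 / (4 * p)) :=
    mul_le_mul_of_nonneg_left hda hθ0
  have h8 : th0 s * (1 / (4 * p)) ≤ 8 * p * (1 / 2 + -log p / 6) * (1 / (4 * p)) :=
    mul_le_mul_of_nonneg_right hθ (by positivity)
  have e : 8 * p * (1 / 2 + -log p / 6) * (1 / (4 * p)) = 1 + -log p / 3 := by
    field_simp
    ring
  linarith

theorem low_case2 {u v p : ℝ} (hu : 0 < u) (hu' : u < 1) (hv : 0 < v) (hv' : v < 1)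
    (h0 : 0 < p) (h1 : p ≤ 1 / 2 ^ 24) (h4 : (u + v) / 2 ≤ 1 - 4 * p)
    (h64 : 1 - 64 * p ≤ (u + v) / 2) : Core u v (1 - 2 * p) := by
  have hp : p ≤ 1 / 10000 := h1.trans (by norm_num)
  have hL := low_L_ge 24 h0 h1
  push_cast at hL
  refine rule_b2 (by linarith) (by linarith) adm_zero ?_
  have hG := low_GG_le hu hu' hv hv'
  obtain ⟨τ, hτ⟩ : ∃ τ, τ = 1 - (u + v) / 2 := ⟨_, rfl⟩
  have hs : (u + v) / 2 = 1 - τ := by linarith
  rw [← hτ] at hG
  rw [hs] at h4 h64 ⊢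
  have hτ0 : 0 < τ := by linarith
  have hh1 := low_le_hh (p := τ) hτ0 (by linarith)
  have hh2 := low_hh_le h0 (by linarith)
  have ha := low_aom_le h0 h1
  have hlog : log τ ≤ log p + 6 * log 2 := by
    have h2 : log τ ≤ log (2 ^ 6 * p) := log_le_log hτ0 (by linarith)
    rw [log_mul (by norm_num) h0.ne', log_pow] at h2
    push_cast at h2
    linarith
  have hl2 := log_two_lt_d9
  have eph : phi (1 - 2 * p) = log 2 - hh (1 - 2 * p) := by unfold hh; ring
  have m1 : (1 - 2 * p - (1 - τ)) * aom (1 - 2 * p) ≤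
      (τ - 2 * p) * (-log p / 2 + 531 / 1000) := by
    rw [show 1 - 2 * p - (1 - τ) = τ - 2 * p by ring]
    exact mul_le_mul_of_nonneg_left ha (by linarith)
  have m2 : τ * (-log p + 1 - 42 / 10) ≤ τ * (-log τ + (1 - τ)) :=
    mul_le_mul_of_nonneg_left (by linarith) hτ0.le
  have m3 : τ / 2 * (84 / 10) ≤ (τ - 2 * p) * (-log p / 2 + 469 / 1000) :=
    mul_le_mul (by linarith) (by linarith) (by norm_num) (by linarith)
  rw [eph]
  nlinarith

theorem low_case3 {u v p : ℝ} (hu : 0 < u) (hu' : u < 1) (hv : 0 < v) (hv' : v < 1)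
    (h0 : 0 < p) (h1 : p ≤ 1 / 2 ^ 24) (h64 : (u + v) / 2 ≤ 1 - 64 * p)
    (h34 : 3 / 4 ≤ (u + v) / 2) : Core u v (1 - 2 * p) := by
  have hp : p ≤ 1 / 10000 := h1.trans (by norm_num)
  have hL := low_L_ge 24 h0 h1
  push_cast at hL
  have hG := low_GG_le hu hu' hv hv'
  obtain ⟨τ, hτ⟩ : ∃ τ, τ = 1 - (u + v) / 2 := ⟨_, rfl⟩
  have hs : (u + v) / 2 = 1 - τ := by linarith
  have huv : τ * (2 - τ) ≤ 1 - u * v := by
    rw [hτ]
    nlinarith [sq_nonneg (u - v)]
  rw [← hτ] at hG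
  have hτ0 : 0 < τ := by linarith
  have hτ4 : τ ≤ 1 / 4 := by linarith
  obtain ⟨q, hq⟩ : ∃ q, q = p / τ := ⟨_, rfl⟩
  have hq0 : 0 < q := hq ▸ div_pos h0 hτ0
  have hq1 : q ≤ 1 / 64 := by
    rw [hq, div_le_iff₀ hτ0]
    linarith
  have hpq : p = q * τ := by rw [hq]; field_simp
  have hlq : log p = log q + log τ := by rw [hpq, log_mul hq0.ne' hτ0.ne']
  have hL2 := low_L_ge 6 hq0 (by linarith)
  push_cast at hL2
  have hlτ : log τ ≤ 0 := log_nonpos hτ0.le (by linarith)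
  refine rule_b2 (by linarith) (by linarith)
    (adm_tangent (d := 1 - 2 * q) (by linarith) (by linarith)) ?_
  rw [hs]
  have hh1 := low_le_hh (p := τ) hτ0 (by linarith)
  have hh2 := low_hh_le h0 (by linarith)
  have hh0 := hh_nonneg (x := 1 - 2 * p) (by linarith) (by linarith)
  have ha := low_aom_le h0 h1
  have ha0 := aom_pos (w := 1 - 2 * p) (by linarith) (by linarith)
  have hl2 := log_two_lt_d9
  have hl2' := log_two_gt_d9
  have eph : phi (1 - 2 * p) = log 2 - hh (1 - 2 * p) := by unfold hh; ring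
  have hT2 : 2 ≤ T (1 - 2 * q) := by
    have := low_le_T hq0 (by linarith)
    linarith
  have hk := low_kap_le hq0 (by linarith) two_pos hT2
  have m0 : kap (1 - 2 * q) * hh (1 - 2 * p) ≤ τ * ((-log p + 1) / 8) := by
    have h2 : kap (1 - 2 * q) * hh (1 - 2 * p) ≤ 1 / (4 * q) / 2 * (p * (-log p + 1)) :=
      mul_le_mul hk hh2 hh0 (by positivity)
    refine h2.trans (le_of_eq ?_)
    generalize -log p + 1 = M
    rw [hpq]
    field_simp
    ring
  have hg0 := gam_nonneg (d := 1 - 2 * q) (by linarith) (by linarith)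
  have hg : -log q / 2 - 2 * log 2 ≤ gam (1 - 2 * q) := by
    have h2 := low_le_ell hq0 (by linarith)
    have h3 := low_T_le hq0 (by linarith)
    have h4 : 0 ≤ kap (1 - 2 * q) * hh (1 - 2 * q) :=
      mul_nonneg (kap_nonneg (by linarith) (by linarith)) (hh_nonneg (by linarith) (by linarith))
    have h5 : 0 ≤ q * T (1 - 2 * q) := by positivity
    unfold gam
    rw [psi_eq]
    unfold ell at h2
    linarith
  have m1 : (1 - 2 * p - (1 - τ)) * aom (1 - 2 * p) ≤ τ * (-log p / 2 + 531 / 1000) :=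
    mul_le_mul (by linarith) ha ha0.le hτ0.le
  have m2 : τ * (2 - τ) * (-log q / 2 - 2 * log 2) ≤ (1 - u * v) * gam (1 - 2 * q) := by
    have h2 : τ * (2 - τ) * gam (1 - 2 * q) ≤ (1 - u * v) * gam (1 - 2 * q) :=
      mul_le_mul_of_nonneg_right huv hg0
    have h3 : τ * (2 - τ) * (-log q / 2 - 2 * log 2) ≤ τ * (2 - τ) * gam (1 - 2 * q) :=
      mul_le_mul_of_nonneg_left hg (mul_nonneg hτ0.le (by linarith))
    linarith
  have m3 : p * (-log p + 1) ≤ τ * ((-log p + 1) / 64) := by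
    have h2 : p ≤ τ / 64 := by linarith
    have h3 := mul_le_mul_of_nonneg_right h2 (by linarith : 0 ≤ -log p + 1)
    linarith
  have m4 : τ * (-log q / 2) ≤ -log p / 8 := by
    have h2 : τ * (-log q / 2) ≤ 1 / 4 * (-log q / 2) :=
      mul_le_mul_of_nonneg_right hτ4 (by linarith)
    linarith
  have key : -log p / 2 + 531 / 1000 + (-log p + 1) / 8 + 2 * ((-log p + 1) / 64) ≤
      -log τ + (1 - τ) + (2 - τ) * (-log q / 2 - 2 * log 2) := by
    have h2 : τ * 1 ≤ τ * (2 * log 2) := mul_le_mul_of_nonneg_left (by linarith) hτ0.le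
    linarith
  have key' := mul_le_mul_of_nonneg_left key hτ0.le
  rw [eph]
  linarith

theorem low_case4 {u v p : ℝ} (hu : 0 < u) (hu' : u < 1) (hv : 0 < v) (hv' : v < 1)
    (h0 : 0 < p) (h1 : p ≤ 1 / 2 ^ 24) (h34 : (u + v) / 2 ≤ 3 / 4) : Core u v (1 - 2 * p) := by
  have hp : p ≤ 1 / 10000 := h1.trans (by norm_num)
  have hL := low_L_ge 24 h0 h1
  push_cast at hL
  have hd0 : 0 < 1 - 2 * p := by linarith
  have hd1 : 1 - 2 * p < 1 := by linarith
  refine rule_b (w := 1 - 2 * p) (S := 3 / 4) hu hv hd0 hd1 h34 (adm_tangent hd0 hd1) ?_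
  have hG := GG_le_sq hu.le hu'.le hv.le hv'.le
  have huv : u * v ≤ ((u + v) / 2) ^ 2 := by nlinarith [sq_nonneg (u - v)]
  have hg0 := gam_nonneg hd0 hd1
  have hT := low_le_T h0 (by linarith)
  have hT' := low_T_le h0 (by linarith)
  have hT0 := T_nonneg hd0.le hd1
  have hh2 := low_hh_le h0 (by linarith)
  have hh0 := hh_nonneg (x := 1 - 2 * p) (by linarith) (by linarith)
  have hpL : p * (-log p + 1) ≤ 1 / 10000 * (-log p + 1) :=
    mul_le_mul_of_nonneg_right hp (by linarith)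
  have hk := low_kap_le (t := (-log p + 1) / 4) h0 (by linarith) (by linarith) (by linarith)
  have hkh : kap (1 - 2 * p) * hh (1 - 2 * p) ≤ 1 := by
    have hM : 0 < -log p + 1 := by linarith
    have h2 : kap (1 - 2 * p) * hh (1 - 2 * p) ≤
        1 / (4 * p) / ((-log p + 1) / 4) * (p * (-log p + 1)) :=
      mul_le_mul hk hh2 hh0 (by positivity)
    refine h2.trans (le_of_eq ?_)
    generalize -log p + 1 = M at hM
    field_simp
  have hg : gam (1 - 2 * p) ≤ -log p / 2 - 2 * log 2 + 2 * (1 / 10000 * (-log p + 1)) + 1 := by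
    have h2 : 0 ≤ p * T (1 - 2 * p) := by positivity
    have e : psi (1 - 2 * p) = (1 - 2 * p) * T (1 - 2 * p) - 2 * (log 2 - hh (1 - 2 * p)) := by
      unfold psi chi hh
      ring
    unfold gam
    rw [e]
    nlinarith
  have hk1 := low_kpp_hh h0 h1
  have hk0 : 0 ≤ kpp (1 - 2 * p) * (hh (1 - 2 * p) / (1 - 2 * p)) :=
    mul_nonneg (kpp_pos hd0 hd1).le (div_nonneg hh0 hd0.le)
  have e1 : kpp (1 - 2 * p) * hh (1 - 2 * p) =
      (1 - 2 * p) * (kpp (1 - 2 * p) * (hh (1 - 2 * p) / (1 - 2 * p))) := by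
    field_simp
  have hb : 9 / 16 * (2 * log 2 + gam (1 - 2 * p)) ≤
      3 / 4 * aom (1 - 2 * p) - kpp (1 - 2 * p) * hh (1 - 2 * p) := by
    rw [e1]
    unfold aom
    have := mul_nonneg h0.le hk0
    nlinarith
  have hb' := mul_le_mul_of_nonneg_left hb (sq_nonneg ((u + v) / 2 / (3 / 4)))
  have e2 : ((u + v) / 2 / (3 / 4)) ^ 2 * (9 / 16 * (2 * log 2 + gam (1 - 2 * p))) =
      2 * log 2 * ((u + v) / 2) ^ 2 + ((u + v) / 2) ^ 2 * gam (1 - 2 * p) := by ring
  have m1 := mul_le_mul_of_nonneg_right huv hg0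
  have eg : gam (1 - 2 * p) = psi (1 - 2 * p) + kap (1 - 2 * p) * hh (1 - 2 * p) := rfl
  nlinarith

/-- the low-noise tail: `d = 1 - 2p` with `p ≤ 2^(-24)` -/
theorem core_low {u v d : ℝ} (hu : 0 < u) (hu' : u < 1) (hv : 0 < v) (hv' : v < 1)
    (h : (u + v) / 2 ≤ d) (hd : 1 - 1 / 2 ^ 23 ≤ d) (hd' : d < 1) : Core u v d := by
  obtain ⟨p, rfl⟩ : ∃ p, d = 1 - 2 * p := ⟨(1 - d) / 2, by ring⟩
  have h0 : 0 < p := by linarith
  have h1 : p ≤ 1 / 2 ^ 24 := by
    norm_num at hd ⊢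
    linarith
  rcases le_total (1 - 4 * p) ((u + v) / 2) with h4 | h4
  · exact low_case1 hu hu' hv hv' h0 h1 h h4
  rcases le_total (1 - 64 * p) ((u + v) / 2) with h64 | h64
  · exact low_case2 hu hu' hv hv' h0 h1 h4 h64
  rcases le_total (3 / 4) ((u + v) / 2) with h34 | h34
  · exact low_case3 hu hu' hv hv' h0 h1 h64 h34
  · exact low_case4 hu hu' hv hv' h0 h1 h34

end Vale.Agent.P322
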