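import Vale.Agent.P322.Small
import Vale.Agent.P322.Low
import Vale.Agent.P322.Bulk

namespace Vale.Agent.P322

theorem core_all {u v d : ℝ} (hu : 0 < u) (hu' : u < 1) (hv : 0 < v) (hv' : v < 1)
    (hd : 0 < d) (hd' : d < 1) : Core u v d := by
  wlog hvu : v ≤ u generalizing u v
  · exact core_symm (this hv hv' hu hu' (le_of_not_ge hvu))
  by_cases h : d ≤ (u + v) / 2
  · exact rule_A hu hu' hv hv' hd h
  have h : (u + v) / 2 ≤ d := le_of_not_ge h
  by_cases h1 : d ≤ 1 / 64
  · exact core_small hu hv h h1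
  by_cases h2 : 1 - 1 / 2 ^ 23 ≤ d
  · exact core_low hu hu' hv hv' h h2 hd'
  exact core_bulk hu' hv hvu h (le_of_not_ge h1) (le_of_not_ge h2)

end Vale.Agent.P322
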