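import Vale.Agent.P322.Step

/-! The two Bellman inequalities on the cube. -/

namespace Vale.Agent.P322
open Real Set

abbrev Cube (n : ℕ) : Type := Fin n → Units ℤ

/-- flip coordinate `i` -/
def flip {n : ℕ} (i : Fin n) (y : Cube n) : Cube n := Function.update y i (-y i)

/-- Dirichlet-type form -/
noncomputable def DD {n : ℕ} (v : Cube n → ℝ) : ℝ :=
  ∑ i, avg (fun y => (v y - v (flip i y)) / 2 * T (v y))

noncomputable def ent {n : ℕ} (v : Cube n → ℝ) : ℝ := avg (fun y => hh (v y))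

theorem cube_sum_sign (F : Units ℤ → ℝ) : ∑ b, F b = F 1 + F (-1) := by
  rw [UnitsInt.univ, Finset.sum_pair (by decide)]

theorem cube_avg_succ {n : ℕ} (F : Cube (n + 1) → ℝ) :
    avg F = avg fun y : Cube n => (F (Fin.cons 1 y) + F (Fin.cons (-1) y)) / 2 := by
  have h1 : ∑ x, F x = ∑ y : Cube n, (F (Fin.cons 1 y) + F (Fin.cons (-1) y)) := by
    rw [← (Fin.consEquiv fun _ : Fin (n + 1) => Units ℤ).sum_comp, Fintype.sum_prod_type,
      cube_sum_sign, Finset.sum_add_distrib]
    rfl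
  simp only [avg, h1, ← Finset.sum_div, Fintype.card_pi, Finset.prod_const, Finset.card_univ,
    Fintype.card_fin, Fintype.card_units_int]
  push_cast
  rw [pow_succ, div_div, mul_comm]

theorem cube_avg_zero (F : Cube 0 → ℝ) : avg F = F default := by
  rw [avg, Fintype.sum_unique, Fintype.card_unique, Nat.cast_one, div_one]
  exact congrArg F (Subsingleton.elim _ _)

theorem flip_zero {n : ℕ} (b : Units ℤ) (y : Cube n) :
    flip 0 (Fin.cons b y : Cube (n + 1)) = Fin.cons (-b) y := by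
  simp [flip]

theorem flip_succ {n : ℕ} (i : Fin n) (b : Units ℤ) (y : Cube n) :
    flip i.succ (Fin.cons b y : Cube (n + 1)) = Fin.cons b (flip i y) := by
  simp [flip]

theorem cube_split {n : ℕ} (v : Cube (n + 1) → ℝ) : ∃ A Z : Cube n → ℝ,
    (∀ y, A y + Z y = v (Fin.cons 1 y)) ∧ (∀ y, A y - Z y = v (Fin.cons (-1) y)) ∧
    avg v = avg A ∧ ent v = avg (fun y => hbar (A y) (Z y)) ∧
    ent v = (ent (fun y => A y + Z y) + ent (fun y => A y - Z y)) / 2 ∧
    DD v = avg (fun y => KK (A y) (Z y)) +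
      (DD (fun y => A y + Z y) + DD (fun y => A y - Z y)) / 2 := by
  let A : Cube n → ℝ := fun y => (v (Fin.cons 1 y) + v (Fin.cons (-1) y)) / 2
  let Z : Cube n → ℝ := fun y => (v (Fin.cons 1 y) - v (Fin.cons (-1) y)) / 2
  have h1 : ∀ y, A y + Z y = v (Fin.cons 1 y) := fun y => by simp only [A, Z]; ring
  have h2 : ∀ y, A y - Z y = v (Fin.cons (-1) y) := fun y => by simp only [A, Z]; ring
  refine ⟨A, Z, h1, h2, cube_avg_succ v, ?_, ?_, ?_⟩
  · simp only [ent, hbar, h1, h2]
    exact cube_avg_succ _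
  · simp only [ent, h1, h2]
    rw [cube_avg_succ, avg_div, avg_add]
  · simp only [DD, KK, h1, h2]
    rw [Fin.sum_univ_succ, ← Finset.sum_add_distrib, Finset.sum_div]
    congr 1
    · rw [cube_avg_succ]
      congr 1
      funext y
      simp only [flip_zero, neg_neg, Z]
      ring
    · refine Finset.sum_congr rfl fun i _ => ?_
      rw [cube_avg_succ, avg_div, avg_add]
      simp only [flip_succ]

theorem cube_S2 (hcore : ∀ u v d : ℝ, 0 < u → u < 1 → 0 < v → v < 1 → 0 < d → d < 1 → Core u v d)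
    (n : ℕ) (v : Cube n → ℝ) (hv : ∀ y, |v y| < 1) {g k : ℝ} (hg : Adm g k) :
    (1 - avg v ^ 2) * g - k * ent v ≤ DD v - 2 * (hh (avg v) - ent v) := by
  induction n generalizing g k with
  | zero =>
    have h1 := abs_lt.mp (hv default)
    have h2 := mul_le_mul_of_nonneg_left (hh_ge h1.1.le h1.2.le) hg.1
    have h3 := hg.2.2 0 le_rfl one_pos
    rw [hh_zero, psi_zero] at h3
    have h4 := mul_le_mul_of_nonneg_left h3 (show 0 ≤ 1 - v default ^ 2 by nlinarith [h1.1, h1.2])
    simp only [ent, DD, cube_avg_zero, Finset.univ_eq_empty, Finset.sum_empty]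
    linarith
  | succ n ih =>
    obtain ⟨A, Z, e1, e2, e3, e4, e5, e6⟩ := cube_split v
    have h1 : ∀ y, |A y + Z y| < 1 := fun y => e1 y ▸ hv _
    have h2 : ∀ y, |A y - Z y| < 1 := fun y => e2 y ▸ hv _
    obtain ⟨g', k', hg', h⟩ := step_S2 hcore A Z h1 h2 hg
    have h3 := ih _ h1 hg'
    have h4 := ih _ h2 hg'
    rw [avg_add] at h3
    rw [avg_sub] at h4
    rw [← e4, e5, hbar] at h
    rw [e3, e5, e6]
    linarith

theorem cube_Spsi (n : ℕ) (v : Cube n → ℝ) (hv : ∀ y, |v y| < 1) {g k : ℝ} (hg : AdmP g k) :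
    k * (hh (avg v) - ent v) - g ≤ DD v - 2 * (hh (avg v) - ent v) := by
  induction n generalizing g k with
  | zero =>
    have h3 := hg.2.2 0 le_rfl one_pos
    rw [phi_zero, psi_zero] at h3
    simp only [ent, DD, cube_avg_zero, Finset.univ_eq_empty, Finset.sum_empty]
    linarith
  | succ n ih =>
    obtain ⟨A, Z, e1, e2, e3, e4, e5, e6⟩ := cube_split v
    have h1 : ∀ y, |A y + Z y| < 1 := fun y => e1 y ▸ hv _
    have h2 : ∀ y, |A y - Z y| < 1 := fun y => e2 y ▸ hv _
    obtain ⟨g', k', hg', h⟩ := step_Spsi A Z h1 h2 hg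
    have h3 := ih _ h1 hg'
    have h4 := ih _ h2 hg'
    rw [avg_add] at h3
    rw [avg_sub] at h4
    rw [← e4, e5, hbar] at h
    rw [e3, e5, e6]
    linarith

end Vale.Agent.P322
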