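import Mathlib

namespace Vale.Agent.P322

/-- Probability of the event `E` on a finite sample space with point masses `w`. -/
noncomputable def prob {Ω : Type} [Fintype Ω] (w : Ω → ℝ) (E : Ω → Prop) [DecidablePred E] : ℝ :=
  ∑ ω, if E ω then w ω else 0

/-- Mutual information in bits of two finitely-valued random variables `A`, `B`:
the sum of `P(a,b) log₂ (P(a,b) / (P(a) P(b)))`. -/
noncomputable def mutualInfo {Ω α β : Type} [Fintype Ω] [Fintype α] [Fintype β]
    [DecidableEq α] [DecidableEq β] (w : Ω → ℝ) (A : Ω → α) (B : Ω → β) : ℝ :=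
  ∑ a, ∑ b, prob w (fun ω => A ω = a ∧ B ω = b) *
    Real.logb 2 (prob w (fun ω => A ω = a ∧ B ω = b) /
      (prob w (fun ω => A ω = a) * prob w (fun ω => B ω = b)))

/-- Joint law of `(X, Z)`: `X` uniform on the cube of signs, `Z` independent of `X` with
independent coordinates equal to `-1` with probability `ε`. -/
noncomputable def law (n : ℕ) (ε : ℝ)
    (ω : (Fin n → Units ℤ) × (Fin n → Units ℤ)) : ℝ :=
  (1 / 2) ^ n * ∏ i, if ω.2 i = -1 then ε else 1 - ε

/-- Binary entropy in bits. -/
noncomputable def h2 (p : ℝ) : ℝ :=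
  -p * Real.logb 2 p - (1 - p) * Real.logb 2 (1 - p)

end Vale.Agent.P322
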