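import Vale.Agent.P322.Calc2

set_option linter.unusedVariables false

/-! Pointwise lower bounds for the one-coordinate term. -/

namespace Vale.Agent.P322
open Real Set

theorem KK_neg (A Z : ℝ) : KK A (-Z) = KK A Z := by
  unfold KK; rw [sub_neg_eq_add, ← sub_eq_add_neg]; ring
theorem hbar_neg (A Z : ℝ) : hbar A (-Z) = hbar A Z := by
  unfold hbar; rw [sub_neg_eq_add, ← sub_eq_add_neg]; ring
theorem KK_nonneg {A Z : ℝ} (h1 : |A + Z| < 1) (h2 : |A - Z| < 1) : 0 ≤ KK A Z := by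
  rw [abs_lt] at h1 h2
  unfold KK
  rcases le_total 0 Z with hZ | hZ
  · have := T_le_T h2.1 (by linarith : A - Z ≤ A + Z) h1.2
    exact div_nonneg (mul_nonneg hZ (by linarith)) (by norm_num)
  · have := T_le_T h1.1 (by linarith : A + Z ≤ A - Z) h2.2
    exact div_nonneg (mul_nonneg_of_nonpos_of_nonpos hZ (by linarith)) (by norm_num)
theorem hbar_pos {A Z : ℝ} (h1 : |A + Z| < 1) (h2 : |A - Z| < 1) : 0 < hbar A Z := by
  rw [abs_lt] at h1 h2
  have := hh_pos h1.1 h1.2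
  have := hh_pos h2.1 h2.2
  unfold hbar; positivity

theorem edge_log_add {p z : ℝ} (hp : 0 < p) (hz : 0 < p + z) :
    log (1 + z / p) = log (p + z) - log p := by
  rw [← log_div hz.ne' hp.ne']
  congr 1
  field_simp

theorem edge_log_sub {p z : ℝ} (hp : 0 < p) (hz : 0 < p - z) :
    log (1 - z / p) = log (p - z) - log p := by
  rw [← log_div hz.ne' hp.ne']
  congr 1
  field_simp

/-- conditional-bias decomposition of the Dirichlet term -/
theorem KK_decomp {A Z : ℝ} (h1 : |A + Z| < 1) (h2 : |A - Z| < 1) :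
    KK A Z = (1 - A) / 2 * chi (Z / (1 - A)) + (1 + A) / 2 * chi (Z / (1 + A)) := by
  rw [abs_lt] at h1 h2
  have hp : 0 < 1 - A := by linarith
  have hq : 0 < 1 + A := by linarith
  unfold KK chi T
  rw [edge_log_add hp (by linarith), edge_log_sub hp (by linarith), edge_log_add hq (by linarith),
    edge_log_sub hq (by linarith), show 1 + (A + Z) = 1 + A + Z by ring,
    show 1 - (A + Z) = 1 - A - Z by ring, show 1 + (A - Z) = 1 + A - Z by ring,
    show 1 - (A - Z) = 1 - A + Z by ring]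
  field_simp
  ring
theorem gg_decomp {A Z : ℝ} (h1 : |A + Z| < 1) (h2 : |A - Z| < 1) :
    hh A - hbar A Z = (1 - A) / 2 * phi (Z / (1 - A)) + (1 + A) / 2 * phi (Z / (1 + A)) := by
  rw [abs_lt] at h1 h2
  have hp : 0 < 1 - A := by linarith
  have hq : 0 < 1 + A := by linarith
  unfold hbar hh phi
  rw [edge_log_add hp (by linarith), edge_log_sub hp (by linarith), edge_log_add hq (by linarith),
    edge_log_sub hq (by linarith), show 1 + (A + Z) = 1 + A + Z by ring,
    show 1 - (A + Z) = 1 - A - Z by ring, show 1 + (A - Z) = 1 + A - Z by ring,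
    show 1 - (A - Z) = 1 - A + Z by ring]
  field_simp
  ring

theorem edge_decomp {A Z : ℝ} (k : ℝ) (h1 : |A + Z| < 1) (h2 : |A - Z| < 1) :
    KK A Z + k * hbar A Z = (1 - A) / 2 * psi (Z / (1 - A)) + (1 + A) / 2 * psi (Z / (1 + A)) +
      (2 - k) * ((1 - A) / 2 * phi (Z / (1 - A)) + (1 + A) / 2 * phi (Z / (1 + A))) +
      k * hh A := by
  have e := gg_decomp h1 h2
  have e' : hbar A Z = hh A - ((1 - A) / 2 * phi (Z / (1 - A)) + (1 + A) / 2 * phi (Z / (1 + A))) := by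
    linarith
  rw [KK_decomp h1 h2, e']
  unfold psi; ring

theorem edge_range {A Z : ℝ} (h1 : |A + Z| < 1) (h2 : |A - Z| < 1) :
    -1 < A ∧ A < 1 ∧ -1 < Z / (1 - A) ∧ Z / (1 - A) < 1 ∧ -1 < Z / (1 + A) ∧ Z / (1 + A) < 1 := by
  rw [abs_lt] at h1 h2
  have hp : 0 < 1 - A := by linarith
  have hq : 0 < 1 + A := by linarith
  refine ⟨by linarith, by linarith, ?_, ?_, ?_, ?_⟩
  · rw [lt_div_iff₀ hp]; linarith
  · rw [div_lt_one hp]; linarith
  · rw [lt_div_iff₀ hq]; linarith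
  · rw [div_lt_one hq]; linarith

theorem edge_titu {A X Y : ℝ} (hP : 0 < 1 - A) (hQ : 0 < 1 + A) :
    ((1 - A) * X - (1 + A) * Y) ^ 2 / 2 ≤ (1 - A) * X ^ 2 + (1 + A) * Y ^ 2 := by
  have h := mul_nonneg (mul_pos hP hQ).le (sq_nonneg (X + Y))
  have e : (1 - A) * X ^ 2 + (1 + A) * Y ^ 2 - ((1 - A) * X - (1 + A) * Y) ^ 2 / 2 =
      (1 - A) * (1 + A) * (X + Y) ^ 2 / 2 := by ring
  linarith

/-- bound (a'): a supporting plane of `KK + k * hbar` at `(a, z)` -/
theorem edge_a {a z k : ℝ} (h1 : |a + z| < 1) (h2 : |a - z| < 1) (hk : 0 ≤ k)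
    (hk' : k * (2 + z ^ 2 / (1 - a ^ 2)) ≤ 2 * (z ^ 2 / (1 - a ^ 2))) :
    ∃ α α' : ℝ, ∀ A Z : ℝ, |A + Z| < 1 → |A - Z| < 1 →
      KK a z + k * hbar a z + α * (A - a) + α' * (Z - z) ≤ KK A Z + k * hbar A Z := by
  obtain ⟨a1, a2, u1, u2, v1, v2⟩ := edge_range h1 h2
  have hβ := one_sub_sq_pos a1 a2
  rw [edge_decomp k h1 h2]
  have hp : 0 < 1 - a := by linarith
  have hq : 0 < 1 + a := by linarith
  have eu : (1 - a) * (z / (1 - a)) = z := by field_simp
  have ev : (1 + a) * (z / (1 + a)) = z := by field_simp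
  have euv : (z / (1 - a) + z / (1 + a)) ^ 2 = 4 * (z ^ 2 / (1 - a ^ 2)) / (1 - a ^ 2) := by
    have : 1 - a ^ 2 = (1 - a) * (1 + a) := by ring
    rw [this]; field_simp; ring
  set u := z / (1 - a)
  set v := z / (1 + a)
  set c := z ^ 2 / (1 - a ^ 2) with hc
  have hc0 : 0 ≤ c := by positivity
  have hk2 : 0 ≤ 2 - k := by nlinarith
  set du := u / (1 - u ^ 2) - T u
  set dv := v / (1 - v ^ 2) - T v
  refine ⟨-psi u / 2 + psi v / 2 + du * u / 2 - dv * v / 2 +
      (2 - k) * (-phi u / 2 + phi v / 2 + T u * u / 2 - T v * v / 2) - k * T a,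
    du / 2 + dv / 2 + (2 - k) * ((T u + T v) / 2), fun A Z H1 H2 => ?_⟩
  obtain ⟨A1, A2, U1, U2, V1, V2⟩ := edge_range H1 H2
  rw [edge_decomp k H1 H2]
  have hP : 0 < 1 - A := by linarith
  have hQ : 0 < 1 + A := by linarith
  have eU : (1 - A) * (Z / (1 - A)) = Z := by field_simp
  have eV : (1 + A) * (Z / (1 + A)) = Z := by field_simp
  set U := Z / (1 - A)
  set V := Z / (1 + A)
  have eX : (1 - A) * (U - u) = (Z - z) + u * (A - a) := by linear_combination eU - eu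
  have eY : (1 + A) * (V - v) = (Z - z) - v * (A - a) := by linear_combination eV - ev
  have p1 := mul_le_mul_of_nonneg_left (psi_tangent U1 U2 u1 u2) hP.le
  have p2 := mul_le_mul_of_nonneg_left (psi_tangent V1 V2 v1 v2) hQ.le
  have f1 := mul_le_mul_of_nonneg_left (phi_quad_lower U1.le U2.le u1 u2) hP.le
  have f2 := mul_le_mul_of_nonneg_left (phi_quad_lower V1.le V2.le v1 v2) hQ.le
  have g1 := phi_quad_upper A1.le A2.le a1 a2
  have q1 : (1 - A) * psi u + du * ((Z - z) + u * (A - a)) ≤ (1 - A) * psi U := by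
    rw [← eX]; linarith
  have q2 : (1 + A) * psi v + dv * ((Z - z) - v * (A - a)) ≤ (1 + A) * psi V := by
    rw [← eY]; linarith
  have titu : ((u + v) * (A - a)) ^ 2 / 2 ≤ (1 - A) * (U - u) ^ 2 + (1 + A) * (V - v) ^ 2 := by
    have e : (u + v) * (A - a) = (1 - A) * (U - u) - (1 + A) * (V - v) := by rw [eX, eY]; ring
    rw [e]
    exact edge_titu hP hQ
  have q3 : (1 - A) * phi u + T u * ((Z - z) + u * (A - a)) + (1 + A) * phi v +
      T v * ((Z - z) - v * (A - a)) + c * ((A - a) ^ 2 / (1 - a ^ 2)) ≤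
      (1 - A) * phi U + (1 + A) * phi V := by
    rw [← eX, ← eY]
    have e : ((u + v) * (A - a)) ^ 2 / 2 = 2 * (c * ((A - a) ^ 2 / (1 - a ^ 2))) := by
      rw [mul_pow, euv]; ring
    linarith
  have q4 := mul_le_mul_of_nonneg_left q3 hk2
  have q5 := mul_le_mul_of_nonneg_left g1 hk
  have q6 : k * ((A - a) ^ 2 / (1 - a ^ 2)) ≤ (2 - k) * c / 2 * ((A - a) ^ 2 / (1 - a ^ 2)) :=
    mul_le_mul_of_nonneg_right (by linarith) (by positivity)
  unfold hh
  linarith

theorem exists_T_eq' (t : ℝ) : ∃ m, -1 < m ∧ m < 1 ∧ T m = t := by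
  rcases lt_trichotomy t 0 with h | rfl | h
  · obtain ⟨m, h1, h2, h3⟩ := exists_T_eq (neg_pos.mpr h)
    exact ⟨-m, by linarith, by linarith, by rw [T_neg, h3, neg_neg]⟩
  · exact ⟨0, by norm_num, by norm_num, T_zero⟩
  · obtain ⟨m, h1, h2, h3⟩ := exists_T_eq h
    exact ⟨m, by linarith, h2, h3⟩

theorem T_inj {x y : ℝ} (hx : -1 < x) (hx' : x < 1) (hy : -1 < y) (hy' : y < 1) (h : T x = T y) :
    x = y := by
  rcases lt_trichotomy x y with k | k | k
  · exact absurd h (T_lt_T hx k hy').ne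
  · exact k
  · exact absurd h (T_lt_T hy k hx').ne'

theorem edge_add {n m : ℝ} (hn : -1 < n) (hn' : n < 1) (hm : -1 < m) (hm' : m < 1) :
    0 < 1 + n * m ∧ -1 < (n + m) / (1 + n * m) ∧ (n + m) / (1 + n * m) < 1 ∧
      T ((n + m) / (1 + n * m)) = T n + T m ∧
      l0 ((n + m) / (1 + n * m)) = l0 n + l0 m + log (1 + n * m) := by
  have k1 : 0 < (1 + n) * (1 + m) := mul_pos (by linarith) (by linarith)
  have k2 : 0 < (1 - n) * (1 - m) := mul_pos (by linarith) (by linarith)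
  have h0 : 0 < 1 + n * m := by nlinarith
  have e1 : log (1 + (n + m) / (1 + n * m)) = log (1 + n) + log (1 + m) - log (1 + n * m) := by
    rw [edge_log_add h0 (by nlinarith), ← log_mul (by linarith) (by linarith)]
    congr 2; ring
  have e2 : log (1 - (n + m) / (1 + n * m)) = log (1 - n) + log (1 - m) - log (1 + n * m) := by
    rw [edge_log_sub h0 (by nlinarith), ← log_mul (by linarith) (by linarith)]
    congr 2; ring
  refine ⟨h0, ?_, ?_, ?_, ?_⟩
  · rw [lt_div_iff₀ h0]; nlinarith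
  · rw [div_lt_one h0]; nlinarith
  · unfold T; rw [e1, e2]; ring
  · unfold l0; rw [e1, e2]; ring

theorem edge_xlogx {x y : ℝ} (hx : 1 ≤ x) (hy : 1 ≤ y) :
    x * log x + y * log y ≤ (x + y - 1) * log (x + y - 1) := by
  have := calc_mono' (f := fun t => (t + y - 1) * log (t + y - 1) - t * log t)
    (f' := fun t => (log (t + y - 1) + 1) - (log t + 1)) hx
    (fun t h1 h2 => by
      have d1 : HasDerivAt (fun t : ℝ => t + y - 1) 1 t := by
        simpa using ((hasDerivAt_id t).add_const y).sub_const 1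
      have d2 := (hasDerivAt_mul_log (x := t + y - 1) (by linarith)).comp t d1
      exact (d2.sub (hasDerivAt_mul_log (x := t) (by linarith))).congr_deriv (by ring))
    (fun t h1 h2 => by
      have := log_le_log (by linarith : 0 < t) (by linarith : t ≤ t + y - 1)
      linarith)
  simp at this
  linarith

theorem edge_key {n m : ℝ} (hn : -1 < n) (hn' : n < 1) (hm : -1 < m) (hm' : m < 1) :
    (1 - n ^ 2) * l0 m + (1 - m ^ 2) * l0 n ≤
      (1 - n ^ 2 * m ^ 2) * (l0 n + l0 m + log (1 - n ^ 2 * m ^ 2) / 2) := by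
  have ha := one_sub_sq_pos hn hn'
  have hb := one_sub_sq_pos hm hm'
  rw [l0_eq hn hn', l0_eq hm hm']
  have eR : 1 - n ^ 2 * m ^ 2 = (1 - n ^ 2) + (1 - m ^ 2) - (1 - n ^ 2) * (1 - m ^ 2) := by ring
  rw [eR]
  have ha1 : 1 - n ^ 2 ≤ 1 := by nlinarith
  have hb1 : 1 - m ^ 2 ≤ 1 := by nlinarith
  set a := 1 - n ^ 2
  set b := 1 - m ^ 2
  have hR : 0 < a + b - a * b := by nlinarith
  have k := edge_xlogx (x := 1 / a) (y := 1 / b) (by rw [le_div_iff₀ ha]; linarith)
    (by rw [le_div_iff₀ hb]; linarith)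
  have e : 1 / a + 1 / b - 1 = (a + b - a * b) / (a * b) := by field_simp; ring
  rw [e, log_div hR.ne' (by positivity), log_mul ha.ne' hb.ne', one_div, one_div, log_inv,
    log_inv] at k
  have k2 := mul_le_mul_of_nonneg_left k (mul_pos ha hb).le
  have e1 : a * b * (a⁻¹ * -log a + b⁻¹ * -log b) = -(b * log a) - a * log b := by
    field_simp; ring
  have e2 : a * b * ((a + b - a * b) / (a * b) * (log (a + b - a * b) - (log a + log b))) =
      (a + b - a * b) * (log (a + b - a * b) - (log a + log b)) := by field_simp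
  rw [e1, e2] at k2
  linarith

/-- key closed-form inequality: if `KK A Z = Z * T m` then `hbar A Z ≥ Z * hh m / m` -/
theorem hbar_ge {A Z m : ℝ} (h1 : |A + Z| < 1) (h2 : |A - Z| < 1) (hZ : 0 < Z)
    (hm : 0 < m) (hm' : m < 1) (hT : T m = (T (A + Z) - T (A - Z)) / 2) :
    Z * (hh m / m) ≤ hbar A Z := by
  rw [abs_lt] at h1 h2
  obtain ⟨n, hn, hn', hTn⟩ := exists_T_eq' ((T (A + Z) + T (A - Z)) / 2)
  obtain ⟨c0, c1, c2, c3, c4⟩ := edge_add hn hn' (by linarith : -1 < m) hm'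
  obtain ⟨d0, d1, d2, d3, d4⟩ := edge_add hn hn' (by linarith : -1 < -m) (by linarith)
  rw [T_neg] at d3
  rw [l0_neg] at d4
  have x1 : A + Z = (n + m) / (1 + n * m) := T_inj h1.1 h1.2 c1 c2 (by rw [c3]; linarith)
  have x2 : A - Z = (n + -m) / (1 + n * -m) := T_inj h2.1 h2.2 d1 d2 (by rw [d3]; linarith)
  have y1 := (eq_div_iff c0.ne').mp x1
  have y2 := (eq_div_iff d0.ne').mp x2
  have hR : 1 - n ^ 2 * m ^ 2 = (1 + n * m) * (1 + n * -m) := by ring
  have hR0 : 0 < 1 - n ^ 2 * m ^ 2 := by rw [hR]; positivity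
  have eZ : Z = m * (1 - n ^ 2) / (1 - n ^ 2 * m ^ 2) := by
    rw [eq_div_iff hR0.ne', hR]
    linear_combination (1 + n * -m) / 2 * y1 - (1 + n * m) / 2 * y2
  have eA : A = n * (1 - m ^ 2) / (1 - n ^ 2 * m ^ 2) := by
    rw [eq_div_iff hR0.ne', hR]
    linear_combination (1 + n * -m) / 2 * y1 + (1 + n * m) / 2 * y2
  have eL : log (1 - n ^ 2 * m ^ 2) = log (1 + n * m) + log (1 + n * -m) := by
    rw [hR, log_mul c0.ne' d0.ne']
  have t1 : T (A + Z) = T n + T m := by linarith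
  have t2 : T (A - Z) = T n - T m := by linarith
  have eh : hbar A Z = log 2 + l0 n + l0 m + log (1 - n ^ 2 * m ^ 2) / 2 - A * T n - Z * T m := by
    unfold hbar
    rw [hh_eq, hh_eq, t1, t2]
    unfold ell
    rw [x1, x2, c4, d4, ← x1, ← x2, eL]
    ring
  have k1 := edge_key hn hn' (by linarith : -1 < m) hm'
  have k2 := phi_le_sq hn.le hn'.le
  rw [phi_eq] at k2
  have k3 := mul_le_mul_of_nonneg_left k2 (one_sub_sq_pos (by linarith : -1 < m) hm').le
  have e1 : Z * (hh m / m) = (1 - n ^ 2) * (log 2 + l0 m) / (1 - n ^ 2 * m ^ 2) - Z * T m := by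
    rw [hh_eq, eZ]; unfold ell; field_simp
  have e2 : A * T n = (1 - m ^ 2) * (n * T n) / (1 - n ^ 2 * m ^ 2) := by rw [eA]; ring
  rw [eh, e1, e2]
  have : ((1 - n ^ 2) * (log 2 + l0 m) + (1 - m ^ 2) * (n * T n)) / (1 - n ^ 2 * m ^ 2) ≤
      log 2 + l0 n + l0 m + log (1 - n ^ 2 * m ^ 2) / 2 := by
    rw [div_le_iff₀ hR0]
    linarith
  rw [add_div] at this
  linarith

/-- bound (b) -/
theorem edge_b {A Z w s : ℝ} (h1 : |A + Z| < 1) (h2 : |A - Z| < 1)
    (hw : 0 < w) (hw' : w < 1) (hs : 0 < s) (hs' : s ≤ 1) :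
    Z * s * aom w ≤ KK A Z + s ^ 2 * kpp w * hbar A Z := by
  have hk := kpp_pos hw hw'
  have hb := hbar_pos h1 h2
  rcases le_or_gt Z 0 with hZ | hZ
  · have := KK_nonneg h1 h2
    have h3 : Z * s * aom w ≤ 0 :=
      mul_nonpos_of_nonpos_of_nonneg (mul_nonpos_of_nonpos_of_nonneg hZ hs.le) (aom_pos hw hw').le
    have : 0 ≤ s ^ 2 * kpp w * hbar A Z := by positivity
    linarith
  have h1' := abs_lt.mp h1
  have h2' := abs_lt.mp h2
  set t := (T (A + Z) - T (A - Z)) / 2 with ht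
  have ht0 : 0 < t := by
    have := T_lt_T h2'.1 (by linarith : A - Z < A + Z) h1'.2
    linarith
  obtain ⟨m, hm, hm', hTm⟩ := exists_T_eq ht0
  obtain ⟨m2, hm2, hm2', hTm2⟩ := exists_T_eq (div_pos ht0 hs)
  have hle : m ≤ m2 := by
    by_contra hne
    have := T_lt_T (by linarith) (lt_of_not_ge hne) hm'
    rw [hTm, hTm2, div_lt_iff₀ hs] at this
    nlinarith
  have k1 := hbar_ge h1 h2 hZ hm hm' hTm
  have k2 := TA_anti hm hle hm2'
  have k3 := aom_le hw hw' hm2 hm2'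
  rw [hTm, hTm2] at k2
  rw [hTm2] at k3
  have k4 : hh m2 / m2 ≤ s * (hh m / m) := by
    have : t * (hh m2 / m2) ≤ t * (s * (hh m / m)) := by
      have := mul_le_mul_of_nonneg_left k2 hs.le
      have e : s * (t / s * (hh m2 / m2)) = t * (hh m2 / m2) := by field_simp
      linarith
    exact le_of_mul_le_mul_left this ht0
  have eK : KK A Z = Z * t := by unfold KK; rw [ht]; ring
  have k5 := mul_le_mul_of_nonneg_left (k3.trans (add_le_add_right
    (mul_le_mul_of_nonneg_left k4 hk.le) (t / s))) (mul_pos hZ hs).le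
  have e5 : Z * s * (t / s + kpp w * (s * (hh m / m))) =
      Z * t + s ^ 2 * kpp w * (Z * (hh m / m)) := by field_simp
  have k6 := mul_le_mul_of_nonneg_left k1 (by positivity : 0 ≤ s ^ 2 * kpp w)
  rw [eK]
  linarith

end Vale.Agent.P322
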