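import Mathlib

/-! One-variable functions and predicates used in the proof of the Courtade-Kumar inequality. -/

namespace Vale.Agent.P322
open Real

noncomputable section

/-- inverse hyperbolic tangent -/
def T (x : ℝ) : ℝ := (log (1 + x) - log (1 - x)) / 2
def l0 (x : ℝ) : ℝ := -(log (1 + x) + log (1 - x)) / 2
def phi (x : ℝ) : ℝ := ((1 + x) * log (1 + x) + (1 - x) * log (1 - x)) / 2
/-- binary entropy (nats) of `(1+x)/2` -/
def hh (x : ℝ) : ℝ := log 2 - phi x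
def chi (x : ℝ) : ℝ := x * T x
def dchi (x : ℝ) : ℝ := T x + x / (1 - x ^ 2)
def psi (x : ℝ) : ℝ := chi x - 2 * phi x
def kap (d : ℝ) : ℝ := d / ((1 - d ^ 2) * T d) - 1
def gam (d : ℝ) : ℝ := psi d + kap d * hh d
def ell (w : ℝ) : ℝ := log 2 + l0 w
def kpp (w : ℝ) : ℝ := w ^ 2 / ((1 - w ^ 2) * ell w)
def aom (w : ℝ) : ℝ := T w + kpp w * (hh w / w)
def ff (x : ℝ) : ℝ := phi x / x
def ss (x : ℝ) : ℝ := psi x / x
def GG (u v : ℝ) : ℝ := (u + v) / 2 * (ff u + ff v)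
def th0 (s : ℝ) : ℝ := (1 - s ^ 2) * (1 / 2 + l0 s / 3)
/-- one-coordinate Dirichlet term for the pair of values `A + Z`, `A - Z` -/
def KK (A Z : ℝ) : ℝ := Z * (T (A + Z) - T (A - Z)) / 2
def hbar (A Z : ℝ) : ℝ := (hh (A + Z) + hh (A - Z)) / 2

/-- admissible lines for the first Bellman statement -/
def Adm (g k : ℝ) : Prop := 0 ≤ k ∧ 0 ≤ g ∧ ∀ d, 0 ≤ d → d < 1 → g - k * hh d ≤ psi d

/-- admissible lines for the second Bellman statement -/
def AdmP (g k : ℝ) : Prop :=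
  0 ≤ k ∧ k ≤ kap (39 / 100) ∧ ∀ d, 0 ≤ d → d < 1 → k * phi d - g ≤ psi d

def HypA (u v d Q : ℝ) : Prop :=
  ∀ k, 0 ≤ k → k * (2 + u * v) ≤ 2 * (u * v) →
    (u + v) / 2 * ((T u + T v) / 2) + k * (phi d - GG u v / 2) ≤ Q

def HypB (u v d Q : ℝ) : Prop :=
  ∀ w s, 0 < w → w < 1 → 0 < s → s ≤ 1 →
    (u + v) / 2 * s * aom w - s ^ 2 * kpp w * hh d ≤ Q

def Goal (u v d Q : ℝ) : Prop :=
  ∃ g k, Adm g k ∧ GG u v + psi d ≤ Q + (1 - u * v) * g - k * hh d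

/-- the three-variable inequality behind the induction step -/
def Core (u v d : ℝ) : Prop := ∀ Q, HypA u v d Q → HypB u v d Q → Goal u v d Q

end

end Vale.Agent.P322
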