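import Vale.Agent.P322.Calc2

/-! The differential inequality argument, for an abstract entropy curve `e` and dissipation `D`. -/

namespace Vale.Agent.P322
open Real Set

theorem ode_cmp {U U' : ℝ → ℝ} {r0 b : ℝ} (h0 : 0 < r0) (hb : r0 < b) (hb1 : b ≤ 1)
    (hc : Continuous U) (hd : ∀ r, r0 ≤ r → r < b → HasDerivAt U (U' r) r)
    (hle : ∀ r, r0 ≤ r → r < b → r * U' r ≤ (2 + kap r) * U r) (hU : 0 ≤ U b) : 0 ≤ U r0 := by
  by_contra hneg
  push Not at hneg
  have hchi : ∀ r, r0 ≤ r → r < b → 0 < chi r := fun r h1 h2 =>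
    mul_pos (by linarith) (T_pos (by linarith) (by linarith))
  have hq : ∀ r, r0 ≤ r → r < b → HasDerivAt (fun r => U r / chi r)
      ((U' r * chi r - U r * dchi r) / chi r ^ 2) r := fun r h1 h2 =>
    (hd r h1 h2).div (hasDerivAt_chi (by linarith) (by linarith)) (hchi r h1 h2).ne'
  have key : ∀ r ∈ Ico r0 b, U r ≤ U r0 := by
    rintro r ⟨h1, h2⟩
    have hanti : AntitoneOn (fun r => U r / chi r) (Icc r0 r) := by
      refine antitoneOn_of_deriv_nonpos (convex_Icc _ _)
        (fun x hx => (hq x hx.1 (hx.2.trans_lt h2)).continuousAt.continuousWithinAt)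
        (fun x hx => ?_) fun x hx => ?_ <;> rw [interior_Icc] at hx
      · exact (hq x hx.1.le (hx.2.trans h2)).differentiableAt.differentiableWithinAt
      · rw [(hq x hx.1.le (hx.2.trans h2)).deriv]
        refine div_nonpos_of_nonpos_of_nonneg ?_ (sq_nonneg _)
        have hx0 : 0 < x := h0.trans hx.1
        have hx1 : x < 1 := by linarith [hx.2]
        have h3 := mul_le_mul_of_nonneg_right (hle x hx.1.le (hx.2.trans h2)) (T_pos hx0 hx1).le
        have h4 := kap_mul_T hx0 hx1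
        have h5 : dchi x = (2 + kap x) * T x := by rw [dchi]; linarith
        rw [h5, chi]
        linarith
    have h3 := hanti ⟨le_rfl, h1⟩ ⟨h1, le_rfl⟩ h1
    have h4 : chi r0 ≤ chi r := mul_le_mul h1 (T_le_T (by linarith) h1 (by linarith))
      (T_pos h0 (by linarith)).le (by linarith)
    have h5 := hchi r0 le_rfl hb
    simp only at h3
    rw [div_le_div_iff₀ (hchi r h1 h2) h5] at h3
    nlinarith
  have h6 : b ∈ closure (Ico r0 b) := by rw [closure_Ico hb.ne]; exact ⟨hb.le, le_rfl⟩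
  have h7 : U b ≤ U r0 := closure_minimal key (isClosed_le hc continuous_const) h6
  linarith

theorem ode_main {a : ℝ} (ha : |a| < 1) (e D : ℝ → ℝ) (hc : Continuous e) (h1 : e 1 = 0)
    (h0 : e 0 = hh a)
    (hd : ∀ ρ, 0 < ρ → ρ < 1 → HasDerivAt e (-D ρ / ρ) ρ)
    (hS2 : ∀ ρ, 0 < ρ → ρ < 1 → ∀ g k, Adm g k →
      (1 - a ^ 2) * g - k * e ρ ≤ D ρ - 2 * (hh a - e ρ))
    (hSp : ∀ ρ, 0 < ρ → ρ < 1 → ∀ g k, AdmP g k →
      k * (hh a - e ρ) - g ≤ D ρ - 2 * (hh a - e ρ))
    {ρ : ℝ} (hρ : 0 ≤ ρ) (hρ' : ρ ≤ 1) : hh a - e ρ ≤ phi ρ := by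
  rw [abs_lt] at ha
  obtain ⟨ε, hε⟩ : ∃ ε, ε = hh a - (1 - a ^ 2) * log 2 := ⟨_, rfl⟩
  have hε0 : 0 ≤ ε := by linarith [hh_ge ha.1.le ha.2.le]
  have hε1 : ε ≤ a ^ 2 * (log 2 - 1 / 2) := by
    have := le_phi ha.1.le ha.2.le
    have h2 : 0 ≤ a ^ 4 := by positivity
    rw [hε, hh]; linarith
  have phase1 : ∀ r, 0 < r → r ≤ 1 → 0 ≤ e r - (1 - a ^ 2) * hh r - ε * (8 / 11 * (1 - r ^ 2)) := by
    intro r0 hr0 hr1
    have hone : 0 ≤ e 1 - (1 - a ^ 2) * hh 1 - ε * (8 / 11 * (1 - 1 ^ 2)) := by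
      rw [h1, hh_one]; norm_num
    rcases hr1.eq_or_lt with rfl | hr1
    · exact hone
    refine ode_cmp (U := fun r => e r - (1 - a ^ 2) * hh r - ε * (8 / 11 * (1 - r ^ 2)))
      (U' := fun r => -D r / r - (1 - a ^ 2) * -T r - ε * (8 / 11 * -(2 * r))) hr0 hr1 le_rfl
      ((hc.sub (continuous_const.mul continuous_hh)).sub (by fun_prop)) (fun r h2 h3 => ?_)
      (fun r h2 h3 => ?_) hone
    · refine ((hd r (by linarith) h3).sub
        ((hasDerivAt_hh (by linarith) h3).const_mul _)).sub (HasDerivAt.const_mul _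
          (HasDerivAt.const_mul _ (HasDerivAt.const_sub _ ?_)))
      simpa using hasDerivAt_pow 2 r
    · have hr : 0 < r := by linarith
      have h4 := hS2 r hr h3 _ _ (adm_tangent hr h3)
      have hT := T_pos hr h3
      have hb : 0 < 1 - r ^ 2 := by nlinarith
      have h5 : (2 + kap r) * (1 - r ^ 2) = 1 - r ^ 2 + r / T r := by
        rw [kap]; field_simp; ring
      have h6 : r / T r ≤ 7 / 4 - r ^ 2 := by
        rw [div_le_iff₀ hT]
        have h7 := le_T hr.le h3
        have h8 : 0 ≤ 7 / 4 - r ^ 2 := by linarith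
        have h9 : r ≤ (7 / 4 - r ^ 2) * (r + r ^ 3 / 3) := by
          nlinarith [mul_nonneg (mul_nonneg hr.le hb.le) (show 0 ≤ 9 / 4 + r ^ 2 by positivity)]
        exact h9.trans (mul_le_mul_of_nonneg_left h7 h8)
      have h10 : r * (-D r / r) = -D r := by field_simp
      have h11 := mul_le_mul_of_nonneg_left h6 hε0
      have h12 : ε * ((2 + kap r) * (1 - r ^ 2)) = ε * (1 - r ^ 2 + r / T r) := by rw [h5]
      have h13 : hh a = ε + (1 - a ^ 2) * log 2 := by linarith
      have h14 : phi r = log 2 - hh r := by rw [hh]; ring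
      simp only [gam, psi, chi, h13, h14] at h4
      simp only [mul_sub r, h10]
      linarith
  have high : ∀ r, 39 / 100 ≤ r → r ≤ 1 → hh a - e r ≤ phi r := fun r h2 h3 => by
    have h4 := phase1 r (by linarith) h3
    have h5 := le_phi (x := r) (by linarith) h3
    have h6 : 0 ≤ r ^ 4 := by positivity
    have h7 : (39 / 100) ^ 2 ≤ r ^ 2 := by gcongr
    have h8 := log_two_lt_d9
    have h9 : (log 2 - 1 / 2) * (3 / 11 + 8 / 11 * r ^ 2) ≤ phi r := by
      have := mul_le_mul_of_nonneg_right (show log 2 - 1 / 2 ≤ 1932 / 10000 by linarith)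
        (show 0 ≤ 3 / 11 + 8 / 11 * r ^ 2 by positivity)
      linarith
    have h10 := mul_le_mul_of_nonneg_right hε1 (show 0 ≤ 3 / 11 + 8 / 11 * r ^ 2 by positivity)
    have h11 := mul_le_mul_of_nonneg_left h9 (sq_nonneg a)
    have h13 : hh a = ε + (1 - a ^ 2) * log 2 := by linarith
    have h14 : hh r = log 2 - phi r := rfl
    rw [h14] at h4
    rw [h13]
    linarith
  rcases hρ.eq_or_lt with rfl | hρ
  · rw [h0, phi_zero, sub_self]
  rcases le_or_gt (39 / 100) ρ with h | h
  · exact high ρ h hρ'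
  have := ode_cmp (U := fun r => phi r - (hh a - e r)) (U' := fun r => T r - -(-D r / r)) hρ h
    (by norm_num) (continuous_phi.sub (continuous_const.sub hc))
    (fun r h2 h3 => (hasDerivAt_phi (by linarith) (by linarith)).sub
      ((hd r (by linarith) (by linarith)).const_sub _))
    (fun r h2 h3 => by
      have hr : 0 < r := by linarith
      have h4 := hSp r hr (by linarith) _ _ (admP_tangent hr h3.le)
      have h10 : r * (-D r / r) = -D r := by field_simp
      simp only [psi, chi] at h4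
      simp only [mul_sub r, mul_neg r, h10]
      linarith)
    (by linarith [high (39 / 100) le_rfl (by norm_num)])
  linarith

end Vale.Agent.P322
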