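import Vale.Agent.P322.Noise
import Vale.Agent.P322.Ode
import Vale.Agent.P322.CoreAll

namespace Vale.Agent.P322
open Real Set

theorem abs_sg (x : Units ℤ) : |sg x| = 1 := by
  rcases Int.units_eq_one_or x with rfl | rfl <;> simp [sg]

theorem hh_sg (x : Units ℤ) : hh (sg x) = 0 := by
  rcases Int.units_eq_one_or x with rfl | rfl
  · simpa [sg] using hh_one
  · have : sg (-1) = -1 := by simp [sg]
    rw [this, hh_neg, hh_one]

theorem info_le {n : ℕ} (f : Cube n → Units ℤ) {ρ : ℝ} (h0 : 0 ≤ ρ) (h1 : ρ ≤ 1) :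
    hh (avg fun x => sg (f x)) - ent (Tn ρ fun x => sg (f x)) ≤ phi ρ := by
  set F : Cube n → ℝ := fun x => sg (f x) with hF
  have hF1 : ∀ x, |F x| ≤ 1 := fun x => (abs_sg _).le
  have hent : 0 ≤ ent (Tn ρ F) := by
    unfold ent avg
    refine div_nonneg (Finset.sum_nonneg fun y _ => ?_) (Nat.cast_nonneg _)
    have := abs_le.1 (abs_Tn_le h0 h1 F hF1 y)
    exact hh_nonneg this.1 this.2
  by_cases ha : |avg F| < 1
  · have hcore : ∀ u v d : ℝ, 0 < u → u < 1 → 0 < v → v < 1 → 0 < d → d < 1 → Core u v d :=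
      fun u v d a b c d e f => core_all a b c d e f
    refine ode_main ha (fun r => ent (Tn r F)) (fun r => DD (Tn r F)) (continuous_ent_Tn F) ?_ ?_
      ?_ ?_ ?_ h0 h1
    · simp only [Tn_one, ent, hF, hh_sg, avg]; simp
    · have hc : (0 : ℝ) < Fintype.card (Cube n) := by exact_mod_cast Fintype.card_pos
      simp only [ent, Tn_zero]
      rw [avg]; simp only [Finset.sum_const, Finset.card_univ, nsmul_eq_mul]
      field_simp
    · intro r hr hr'
      exact hasDerivAt_ent_Tn hr F (abs_Tn_lt hr.le hr' F hF1 ha)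
    · intro r hr hr' g k hg
      have := cube_S2 hcore n (Tn r F) (abs_Tn_lt hr.le hr' F hF1 ha) hg
      rwa [avg_Tn] at this
    · intro r hr hr' g k hg
      have := cube_Spsi n (Tn r F) (abs_Tn_lt hr.le hr' F hF1 ha) hg
      rwa [avg_Tn] at this
  · have hle : |avg F| ≤ 1 := by
      obtain ⟨y⟩ : Nonempty (Cube n) := inferInstance
      rw [← Tn_zero F y]; exact abs_Tn_le le_rfl zero_le_one F hF1 y
    have h1' : |avg F| = 1 := le_antisymm hle (le_of_not_gt ha)
    have hz : hh (avg F) = 0 := by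
      rcases abs_eq (zero_le_one) |>.1 h1' with h | h
      · rw [h, hh_one]
      · rw [h, hh_neg, hh_one]
    have := phi_nonneg (x := ρ) (by linarith) h1
    linarith

theorem ck_main (n : ℕ) (f : (Fin n → Units ℤ) → Units ℤ) (ε : ℝ) (h0 : 0 ≤ ε) (h1 : ε ≤ 1 / 2) :
    mutualInfo (law n ε) (fun ω => f ω.1) (fun ω => ω.1 * ω.2) ≤ 1 - h2 ε := by
  rw [mutualInfo_eq f h0 h1, one_sub_h2 h0 h1]
  exact div_le_div_of_nonneg_right (info_le f (by linarith) (by linarith))
    (Real.log_nonneg one_le_two)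

end Vale.Agent.P322
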