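import Vale.Agent.P322.Defs
import Vale.Agent.P322.Cube

/-! The noise operator, its derivative, and the link with mutual information. -/

namespace Vale.Agent.P322
open Real Set

/-- real value of a sign -/
def sg (x : Units ℤ) : ℝ := ((x : ℤ) : ℝ)

/-- noise operator: `E[F(X) | Y = y]` at correlation `ρ` -/
noncomputable def Tn {n : ℕ} (ρ : ℝ) (F : Cube n → ℝ) (y : Cube n) : ℝ :=
  ∑ x, F x * ∏ i, (1 + ρ * sg (x i) * sg (y i)) / 2

theorem noise_sg_one : sg 1 = 1 := by simp [sg]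
theorem noise_sg_neg (x : Units ℤ) : sg (-x) = -sg x := by simp [sg]

theorem noise_sum_left {n : ℕ} (ρ : ℝ) (y : Cube n) :
    ∑ x : Cube n, ∏ i, (1 + ρ * sg (x i) * sg (y i)) / 2 = 1 := by
  rw [← Fintype.piFinset_univ, ← Finset.prod_univ_sum (fun _ => Finset.univ)
    fun i (b : Units ℤ) => (1 + ρ * sg b * sg (y i)) / 2]
  refine Finset.prod_eq_one fun i _ => ?_
  rw [cube_sum_sign, noise_sg_neg, noise_sg_one]
  ring

theorem noise_sum_right {n : ℕ} (ρ : ℝ) (x : Cube n) :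
    ∑ y : Cube n, ∏ i, (1 + ρ * sg (x i) * sg (y i)) / 2 = 1 := by
  simp only [mul_right_comm ρ (sg (x _))]
  exact noise_sum_left ρ x

theorem noise_card (n : ℕ) : (Fintype.card (Cube n) : ℝ) = 2 ^ n := by
  simp [Fintype.card_pi]

theorem noise_weight {ρ : ℝ} (h : 0 ≤ ρ) (a b : Units ℤ) :
    1 - ρ ≤ 1 + ρ * sg a * sg b := by
  rcases Int.units_eq_one_or a with rfl | rfl <;> rcases Int.units_eq_one_or b with rfl | rfl <;>
    simp only [noise_sg_neg, noise_sg_one] <;> linarith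

theorem avg_Tn {n : ℕ} (ρ : ℝ) (F : Cube n → ℝ) : avg (Tn ρ F) = avg F := by
  unfold avg Tn
  rw [Finset.sum_comm]
  simp only [← Finset.mul_sum, noise_sum_right, mul_one]

theorem Tn_one {n : ℕ} (F : Cube n → ℝ) : Tn 1 F = F := by
  funext y
  unfold Tn
  rw [Finset.sum_eq_single y _ (by simp)]
  · rw [Finset.prod_eq_one, mul_one]
    intro i _
    rcases Int.units_eq_one_or (y i) with h | h <;> rw [h] <;>
      simp only [noise_sg_neg, noise_sg_one] <;> norm_num
  · intro x _ hx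
    obtain ⟨i, hi⟩ := Function.ne_iff.mp hx
    rw [Finset.prod_eq_zero (Finset.mem_univ i), mul_zero]
    rcases Int.units_eq_one_or (x i) with h | h <;>
      rcases Int.units_eq_one_or (y i) with h' | h' <;> rw [h, h'] at hi ⊢ <;>
      simp only [noise_sg_neg, noise_sg_one] <;> first | exact absurd rfl hi | norm_num

theorem Tn_zero {n : ℕ} (F : Cube n → ℝ) (y : Cube n) : Tn 0 F y = avg F := by
  simp only [Tn, avg, noise_card, zero_mul, add_zero, Finset.prod_const, Finset.card_univ,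
    Fintype.card_fin, ← Finset.sum_mul, inv_pow, div_eq_mul_inv, one_mul]

theorem abs_Tn_le {n : ℕ} {ρ : ℝ} (h : 0 ≤ ρ) (h' : ρ ≤ 1) (F : Cube n → ℝ)
    (hF : ∀ x, |F x| ≤ 1) (y : Cube n) : |Tn ρ F y| ≤ 1 := by
  refine (Finset.abs_sum_le_sum_abs _ _).trans (le_of_le_of_eq ?_ (noise_sum_left ρ y))
  refine Finset.sum_le_sum fun x _ => ?_
  have h0 : 0 ≤ ∏ i, (1 + ρ * sg (x i) * sg (y i)) / 2 :=
    Finset.prod_nonneg fun i _ => by linarith [noise_weight h (x i) (y i)]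
  rw [abs_mul, abs_of_nonneg h0]
  exact mul_le_of_le_one_left h0 (hF x)

theorem noise_lt {n : ℕ} {ρ : ℝ} (h : 0 ≤ ρ) (h' : ρ < 1) (F : Cube n → ℝ)
    (hF : ∀ x, F x ≤ 1) (hF' : avg F < 1) (y : Cube n) : Tn ρ F y < 1 := by
  have h0 : ∀ x : Cube n, 0 < ∏ i, (1 + ρ * sg (x i) * sg (y i)) / 2 := fun x =>
    Finset.prod_pos fun i _ => by linarith [noise_weight h (x i) (y i)]
  obtain ⟨x, hx⟩ : ∃ x, F x < 1 := by
    by_contra hc
    push Not at hc
    have := avg_mono hc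
    rw [avg_const] at this
    linarith
  refine lt_of_lt_of_eq ?_ (noise_sum_left ρ y)
  exact Finset.sum_lt_sum (fun x _ => mul_le_of_le_one_left (h0 x).le (hF x))
    ⟨x, Finset.mem_univ _, mul_lt_of_lt_one_left (h0 x) hx⟩

theorem abs_Tn_lt {n : ℕ} {ρ : ℝ} (h : 0 ≤ ρ) (h' : ρ < 1) (F : Cube n → ℝ)
    (hF : ∀ x, |F x| ≤ 1) (hF' : |avg F| < 1) (y : Cube n) : |Tn ρ F y| < 1 := by
  refine abs_lt.mpr ⟨?_, noise_lt h h' F (fun x => (abs_le.mp (hF x)).2) (abs_lt.mp hF').2 y⟩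
  have := noise_lt h h' (fun x => -F x) (fun x => by linarith [(abs_le.mp (hF x)).1])
    (by rw [avg_neg]; linarith [(abs_lt.mp hF').1]) y
  simp only [Tn, neg_mul, Finset.sum_neg_distrib] at this
  unfold Tn
  linarith

theorem continuous_ent_Tn {n : ℕ} (F : Cube n → ℝ) : Continuous (fun ρ => ent (Tn ρ F)) := by
  unfold ent avg Tn
  refine Continuous.div_const (continuous_finsetSum _ fun y _ => continuous_hh.comp ?_) _
  fun_prop

theorem noise_hasDerivAt {n : ℕ} {ρ : ℝ} (h : 0 < ρ) (F : Cube n → ℝ) (y : Cube n) :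
    HasDerivAt (fun r => Tn r F y) ((∑ i, (Tn ρ F y - Tn ρ F (flip i y)) / 2) / ρ) ρ := by
  have h1 : ∀ x : Cube n, HasDerivAt (fun r => ∏ i, (1 + r * sg (x i) * sg (y i)) / 2)
      (∑ i, (∏ j ∈ Finset.univ.erase i, (1 + ρ * sg (x j) * sg (y j)) / 2) •
        (sg (x i) * sg (y i) / 2)) ρ := fun x => by
    refine HasDerivAt.fun_finsetProd fun i _ => ?_
    simpa using (((((hasDerivAt_id' ρ).mul_const (sg (x i))).mul_const (sg (y i))).const_add
      1).div_const 2)
  refine (HasDerivAt.fun_sum fun x _ => (h1 x).const_mul (F x)).congr_deriv ?_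
  rw [eq_div_iff h.ne']
  simp only [Tn, ← Finset.sum_sub_distrib, Finset.sum_div, Finset.sum_mul, Finset.mul_sum]
  rw [Finset.sum_comm]
  refine Finset.sum_congr rfl fun i _ => Finset.sum_congr rfl fun x _ => ?_
  rw [← Finset.mul_prod_erase _ _ (Finset.mem_univ i),
    ← Finset.mul_prod_erase _ (fun j => (1 + ρ * sg (x j) * sg (flip i y j)) / 2)
      (Finset.mem_univ i)]
  have h2 : ∏ j ∈ Finset.univ.erase i, (1 + ρ * sg (x j) * sg (flip i y j)) / 2 =
      ∏ j ∈ Finset.univ.erase i, (1 + ρ * sg (x j) * sg (y j)) / 2 :=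
    Finset.prod_congr rfl fun j hj => by
      rw [flip, Function.update_of_ne (Finset.ne_of_mem_erase hj)]
  rw [h2, flip, Function.update_self, noise_sg_neg, smul_eq_mul]
  ring

theorem hasDerivAt_ent_Tn {n : ℕ} {ρ : ℝ} (h : 0 < ρ) (F : Cube n → ℝ)
    (hlt : ∀ y, |Tn ρ F y| < 1) :
    HasDerivAt (fun r => ent (Tn r F)) (-DD (Tn ρ F) / ρ) ρ := by
  have h1 := fun y => (hasDerivAt_hh (abs_lt.mp (hlt y)).1 (abs_lt.mp (hlt y)).2).comp ρ
    (noise_hasDerivAt h F y)
  refine ((HasDerivAt.fun_sum fun y (_ : y ∈ Finset.univ) => h1 y).div_const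
    (Fintype.card (Cube n) : ℝ)).congr_deriv ?_
  simp only [DD, avg, ← Finset.sum_div]
  rw [Finset.sum_comm, neg_div, div_right_comm, ← neg_div, ← neg_div, ← Finset.sum_neg_distrib,
    Finset.sum_div _ _ ρ]
  congr 1
  refine Finset.sum_congr rfl fun y _ => ?_
  rw [← Finset.sum_mul, ← Finset.sum_div]
  ring

theorem noise_law (ε : ℝ) (a b : Units ℤ) :
    (if a * b = -1 then ε else 1 - ε) = (1 + (1 - 2 * ε) * sg a * sg b) / 2 := by
  rcases Int.units_eq_one_or a with rfl | rfl <;> rcases Int.units_eq_one_or b with rfl | rfl <;>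
    simp [noise_sg_neg, noise_sg_one] <;> ring

theorem noise_prob {n : ℕ} (ε : ℝ) (E : Cube n → Cube n → Prop) [∀ x y, Decidable (E x y)] :
    prob (law n ε) (fun ω => E ω.1 (ω.1 * ω.2)) = ∑ y, ∑ x,
      if E x y then (1 / 2) ^ n * ∏ i, (1 + (1 - 2 * ε) * sg (x i) * sg (y i)) / 2 else 0 := by
  rw [prob, Fintype.sum_prod_type]
  refine Eq.trans ?_ Finset.sum_comm
  refine Finset.sum_congr rfl fun x _ => ?_
  rw [← Equiv.sum_comp (Equiv.mulLeft x)]
  refine Finset.sum_congr rfl fun z _ => ?_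
  have h1 : x * (x * z) = z := by
    funext i
    simp only [Pi.mul_apply, ← mul_assoc, Int.units_mul_self, one_mul]
  simp only [Equiv.coe_mulLeft, h1, law]
  refine if_congr Iff.rfl (congrArg _ (Finset.prod_congr rfl fun i _ => ?_)) rfl
  exact noise_law ε (x i) (z i)

theorem noise_ite (a b : Units ℤ) (c : ℝ) :
    (if a = b then c else 0) = (1 + sg b * sg a) / 2 * c := by
  rcases Int.units_eq_one_or a with rfl | rfl <;> rcases Int.units_eq_one_or b with rfl | rfl <;>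
    simp [noise_sg_neg, noise_sg_one]

theorem noise_joint {n : ℕ} (f : Cube n → Units ℤ) (ρ : ℝ) (b : Units ℤ) (y : Cube n) :
    ∑ x, (if f x = b then (1 / 2) ^ n * ∏ i, (1 + ρ * sg (x i) * sg (y i)) / 2 else 0) =
      (1 / 2) ^ n * ((1 + sg b * Tn ρ (fun x => sg (f x)) y) / 2) := by
  have h : 1 + sg b * Tn ρ (fun x => sg (f x)) y = ∑ x, (∏ i, (1 + ρ * sg (x i) * sg (y i)) / 2 +
      sg b * (sg (f x) * ∏ i, (1 + ρ * sg (x i) * sg (y i)) / 2)) := by
    rw [Finset.sum_add_distrib, noise_sum_left, Tn, Finset.mul_sum]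
  rw [h, Finset.sum_div, Finset.mul_sum]
  refine Finset.sum_congr rfl fun x _ => ?_
  rw [noise_ite]
  ring

theorem mutualInfo_eq {n : ℕ} (f : Cube n → Units ℤ) {ε : ℝ} (h0 : 0 ≤ ε) (h1 : ε ≤ 1 / 2) :
    mutualInfo (law n ε) (fun ω => f ω.1) (fun ω => ω.1 * ω.2) =
      (hh (avg fun x => sg (f x)) - ent (Tn (1 - 2 * ε) fun x => sg (f x))) / log 2 := by
  have hsg : ∀ b, |sg b| = 1 := fun b => by
    rcases Int.units_eq_one_or b with rfl | rfl <;> simp [sg]
  have ht : ∀ y, |Tn (1 - 2 * ε) (fun x => sg (f x)) y| ≤ 1 :=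
    abs_Tn_le (by linarith) (by linarith) _ fun x => (hsg _).le
  have hJ := noise_joint f (1 - 2 * ε)
  have ha := avg_Tn (1 - 2 * ε) fun x => sg (f x)
  have e1 : ∀ b y, prob (law n ε) (fun ω => f ω.1 = b ∧ ω.1 * ω.2 = y) =
      (1 / 2) ^ n * ((1 + sg b * Tn (1 - 2 * ε) (fun x => sg (f x)) y) / 2) := fun b y => by
    rw [noise_prob ε fun x y' => f x = b ∧ y' = y, Finset.sum_eq_single y _ (by simp), ← hJ]
    · simp
    · intro y' _ hy'
      simp [hy']
  have e3 : ∀ y, prob (law n ε) (fun ω => ω.1 * ω.2 = y) = (1 / 2) ^ n := fun y => by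
    rw [noise_prob ε fun _ y' => y' = y, Finset.sum_eq_single y _ (by simp)]
    · simp only [if_true, ← Finset.mul_sum, noise_sum_left, mul_one]
    · intro y' _ hy'
      simp [hy']
  generalize Tn (1 - 2 * ε) (fun x => sg (f x)) = t at *
  generalize avg (fun x => sg (f x)) = a at *
  have hav : ∀ G : Cube n → ℝ, ∑ y, (1 / 2) ^ n * G y = avg G := fun G => by
    rw [← Finset.mul_sum, avg, noise_card, one_div, inv_pow, mul_comm, div_eq_mul_inv]
  have hm : ∀ b, avg (fun y => (1 + sg b * t y) / 2) = (1 + sg b * a) / 2 := fun b => by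
    rw [avg_div, avg_add, avg_const, avg_mul, ha]
  have e2 : ∀ b, prob (law n ε) (fun ω => f ω.1 = b) = (1 + sg b * a) / 2 := fun b => by
    rw [noise_prob ε fun x _ => f x = b]
    simp only [hJ]
    rw [hav, hm]
  have hp : ∀ b y, 0 ≤ 1 + sg b * t y := fun b y => by
    have h2 : |sg b * t y| ≤ 1 := by rw [abs_mul, hsg, one_mul]; exact ht y
    linarith [neg_abs_le (sg b * t y)]
  have key : ∀ b y, (1 / 2) ^ n * ((1 + sg b * t y) / 2) *
      logb 2 ((1 / 2) ^ n * ((1 + sg b * t y) / 2) / ((1 + sg b * a) / 2 * (1 / 2) ^ n)) =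
      (1 / 2) ^ n * (((1 + sg b * t y) * log (1 + sg b * t y) / 2 -
        log (1 + sg b * a) * ((1 + sg b * t y) / 2)) / log 2) := fun b y => by
    rcases (hp b y).eq_or_lt with h | h
    · rw [← h]; simp
    have h2 : 0 < (1 + sg b * a) / 2 := by
      rw [← hm, ← hav]
      exact Finset.sum_pos' (fun y _ => mul_nonneg (by positivity) (by linarith [hp b y]))
        ⟨y, Finset.mem_univ _, by positivity⟩
    have h3 : 0 < 1 + sg b * a := by linarith
    have h4 : (1 / 2) ^ n * ((1 + sg b * t y) / 2) / ((1 + sg b * a) / 2 * (1 / 2) ^ n) =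
        (1 + sg b * t y) / (1 + sg b * a) := by field_simp
    rw [h4, logb, log_div h.ne' h3.ne']
    ring
  simp only [mutualInfo, e1, e2, e3, key, hav, avg_div, avg_sub, avg_mul, hm]
  rw [cube_sum_sign]
  simp only [noise_sg_neg, noise_sg_one, ent, hh, phi, avg_sub, avg_const, avg_div, avg_add,
    one_mul, neg_mul, ← sub_eq_add_neg]
  ring

theorem one_sub_h2 {ε : ℝ} (h0 : 0 ≤ ε) (h1 : ε ≤ 1 / 2) :
    1 - h2 ε = phi (1 - 2 * ε) / log 2 := by
  have h3 := hh_one_sub h0 (by linarith)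
  have h4 : 0 < log 2 := log_pos one_lt_two
  have h5 : phi (1 - 2 * ε) = log 2 - (-ε * log ε - (1 - ε) * log (1 - ε)) := by
    rw [← h3, hh]; ring
  rw [h5, h2, logb, logb]
  field_simp

end Vale.Agent.P322
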