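import Vale.Agent.P322.Rules

namespace Vale.Agent.P322
open Real Set

theorem small_tail {x c : ℝ} (hc : x ^ 2 ≤ c) (hc' : c ≤ 1 / 1024) :
    x ^ 2 / (6 * (1 - x ^ 2)) ≤ c * (1 / 6 + 1 / 5000) := by
  have h1 : 0 < 1 - x ^ 2 := by linarith
  have h2 : 0 ≤ x ^ 2 := sq_nonneg x
  rw [div_le_iff₀ (by positivity)]
  nlinarith

theorem small_ff_le {x : ℝ} (h0 : 0 < x) (h1 : x ≤ 1 / 32) :
    ff x ≤ x / 2 + x ^ 3 * (1 / 12 + 1 / 6000) := by
  have hx2 : x ^ 2 ≤ 1 / 1024 := by nlinarith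
  have h := phi_le_poly (x := x) (by linarith) (by linarith)
  have ht := small_tail hx2 le_rfl
  have e : x ^ 6 / (6 * (1 - x ^ 2)) = x ^ 4 * (x ^ 2 / (6 * (1 - x ^ 2))) := by ring
  have h4 : 0 ≤ x ^ 4 := by positivity
  have h5 : x ^ 4 * (x ^ 2 / (6 * (1 - x ^ 2))) ≤ x ^ 4 * (1 / 6000) :=
    mul_le_mul_of_nonneg_left (by linarith) h4
  unfold ff
  rw [div_le_iff₀ h0]
  nlinarith

theorem small_phi_le {x : ℝ} (h0 : 0 < x) (h1 : x ≤ 1 / 64) :
    phi x ≤ x ^ 2 / 2 + x ^ 4 * (1 / 12 + 1 / 20000) := by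
  have hx2 : x ^ 2 ≤ 1 / 4096 := by nlinarith
  have h := phi_le_poly (x := x) (by linarith) (by linarith)
  have ht := small_tail hx2 (by norm_num)
  have e : x ^ 6 / (6 * (1 - x ^ 2)) = x ^ 4 * (x ^ 2 / (6 * (1 - x ^ 2))) := by ring
  have h4 : 0 ≤ x ^ 4 := by positivity
  have h5 : x ^ 4 * (x ^ 2 / (6 * (1 - x ^ 2))) ≤ x ^ 4 * (1 / 20000) :=
    mul_le_mul_of_nonneg_left (by linarith) h4
  linarith

theorem small_psi_le {x : ℝ} (h0 : 0 < x) (h1 : x ≤ 1 / 64) :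
    psi x ≤ x ^ 4 * (1 / 6 + 1 / 20000) := by
  have hx2 : x ^ 2 ≤ 1 / 4096 := by nlinarith
  have h := psi_le_poly (x := x) (by linarith) (by linarith)
  have ht := small_tail hx2 (by norm_num)
  have e : x ^ 6 / (6 * (1 - x ^ 2)) = x ^ 4 * (x ^ 2 / (6 * (1 - x ^ 2))) := by ring
  have h4 : 0 ≤ x ^ 4 := by positivity
  have h5 : x ^ 4 * (x ^ 2 / (6 * (1 - x ^ 2))) ≤ x ^ 4 * (1 / 20000) :=
    mul_le_mul_of_nonneg_left (by linarith) h4
  linarith

theorem small_kap_le {x : ℝ} (h0 : 0 < x) (h1 : x ≤ 1 / 64) : kap x ≤ 667 / 1000 * x ^ 2 := by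
  have hx2 : x ^ 2 ≤ 1 / 4096 := by nlinarith
  have hx : 0 < x ^ 2 := by positivity
  refine (kap_le_poly h0 (by linarith)).trans ?_
  rw [div_le_iff₀ (by linarith)]
  have e : x ^ 4 = x ^ 2 * x ^ 2 := by ring
  rw [e]
  nlinarith

theorem small_le_kap {x : ℝ} (h0 : 0 < x) (h1 : x ≤ 1 / 64) : 666 / 1000 * x ^ 2 ≤ kap x := by
  have hx2 : x ^ 2 ≤ 1 / 4096 := by nlinarith
  have hx : 0 < x ^ 2 := by positivity
  refine le_trans ?_ (le_kap h0 (by linarith))
  have e : x ^ 4 = x ^ 2 * x ^ 2 := by ring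
  rw [e]
  nlinarith

theorem small_gam_le {x : ℝ} (h0 : 0 < x) (h1 : x ≤ 1 / 64) : gam x ≤ 463 / 1000 * x ^ 2 := by
  have hx2 : x ^ 2 ≤ 1 / 4096 := by nlinarith
  have hx : 0 < x ^ 2 := by positivity
  have hp := small_psi_le h0 h1
  have hk := small_kap_le h0 h1
  have hk0 := kap_nonneg h0 (by linarith : x < 1)
  have hh1 : hh x ≤ 6932 / 10000 := by
    have := phi_nonneg (x := x) (by linarith) (by linarith)
    have := log_two_lt_d9
    unfold hh
    linarith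
  have h2 : kap x * hh x ≤ 667 / 1000 * x ^ 2 * (6932 / 10000) :=
    mul_le_mul hk hh1 (hh_nonneg (by linarith) (by linarith)) (by positivity)
  have e : x ^ 4 = x ^ 2 * x ^ 2 := by ring
  rw [e] at hp
  unfold gam
  nlinarith

theorem small_le_kpp {x : ℝ} (h0 : 0 < x) (h1 : x ≤ 1 / 64) : 144 / 100 * x ^ 2 ≤ kpp x := by
  have hx2 : x ^ 2 ≤ 1 / 4096 := by nlinarith
  have hx : 0 < x ^ 2 := by positivity
  have he := ell_pos (x := x) (by linarith) (by linarith)
  have hl : l0 x ≤ 1 / 8000 := by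
    refine (l0_le (by linarith) (by linarith)).trans ?_
    rw [div_le_iff₀ (by linarith)]
    linarith
  have he' : ell x ≤ 6934 / 10000 := by
    have := log_two_lt_d9
    unfold ell
    linarith
  have h1x : 0 < 1 - x ^ 2 := by linarith
  have h3 : (1 - x ^ 2) * ell x ≤ 6934 / 10000 := by nlinarith
  unfold kpp
  rw [le_div_iff₀ (by positivity)]
  nlinarith

theorem small_le_chi {x : ℝ} (h0 : 0 < x) (h1 : x < 1) : x ^ 2 + x ^ 4 / 3 ≤ chi x := by
  have := mul_le_mul_of_nonneg_left (le_T h0.le h1) h0.le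
  unfold chi
  nlinarith

/-- bound for `GG` in terms of `a = s²` and `D = ((u - v)/2)²` -/
theorem small_GG_le {u v : ℝ} (hu : 0 < u) (hv : 0 < v) (hs : (u + v) / 2 ≤ 1 / 64) :
    GG u v ≤ ((u + v) / 2) ^ 2 + (2 * (((u + v) / 2) ^ 2) ^ 2 +
      6 * ((u + v) / 2) ^ 2 * ((u - v) / 2) ^ 2) * (1 / 12 + 1 / 6000) := by
  have h1 := small_ff_le hu (by linarith)
  have h2 := small_ff_le hv (by linarith)
  have h3 : (u + v) / 2 * (ff u + ff v) ≤ (u + v) / 2 *
      (u / 2 + u ^ 3 * (1 / 12 + 1 / 6000) + (v / 2 + v ^ 3 * (1 / 12 + 1 / 6000))) :=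
    mul_le_mul_of_nonneg_left (add_le_add h1 h2) (by linarith)
  unfold GG
  refine h3.trans (le_of_eq ?_)
  ring

theorem small_phi_sub {s d : ℝ} (hs0 : 0 < s) (hd : d ≤ 1 / 64) (h : 12 / 10 * s ≤ d) :
    (d ^ 2 - s ^ 2) / 2 ≤ phi d - phi s := by
  have p3 := small_phi_le hs0 (by linarith)
  have p4 := le_phi (x := d) (by linarith) (by linarith)
  have h4 : (12 / 10 * s) ^ 4 ≤ d ^ 4 := pow_le_pow_left₀ (by positivity) h 4
  have h5 : 0 ≤ s ^ 4 := by positivity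
  have e : (12 / 10 * s) ^ 4 = 20736 / 10000 * s ^ 4 := by ring
  linarith

theorem small_poly2 {a b : ℝ} (ha : 0 < a) (h1 : 144 / 100 * a ≤ b) (h2 : b ≤ 169 / 100 * a) :
    b * b * (1 / 6 + 1 / 20000) - a * a / 6 ≤ 9998 / 10000 * a * ((b - a) / 2) := by
  nlinarith [mul_nonneg (sub_nonneg.2 h1) (sub_nonneg.2 h2), mul_pos ha ha,
    mul_nonneg ha.le (sub_nonneg.2 h1), mul_nonneg ha.le (sub_nonneg.2 h2)]

theorem small_I1 {s d : ℝ} (hs0 : 0 < s) (h : s ≤ d) (hd : d ≤ 1 / 64) (h13 : d ≤ 13 / 10 * s) :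
    psi d - psi s ≤ 2 * s ^ 2 / (2 + s ^ 2) * (phi d - phi s) := by
  have hd0 : 0 < d := by linarith
  have ha : 0 < s ^ 2 := by positivity
  have ha' : s ^ 2 ≤ 1 / 4096 := by nlinarith
  have hc : 9998 / 10000 * s ^ 2 ≤ 2 * s ^ 2 / (2 + s ^ 2) := by
    rw [le_div_iff₀ (by positivity)]
    nlinarith
  have hph : 0 ≤ phi d - phi s := sub_nonneg.2 (phi_le_phi hs0.le h (by linarith))
  refine le_trans ?_ (mul_le_mul_of_nonneg_right hc hph)
  by_cases h12 : d ≤ 12 / 10 * s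
  · have ht := psi_tangent_y (d := d) (x := s) hd0 (by linarith) hs0.le (by linarith)
    have hk := small_kap_le hd0 hd
    have hba' : d ^ 2 ≤ 144 / 100 * s ^ 2 := by nlinarith
    have hk' : kap d ≤ 9998 / 10000 * s ^ 2 := by linarith
    have := mul_le_mul_of_nonneg_right hk' hph
    linarith
  · have h12 : 12 / 10 * s ≤ d := le_of_not_ge h12
    have hab' : 144 / 100 * s ^ 2 ≤ d ^ 2 := by nlinarith
    have hba : d ^ 2 ≤ 169 / 100 * s ^ 2 := by nlinarith
    have q1 := small_psi_le hd0 hd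
    have q2 := le_psi (x := s) (by linarith) (by linarith)
    have e1 : d ^ 4 = d ^ 2 * d ^ 2 := by ring
    have e2 : s ^ 4 = s ^ 2 * s ^ 2 := by ring
    have h3 := mul_le_mul_of_nonneg_left (small_phi_sub hs0 hd h12)
      (by positivity : 0 ≤ 9998 / 10000 * s ^ 2)
    have h4 := small_poly2 ha hab' hba
    rw [e1] at q1
    rw [e2] at q2
    linarith

theorem small_I2 {s d : ℝ} (hs0 : 0 < s) (h : s ≤ d) (hd : d ≤ 1 / 64) (h13 : d ≤ 13 / 10 * s) :
    phi d - phi s ≤ s ^ 2 / 2 := by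
  have hd0 : 0 < d := by linarith
  have p1 := small_phi_le hd0 hd
  have p2 := le_phi (x := s) (by linarith) (by linarith)
  have hb : d ^ 2 ≤ 1 / 4096 := by nlinarith
  have hba : d ^ 2 ≤ 169 / 100 * s ^ 2 := by nlinarith
  have h4 : d ^ 4 ≤ d ^ 2 * (1 / 4096) := by
    have e1 : d ^ 4 = d ^ 2 * d ^ 2 := by ring
    rw [e1]
    exact mul_le_mul_of_nonneg_left hb (sq_nonneg d)
  have h5 : 0 ≤ s ^ 4 := by positivity
  have h6 : 0 ≤ s ^ 2 := by positivity
  linarith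

theorem small_case12 {u v d : ℝ} (hu : 0 < u) (hv : 0 < v) (h : (u + v) / 2 ≤ d)
    (hd : d ≤ 1 / 64) (h13 : d ≤ 13 / 10 * ((u + v) / 2)) : Core u v d :=
  rule_I hu (by linarith) hv (by linarith) (by linarith) h
    (small_I1 (by linarith) h hd h13) (small_I2 (by linarith) h hd h13)

theorem small_aom_eq {s d : ℝ} (hs : 0 < s) :
    (s / s) ^ 2 * (s * aom s - kpp s * hh d) = chi s + kpp s * (phi d - phi s) := by
  rw [div_self hs.ne', mul_aom hs]
  unfold hh
  ring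

theorem small_case3 {u v d : ℝ} (hu : 0 < u) (hv : 0 < v)
    (hd : d ≤ 1 / 64) (h13 : 13 / 10 * ((u + v) / 2) ≤ d) (h2 : d ≤ 2 * ((u + v) / 2)) :
    Core u v d := by
  have hs0 : 0 < (u + v) / 2 := by linarith
  have hs1 : (u + v) / 2 ≤ 1 / 64 := by linarith
  refine rule_b (w := (u + v) / 2) (S := (u + v) / 2) hu hv hs0 (by linarith) le_rfl
    (adm_tangent hs0 (by linarith)) ?_
  rw [small_aom_eq hs0]
  have hG := small_GG_le hu hv hs1
  have huv : u * v = ((u + v) / 2) ^ 2 - ((u - v) / 2) ^ 2 := by ring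
  have huv0 : 0 < u * v := mul_pos hu hv
  have hD : 0 ≤ ((u - v) / 2) ^ 2 := sq_nonneg _
  rw [huv] at huv0 ⊢
  generalize ((u - v) / 2) ^ 2 = D at *
  generalize GG u v = G at *
  generalize (u + v) / 2 = s at *
  have hd0 : 0 < d := by linarith
  have ha : 0 < s ^ 2 := by positivity
  have hab : 169 / 100 * s ^ 2 ≤ d ^ 2 := by nlinarith
  have hba : d ^ 2 ≤ 4 * s ^ 2 := by nlinarith
  have e1 : d ^ 4 = d ^ 2 * d ^ 2 := by ring
  have e2 : s ^ 4 = s ^ 2 * s ^ 2 := by ring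
  have p3 := small_phi_le hs0 hs1
  have p4 := le_phi (x := d) (by linarith) (by linarith)
  have q1 := small_psi_le hd0 hd
  have q2 := le_psi (x := s) (by linarith) (by linarith)
  have c1 := small_le_chi hs0 (by linarith)
  have g1 := small_gam_le hs0 hs1
  have k1 := small_le_kap hs0 hs1
  have k2 := small_le_kpp hs0 hs1
  have eg : gam s = psi s + kap s * hh s := rfl
  have eh : hh d = hh s - (phi d - phi s) := by unfold hh; ring
  rw [e1] at q1 p4
  rw [e2] at q2 p3 c1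
  generalize s ^ 2 = a at *
  generalize d ^ 2 = b at *
  have hph : (b - a) / 2 ≤ phi d - phi s := by nlinarith
  have m1 : (144 / 100 * a + 666 / 1000 * a) * ((b - a) / 2) ≤
      (kpp s + kap s) * (phi d - phi s) :=
    mul_le_mul (add_le_add k2 k1) hph (by linarith) (by linarith)
  have m2 : (a - D) * gam s ≤ (a - D) * (463 / 1000 * a) :=
    mul_le_mul_of_nonneg_left g1 huv0.le
  have key : G + psi d - psi s + (a - D) * gam s ≤ chi s + (kpp s + kap s) * (phi d - phi s) := by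
    nlinarith [mul_nonneg (sub_nonneg.2 hab) (sub_nonneg.2 hba), mul_pos ha ha,
      mul_pos ha huv0, mul_nonneg ha.le (sub_nonneg.2 hab)]
  rw [eh]
  nlinarith

theorem small_case4 {u v d : ℝ} (hu : 0 < u) (hv : 0 < v)
    (hd : d ≤ 1 / 64) (h2 : 2 * ((u + v) / 2) ≤ d) : Core u v d := by
  have hs0 : 0 < (u + v) / 2 := by linarith
  have hs1 : (u + v) / 2 ≤ 1 / 64 := by linarith
  have hd0 : 0 < d := by linarith
  refine rule_b (w := (u + v) / 2) (S := (u + v) / 2) hu hv hs0 (by linarith) le_rfl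
    (adm_tangent hd0 (by linarith)) ?_
  rw [small_aom_eq hs0]
  have hG := small_GG_le hu hv hs1
  have huv : u * v = ((u + v) / 2) ^ 2 - ((u - v) / 2) ^ 2 := by ring
  have huv0 : 0 < u * v := mul_pos hu hv
  have hD : 0 ≤ ((u - v) / 2) ^ 2 := sq_nonneg _
  rw [huv] at huv0 ⊢
  generalize ((u - v) / 2) ^ 2 = D at *
  generalize GG u v = G at *
  generalize (u + v) / 2 = s at *
  have ha : 0 < s ^ 2 := by positivity
  have hab : 4 * s ^ 2 ≤ d ^ 2 := by nlinarith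
  have e1 : d ^ 4 = d ^ 2 * d ^ 2 := by ring
  have e2 : s ^ 4 = s ^ 2 * s ^ 2 := by ring
  have p3 := small_phi_le hs0 hs1
  have p4 := le_phi (x := d) (by linarith) (by linarith)
  have c1 := small_le_chi hs0 (by linarith)
  have g1 := small_gam_le hd0 hd
  have k2 := small_le_kpp hs0 hs1
  have eg : gam d = psi d + kap d * hh d := rfl
  rw [e1] at p4
  rw [e2] at p3 c1
  generalize s ^ 2 = a at *
  generalize d ^ 2 = b at *
  have hph : (b - a) / 2 ≤ phi d - phi s := by nlinarith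
  have m1 : (144 / 100 * a) * ((b - a) / 2) ≤ kpp s * (phi d - phi s) :=
    mul_le_mul k2 hph (by linarith) (by linarith)
  have m2 : (a - D) * gam d ≤ (a - D) * (463 / 1000 * b) :=
    mul_le_mul_of_nonneg_left g1 huv0.le
  have key : G + (a - D) * gam d ≤ chi s + kpp s * (phi d - phi s) := by
    nlinarith [mul_pos ha ha, mul_nonneg ha.le (sub_nonneg.2 hab),
      mul_nonneg hD (sub_nonneg.2 hab), mul_nonneg hD ha.le]
  nlinarith

/-- the corner where `d` is small -/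
theorem core_small {u v d : ℝ} (hu : 0 < u) (hv : 0 < v) (h : (u + v) / 2 ≤ d)
    (hd : d ≤ 1 / 64) : Core u v d := by
  rcases le_total d (13 / 10 * ((u + v) / 2)) with h13 | h13
  · exact small_case12 hu hv h hd h13
  rcases le_total d (2 * ((u + v) / 2)) with h2 | h2
  · exact small_case3 hu hv hd h13 h2
  · exact small_case4 hu hv hd h2

end Vale.Agent.P322
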