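import Vale.Agent.P322.Calc2

set_option linter.unusedVariables false

/-! The real inequality behind the second Bellman induction (high noise, any bias). -/

namespace Vale.Agent.P322
open Real Set

theorem spsi_le_T5 {x : ℝ} (h : 0 ≤ x) (h' : x < 1) : x + x ^ 3 / 3 + x ^ 5 / 5 ≤ T x := by
  have := calc_mono' (f := fun x => T x - (x + x ^ 3 / 3 + x ^ 5 / 5))
    (f' := fun x => 1 / (1 - x ^ 2) - (1 + x ^ 2 + x ^ 4)) h
    (fun y h1 h2 => by
      have := (hasDerivAt_T (by linarith) (by linarith : y < 1)).sub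
        (((hasDerivAt_id y).add ((hasDerivAt_pow 3 y).div_const 3)).add
          ((hasDerivAt_pow 5 y).div_const 5))
      exact this.congr_deriv (by simp))
    (fun y h1 h2 => by
      have h0 := one_sub_sq_pos (by linarith : -1 < y) (by linarith)
      rw [sub_nonneg, le_div_iff₀ h0]; nlinarith [sq_nonneg (y ^ 3)])
  simp [T_zero] at this
  linarith

theorem spsi_T_le {x : ℝ} (h : 0 ≤ x) (h' : x < 1) :
    T x ≤ x + x ^ 3 / 3 + x ^ 4 * (x / (1 - x ^ 2)) / 5 := by
  have := calc_mono' (f := fun x => x + x ^ 3 / 3 + x ^ 4 * (x / (1 - x ^ 2)) / 5 - T x)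
    (f' := fun x => 1 + x ^ 2 + (4 * x ^ 3 * (x / (1 - x ^ 2)) +
      x ^ 4 * ((1 + x ^ 2) / (1 - x ^ 2) ^ 2)) / 5 - 1 / (1 - x ^ 2)) h
    (fun y h1 h2 => by
      have := (((hasDerivAt_id y).add ((hasDerivAt_pow 3 y).div_const 3)).add
        (((hasDerivAt_pow 4 y).mul (hasDerivAt_div_one_sub (by linarith)
          (by linarith : y < 1))).div_const 5)).sub
        (hasDerivAt_T (by linarith) (by linarith : y < 1))
      exact this.congr_deriv (by simp))
    (fun y h1 h2 => by
      have h0 := one_sub_sq_pos (by linarith : -1 < y) (by linarith)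
      have e : 1 + y ^ 2 + (4 * y ^ 3 * (y / (1 - y ^ 2)) +
          y ^ 4 * ((1 + y ^ 2) / (1 - y ^ 2) ^ 2)) / 5 - 1 / (1 - y ^ 2) =
          2 * y ^ 6 / (5 * (1 - y ^ 2) ^ 2) := by
        field_simp; ring
      rw [e]; positivity)
  simp [T_zero] at this
  linarith

theorem kap_d0_le : kap (39 / 100) ≤ 3 / 25 := by
  have h1 := spsi_le_T5 (x := 39 / 100) (by norm_num) (by norm_num)
  have h2 := T_pos (x := 39 / 100) (by norm_num) (by norm_num)
  unfold kap
  rw [sub_le_iff_le_add, div_le_iff₀ (by positivity)]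
  norm_num at h1 ⊢
  linarith

theorem spsi_deriv {d : ℝ} (h : 0 < d) (h' : d ≤ 39 / 100) :
    (1 + d ^ 2) * T d - d ≤ 87 / 50 * T d * ((1 - d ^ 2) * T d) ^ 2 := by
  have hX : d ^ 2 ≤ 1521 / 10000 := by nlinarith
  have h0 : 0 < 1 - d ^ 2 := by linarith
  have h1 := spsi_T_le h.le (by linarith)
  have h2 := le_T h.le (by linarith)
  have h3 : d / (1 - d ^ 2) ≤ d * (10000 / 8479) := by
    rw [div_le_iff₀ h0]; nlinarith
  have h4 : T d ≤ d + d ^ 3 / 3 + d ^ 5 * (2000 / 8479) := by
    have := mul_le_mul_of_nonneg_left h3 (by positivity : 0 ≤ d ^ 4)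
    nlinarith
  have h5 : (d + d ^ 3 / 3) ^ 3 ≤ T d ^ 3 := pow_le_pow_left₀ (by positivity) h2 3
  have h6 : d ^ 3 * (1 + d ^ 2) ≤ (d + d ^ 3 / 3) ^ 3 := by
    have e : (d + d ^ 3 / 3) ^ 3 = d ^ 3 * (1 + d ^ 2) + d ^ 7 / 3 + d ^ 9 / 27 := by ring
    have : 0 ≤ d ^ 7 := by positivity
    have : 0 ≤ d ^ 9 := by positivity
    linarith
  have h7 : (1 + d ^ 2) * T d - d ≤ d ^ 3 * (4 / 3 + d ^ 2 / 3 +
      d ^ 2 * (1 + d ^ 2) * (2000 / 8479)) := by
    have := mul_le_mul_of_nonneg_left h4 (by positivity : 0 ≤ 1 + d ^ 2)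
    nlinarith
  have h8 : 4 / 3 + d ^ 2 / 3 + d ^ 2 * (1 + d ^ 2) * (2000 / 8479) ≤
      87 / 50 * (1 - d ^ 2) ^ 2 * (1 + d ^ 2) := by
    set X := d ^ 2
    have hX0 : 0 ≤ X := by positivity
    nlinarith [mul_nonneg hX0 (sub_nonneg.mpr hX), pow_nonneg hX0 3]
  have h9 := mul_le_mul_of_nonneg_left h8 (by positivity : 0 ≤ d ^ 3)
  have h10 := mul_le_mul_of_nonneg_left (h6.trans h5)
    (by positivity : 0 ≤ 87 / 50 * (1 - d ^ 2) ^ 2)
  nlinarith

/-- derivative form: `(1+d²) T d - d ≤ (87/50) (1-d²)² (T d)³` on `(0, 39/100]` -/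
theorem kap_lip {x y : ℝ} (h : 0 < x) (hxy : x ≤ y) (h' : y ≤ 39 / 100) :
    kap y - kap x ≤ 87 / 50 * (phi y - phi x) := by
  have := calc_mono' (f := fun d => 87 / 50 * phi d - kap d)
    (f' := fun d => 87 / 50 * T d - ((1 + d ^ 2) * T d - d) / ((1 - d ^ 2) * T d) ^ 2) hxy
    (fun z h1 h2 => ((hasDerivAt_phi (by linarith) (by linarith)).const_mul (87 / 50)).sub
      (hasDerivAt_kap (by linarith) (by linarith)))
    (fun z h1 h2 => by
      have h0 := one_sub_sq_pos (by linarith : -1 < z) (by linarith)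
      have h3 := T_pos (by linarith : 0 < z) (by linarith)
      rw [sub_nonneg, div_le_iff₀ (by positivity)]
      exact spsi_deriv (by linarith) (by linarith))
  linarith
theorem kap_le_phi {x : ℝ} (h : 0 < x) (h' : x ≤ 39 / 100) : kap x ≤ 87 / 50 * phi x := by
  have hX : x ^ 2 ≤ 1521 / 10000 := by nlinarith
  have h0 : 0 < 1 - x ^ 2 := by linarith
  have h1 := kap_le_poly h (by linarith)
  have h2 := le_phi (x := x) (by linarith) (by linarith)
  have h3 : (2 / 3 * x ^ 2 + x ^ 4 / 3) / (1 - x ^ 2) ≤ 87 / 100 * x ^ 2 := by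
    rw [div_le_iff₀ h0]
    have : 0 ≤ x ^ 2 := by positivity
    nlinarith [mul_nonneg this (sub_nonneg.mpr hX)]
  have : 0 ≤ x ^ 4 := by positivity
  linarith

theorem spsi_uq {e d : ℝ} (he : 0 < e) (he' : e ≤ 39 / 100) (hd : 0 ≤ d) (hd' : d ≤ 39 / 100) :
    psi d ≤ psi e + kap e * (phi d - phi e) + 87 / 100 * (phi d - phi e) ^ 2 := by
  have hD : ∀ z, -1 < z → z < 1 → HasDerivAt
      (fun z => kap e * phi z + 87 / 100 * (phi z - phi e) ^ 2 - psi z)
      (kap e * T z + 87 / 50 * (phi z - phi e) * T z - (z / (1 - z ^ 2) - T z)) z := by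
    intro z h1 h2
    have hp := hasDerivAt_phi h1 h2
    exact (((hp.const_mul (kap e)).add (((hp.sub_const (phi e)).pow 2).const_mul (87 / 100))).sub
      (hasDerivAt_psi h1 h2)).congr_deriv (by simp; ring)
  rcases le_total e d with hle | hle
  · have := calc_mono' hle (fun z h1 h2 => hD z (by linarith) (by linarith))
      (fun z h1 h2 => by
        rw [← kap_mul_T (by linarith) (by linarith)]
        have h3 := kap_lip he h1.le (by linarith)
        have h4 := T_nonneg (x := z) (by linarith) (by linarith)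
        nlinarith [mul_nonneg (sub_nonneg.mpr h3) h4])
    simp at this
    linarith
  · have := calc_anti' hle (fun z h1 h2 => hD z (by linarith) (by linarith))
      (fun z h1 h2 => by
        rw [← kap_mul_T (by linarith) (by linarith)]
        have h3 := kap_lip (x := z) (by linarith) h2.le he'
        have h4 := T_nonneg (x := z) (by linarith) (by linarith)
        nlinarith [mul_nonneg (sub_nonneg.mpr h3) h4])
    simp at this
    linarith

theorem spsi_uq' {e g k Y : ℝ} (he : 0 < e) (he' : e ≤ 39 / 100) (hg : AdmP g k) (hY : 0 ≤ Y) :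
    k * Y - g ≤ psi e + kap e * (Y - phi e) + 87 / 100 * (Y - phi e) ^ 2 := by
  rcases le_total Y (phi (39 / 100)) with hle | hle
  · obtain ⟨d, h1, h2, rfl⟩ := exists_phi_eq (by norm_num) (by norm_num) hY hle
    exact (hg.2.2 d h1 (by linarith)).trans (spsi_uq he he' h1 h2)
  · have h1 := hg.2.2 (39 / 100) (by norm_num) (by norm_num)
    have h2 := spsi_uq he he' (d := 39 / 100) (by norm_num) le_rfl
    have h3 := kap_lip he he' le_rfl
    have h4 := mul_le_mul_of_nonneg_right (hg.2.1.trans (by linarith :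
      kap (39 / 100) ≤ kap e + 87 / 50 * (phi (39 / 100) - phi e))) (sub_nonneg.mpr hle)
    nlinarith [sq_nonneg (Y - phi (39 / 100))]

theorem spsi_comb {e g k t : ℝ} (he : 0 < e) (he' : e ≤ 39 / 100) (hg : AdmP g k) (ht : 0 ≤ t) :
    phi e * (k * (phi e + t) - g) ≤ (phi e + t) * (psi e + 87 / 100 * (phi e * t)) := by
  have hp := phi_nonneg (x := e) (by linarith) (by linarith)
  have h1 := mul_le_mul_of_nonneg_left (spsi_uq' he he' hg (add_nonneg hp ht)) hp
  have h2 := spsi_uq he he' (d := 0) le_rfl (by norm_num)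
  rw [psi_zero, phi_zero] at h2
  have h3 := mul_le_mul_of_nonneg_left h2 ht
  nlinarith

theorem spsi_core {u v w g k : ℝ} (hu : 0 < u) (hu' : u < 1) (hv : 0 < v) (hv' : v < 1)
    (hw : 0 ≤ w) (hg : AdmP g k) :
    ∃ g' k', AdmP g' k' ∧
      k * (v / (u + v) * phi u + u / (u + v) * phi v + w) - g ≤
        v / (u + v) * psi u + u / (u + v) * psi v + 2 * (u * v) / (2 + u * v) * w
          + k' * w - g' := by
  have hs : 0 < u + v := by linarith
  have hc : 0 < u * v := mul_pos hu hv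
  have hp : 0 < v / (u + v) := by positivity
  have hq : 0 < u / (u + v) := by positivity
  have hpq : v / (u + v) + u / (u + v) = 1 := by field_simp; ring
  have hcc : v / (u + v) * u ^ 2 + u / (u + v) * v ^ 2 = u * v := by field_simp
  have hka : 2 * (u * v) / (2 + u * v) * (2 + u * v) = 2 * (u * v) := by field_simp
  have hka0 : 0 < 2 * (u * v) / (2 + u * v) := by positivity
  set p := v / (u + v)
  set q := u / (u + v)
  set ka := 2 * (u * v) / (2 + u * v)
  set c := u * v
  set x := p * phi u + q * phi v with hx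
  set k2 := p * psi u + q * psi v with hk2
  have F1 : ∀ g k, AdmP g k → k * x - g ≤ k2 := by
    intro g k hg
    have h1 := mul_le_mul_of_nonneg_left (hg.2.2 u hu.le hu') hp.le
    have h2 := mul_le_mul_of_nonneg_left (hg.2.2 v hv.le hv') hq.le
    have e : g = (p + q) * g := by rw [hpq, one_mul]
    rw [hx, hk2]; linarith
  have F2 : 2 * x - c ≤ k2 := by
    have h1 := mul_le_mul_of_nonneg_left (psi_ge_two_phi (by linarith) hu') hp.le
    have h2 := mul_le_mul_of_nonneg_left (psi_ge_two_phi (by linarith) hv') hq.le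
    rw [hx, hk2]; linarith
  have hx0 : 0 < x := by
    have h1 : 0 < phi u := by rw [← phi_zero]; exact phi_lt_phi le_rfl hu hu'.le
    have h2 : 0 < phi v := by rw [← phi_zero]; exact phi_lt_phi le_rfl hv hv'.le
    rw [hx]; positivity
  have hk20 : 0 ≤ k2 := by simpa using F1 0 0 admP_zero
  clear_value x k2 ka c
  by_cases c1 : k ≤ ka
  · refine ⟨0, 0, admP_zero, ?_⟩
    have := F1 g k hg
    have := mul_le_mul_of_nonneg_right c1 hw
    linarith
  by_cases c2 : c ≤ (2 - k) * x
  · refine ⟨g, k, hg, ?_⟩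
    have := mul_nonneg hka0.le hw
    linarith
  rcases hw.eq_or_lt with rfl | hw0
  · refine ⟨0, 0, admP_zero, ?_⟩
    have := F1 g k hg
    linarith
  push Not at c1 c2
  have hk : k ≤ 3 / 25 := hg.2.1.trans kap_d0_le
  have hc1 : c ≤ 6 / 47 := by nlinarith
  have hxc : 47 / 25 * x ≤ c := by nlinarith
  have hM : 87 / 50 * x ≤ ka := by
    by_contra hne
    push Not at hne
    nlinarith
  have hy0 : 1521 / 20000 ≤ phi (39 / 100) := by
    have := le_phi (x := 39 / 100) (by norm_num) (by norm_num)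
    norm_num at this ⊢
    linarith
  have hMw := mul_le_mul_of_nonneg_right hM hw
  rcases le_total (phi (39 / 100)) w with c3 | c3
  · refine ⟨_, _, admP_tangent (d := 39 / 100) (by norm_num) le_rfl, ?_⟩
    have h1 := hg.2.2 (39 / 100) (by norm_num) (by norm_num)
    have h2 := mul_le_mul_of_nonneg_right hg.2.1 (by linarith : 0 ≤ x + w - phi (39 / 100))
    have h3 := mul_le_mul_of_nonneg_right (kap_le_phi (x := 39 / 100) (by norm_num) le_rfl) hx0.le
    have h4 := mul_le_mul_of_nonneg_left c3 hx0.le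
    linarith
  · obtain ⟨dx, a1, a2, a3⟩ := exists_phi_eq (d0 := 39 / 100) (by norm_num) (by norm_num) hx0.le
      (by linarith)
    obtain ⟨dw, b1, b2, b3⟩ := exists_phi_eq (d0 := 39 / 100) (by norm_num) (by norm_num) hw c3
    have a0 : 0 < dx := lt_of_le_of_ne a1 (by rintro rfl; rw [phi_zero] at a3; linarith)
    have b0 : 0 < dw := lt_of_le_of_ne b1 (by rintro rfl; rw [phi_zero] at b3; linarith)
    refine ⟨_, _, admP_tangent b0 b2, ?_⟩
    have h1 := F1 _ _ (admP_tangent a0 a2)
    have h2 := spsi_comb a0 a2 hg hw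
    have h3 := spsi_comb b0 b2 hg hx0.le
    rw [a3] at h1 h2
    rw [b3] at h3 ⊢
    have h4 : (x + w) * (k * (x + w) - g) ≤ (x + w) * (psi dx + psi dw + 87 / 50 * (x * w)) := by
      rw [add_comm w x, mul_comm w x] at h3
      linarith
    have h5 := le_of_mul_le_mul_left h4 (by linarith)
    linarith

end Vale.Agent.P322
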