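import Vale.Agent.P322.Edge
import Vale.Agent.P322.Calc3
import Vale.Agent.P322.Spsi

/-! The induction steps, for finite averages. -/

namespace Vale.Agent.P322
open Real Set

/-- uniform average over a finite type -/
noncomputable def avg {ι : Type} [Fintype ι] (F : ι → ℝ) : ℝ := (∑ i, F i) / Fintype.card ι

section avg
variable {ι : Type} [Fintype ι]

theorem avg_add (F G : ι → ℝ) : avg (fun i => F i + G i) = avg F + avg G := by
  simp only [avg, Finset.sum_add_distrib, add_div]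

theorem avg_sub (F G : ι → ℝ) : avg (fun i => F i - G i) = avg F - avg G := by
  simp only [avg, Finset.sum_sub_distrib, sub_div]

theorem avg_neg (F : ι → ℝ) : avg (fun i => -F i) = -avg F := by
  simp only [avg, Finset.sum_neg_distrib, neg_div]

theorem avg_mul (c : ℝ) (F : ι → ℝ) : avg (fun i => c * F i) = c * avg F := by
  simp only [avg, ← Finset.mul_sum, mul_div_assoc]

theorem avg_div (F : ι → ℝ) (c : ℝ) : avg (fun i => F i / c) = avg F / c := by
  simp only [avg, ← Finset.sum_div, div_right_comm]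

theorem avg_const [Nonempty ι] (c : ℝ) : avg (fun _ : ι => c) = c := by
  have hc : (0 : ℝ) < Fintype.card ι := by exact_mod_cast Fintype.card_pos
  simp only [avg, Finset.sum_const, Finset.card_univ, nsmul_eq_mul]
  field_simp

theorem avg_mono {F G : ι → ℝ} (h : ∀ i, F i ≤ G i) : avg F ≤ avg G :=
  div_le_div_of_nonneg_right (Finset.sum_le_sum fun i _ => h i) (Nat.cast_nonneg _)

theorem avg_lt [Nonempty ι] {F G : ι → ℝ} (h : ∀ i, F i < G i) : avg F < avg G :=
  div_lt_div_of_pos_right (Finset.sum_lt_sum_of_nonempty Finset.univ_nonempty fun i _ => h i)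
    (by exact_mod_cast Fintype.card_pos)

theorem abs_avg_lt [Nonempty ι] {F : ι → ℝ} (h : ∀ i, |F i| < 1) : |avg F| < 1 := by
  rw [abs_lt]
  exact ⟨avg_const (ι := ι) (-1) ▸ avg_lt fun i => (abs_lt.mp (h i)).1,
    avg_const (ι := ι) 1 ▸ avg_lt fun i => (abs_lt.mp (h i)).2⟩

theorem avg_hh_le [Nonempty ι] {F : ι → ℝ} (h : ∀ i, |F i| < 1) :
    avg (fun i => hh (F i)) ≤ hh (avg F) := by
  have h0 := abs_lt.mp (abs_avg_lt h)
  have h1 : avg (fun i => hh (F i)) ≤ avg fun i => hh (avg F) + -T (avg F) * (F i - avg F) :=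
    avg_mono fun i => by
      have h2 := abs_lt.mp (h i)
      have := phi_quad_lower h2.1.le h2.2.le h0.1 h0.2
      unfold hh
      nlinarith [sq_nonneg (F i - avg F)]
  rwa [avg_add, avg_mul, avg_sub, avg_const, avg_const, sub_self, mul_zero, add_zero] at h1

variable [Nonempty ι] {A Z : ι → ℝ}

theorem step_abs_add (h1 : ∀ i, |A i + Z i| < 1) : |avg A + avg Z| < 1 :=
  avg_add A Z ▸ abs_avg_lt h1

theorem step_abs_sub (h2 : ∀ i, |A i - Z i| < 1) : |avg A - avg Z| < 1 :=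
  avg_sub A Z ▸ abs_avg_lt h2

theorem step_edge (h1 : ∀ i, |A i + Z i| < 1) (h2 : ∀ i, |A i - Z i| < 1) {k : ℝ} (hk : 0 ≤ k)
    (hk' : k * (2 + avg Z ^ 2 / (1 - avg A ^ 2)) ≤ 2 * (avg Z ^ 2 / (1 - avg A ^ 2))) :
    KK (avg A) (avg Z) + k * hbar (avg A) (avg Z) ≤
      avg (fun i => KK (A i) (Z i)) + k * avg (fun i => hbar (A i) (Z i)) := by
  obtain ⟨α, α', h⟩ := edge_a (step_abs_add h1) (step_abs_sub h2) hk hk'
  have h3 := avg_mono fun i => h (A i) (Z i) (h1 i) (h2 i)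
  simp only [avg_add, avg_mul, avg_sub, avg_const] at h3
  linarith

theorem step_hbar (h1 : ∀ i, |A i + Z i| < 1) (h2 : ∀ i, |A i - Z i| < 1) :
    avg (fun i => hbar (A i) (Z i)) ≤ hbar (avg A) (avg Z) := by
  have h3 := avg_hh_le h1
  have h4 := avg_hh_le h2
  rw [avg_add] at h3
  rw [avg_sub] at h4
  simp only [hbar, avg_div, avg_add]
  linarith

end avg

theorem step_two_le {a z : ℝ} (h1 : |a + z| < 1) (h2 : |a - z| < 1) :
    2 * (hh a - hbar a z) ≤ KK a z := by
  rw [KK_decomp h1 h2, gg_decomp h1 h2]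
  rw [abs_lt] at h1 h2
  have ha : 0 < 1 - a := by linarith
  have ha' : 0 < 1 + a := by linarith
  have h3 := psi_nonneg (x := z / (1 - a)) (by rw [lt_div_iff₀ ha]; linarith)
    (by rw [div_lt_one ha]; linarith)
  have h4 := psi_nonneg (x := z / (1 + a)) (by rw [lt_div_iff₀ ha']; linarith)
    (by rw [div_lt_one ha']; linarith)
  unfold psi at h3 h4
  nlinarith [mul_nonneg ha.le h3, mul_nonneg ha'.le h4]

theorem step_S2_real
    (hcore : ∀ u v d : ℝ, 0 < u → u < 1 → 0 < v → v < 1 → 0 < d → d < 1 → Core u v d)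
    {a z Q e g k : ℝ} (H1 : |a + z| < 1) (H2 : |a - z| < 1) (hg : Adm g k) (hz : 0 ≤ z)
    (he : 0 < e)
    (hE : ∀ k, 0 ≤ k → k * (2 + z ^ 2 / (1 - a ^ 2)) ≤ 2 * (z ^ 2 / (1 - a ^ 2)) →
      KK a z + k * hbar a z ≤ Q + k * e)
    (hB : ∀ w s, 0 < w → w < 1 → 0 < s → s ≤ 1 → z * s * aom w ≤ Q + s ^ 2 * kpp w * e) :
    ∃ g' k', Adm g' k' ∧ (1 - a ^ 2) * g - k * e + 2 * (hh a - hbar a z) ≤
      Q + (1 - a ^ 2 - z ^ 2) * g' - k' * e := by
  have F1 := step_two_le H1 H2
  have hK := KK_decomp H1 H2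
  have hG := gg_decomp H1 H2
  rw [abs_lt] at H1 H2
  have ha : 0 < 1 - a := by linarith
  have ha' : 0 < 1 + a := by linarith
  have hβ' : 1 - a ^ 2 = (1 - a) * (1 + a) := by ring
  have hβ : 0 < 1 - a ^ 2 := hβ' ▸ mul_pos ha ha'
  have F0 : KK a z ≤ Q := by simpa using hE 0 le_rfl (by rw [zero_mul]; positivity)
  by_cases hc : (1 - a ^ 2) * log 2 ≤ e
  · refine ⟨0, 0, adm_zero, ?_⟩
    have h3 := hg.2.2 0 le_rfl one_pos
    rw [hh_zero, psi_zero] at h3
    linarith [mul_le_mul_of_nonneg_left hc hg.1, mul_le_mul_of_nonneg_left h3 hβ.le]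
  obtain ⟨d, hd, hd', hde⟩ := exists_hh_eq (x := e / (1 - a ^ 2)) (by positivity)
    (by rw [div_lt_iff₀ hβ]; linarith)
  obtain rfl : e = (1 - a ^ 2) * hh d := by rw [hde]; field_simp
  have h3 := mul_le_mul_of_nonneg_left (hg.2.2 d hd.le hd') hβ.le
  rcases hz.eq_or_lt with rfl | hz
  · refine ⟨gam d, kap d, adm_tangent hd hd', ?_⟩
    unfold gam
    linarith
  have huv : z / (1 - a) * (z / (1 + a)) = z ^ 2 / (1 - a ^ 2) := by rw [hβ']; field_simp
  have hs : (z / (1 - a) + z / (1 + a)) / 2 = z / (1 - a ^ 2) := by rw [hβ']; field_simp; ring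
  have hG' : hh a - hbar a z = (1 - a ^ 2) * GG (z / (1 - a)) (z / (1 + a)) / 2 := by
    rw [hG, GG, hs, ff, ff]; field_simp
  have hK' : KK a z = z * ((T (z / (1 - a)) + T (z / (1 + a))) / 2) := by
    rw [hK, chi, chi]; field_simp
  have hA : HypA (z / (1 - a)) (z / (1 + a)) d (Q / (1 - a ^ 2)) := by
    intro k hk hk'
    rw [huv] at hk'
    have h5 := hE k hk hk'
    have h6 := mul_le_mul_of_nonneg_left (hh_ge (x := a) (by linarith) (by linarith)) hk
    rw [hs, le_div_iff₀ hβ, add_mul, mul_right_comm, div_mul_cancel₀ _ hβ.ne', ← hK']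
    have h7 : hbar a z = hh a - (1 - a ^ 2) * GG (z / (1 - a)) (z / (1 + a)) / 2 := by linarith
    have h8 : hh d = log 2 - phi d := rfl
    rw [h7, h8] at h5
    linarith
  have hB' : HypB (z / (1 - a)) (z / (1 + a)) d (Q / (1 - a ^ 2)) := by
    intro w s hw hw' hs0 hs1
    have h5 := hB w s hw hw' hs0 hs1
    rw [hs, le_div_iff₀ hβ]
    have : z / (1 - a ^ 2) * s * aom w * (1 - a ^ 2) = z * s * aom w := by field_simp
    rw [sub_mul, this]
    linarith
  obtain ⟨g', k', hg', h4⟩ := hcore (z / (1 - a)) (z / (1 + a)) d (by positivity)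
    (by rw [div_lt_one ha]; linarith) (by positivity) (by rw [div_lt_one ha']; linarith) hd hd'
    _ hA hB'
  refine ⟨g', k', hg', ?_⟩
  have h5 := mul_le_mul_of_nonneg_left h4 hβ.le
  rw [huv] at h5
  have h6 : (1 - a ^ 2) * (Q / (1 - a ^ 2) + (1 - z ^ 2 / (1 - a ^ 2)) * g' - k' * hh d) =
      Q + (1 - a ^ 2 - z ^ 2) * g' - k' * ((1 - a ^ 2) * hh d) := by field_simp
  rw [h6] at h5
  linarith

theorem step_S2_nonneg
    (hcore : ∀ u v d : ℝ, 0 < u → u < 1 → 0 < v → v < 1 → 0 < d → d < 1 → Core u v d)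
    {ι : Type} [Fintype ι] [Nonempty ι] (A Z : ι → ℝ)
    (h1 : ∀ i, |A i + Z i| < 1) (h2 : ∀ i, |A i - Z i| < 1) {g k : ℝ} (hg : Adm g k)
    (hz : 0 ≤ avg Z) :
    ∃ g' k', Adm g' k' ∧
      (1 - avg A ^ 2) * g - k * avg (fun i => hbar (A i) (Z i))
          + 2 * (hh (avg A) - hbar (avg A) (avg Z)) ≤
        avg (fun i => KK (A i) (Z i)) + (1 - avg A ^ 2 - avg Z ^ 2) * g'
          - k' * avg (fun i => hbar (A i) (Z i)) := by
  refine step_S2_real hcore (step_abs_add h1) (step_abs_sub h2) hg hz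
    (avg_const (ι := ι) 0 ▸ avg_lt fun i => hbar_pos (h1 i) (h2 i))
    (fun k => step_edge h1 h2) fun w s hw hw' hs hs' => ?_
  have := avg_mono fun i => (show s * aom w * Z i = Z i * s * aom w by ring).trans_le
    (edge_b (h1 i) (h2 i) hw hw' hs hs')
  rw [avg_add, avg_mul, avg_mul] at this
  linarith

theorem step_S2 (hcore : ∀ u v d : ℝ, 0 < u → u < 1 → 0 < v → v < 1 → 0 < d → d < 1 → Core u v d)
    {ι : Type} [Fintype ι] [Nonempty ι] (A Z : ι → ℝ)
    (h1 : ∀ i, |A i + Z i| < 1) (h2 : ∀ i, |A i - Z i| < 1) {g k : ℝ} (hg : Adm g k) :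
    ∃ g' k', Adm g' k' ∧
      (1 - avg A ^ 2) * g - k * avg (fun i => hbar (A i) (Z i))
          + 2 * (hh (avg A) - hbar (avg A) (avg Z)) ≤
        avg (fun i => KK (A i) (Z i)) + (1 - avg A ^ 2 - avg Z ^ 2) * g'
          - k' * avg (fun i => hbar (A i) (Z i)) := by
  rcases le_total 0 (avg Z) with hz | hz
  · exact step_S2_nonneg hcore A Z h1 h2 hg hz
  · have := step_S2_nonneg hcore A (fun i => -Z i) (fun i => by simpa [sub_eq_add_neg] using h2 i)
      (fun i => by simpa using h1 i) hg (by rw [avg_neg]; linarith)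
    simpa only [avg_neg, KK_neg, hbar_neg, neg_sq] using this

theorem step_Spsi_nonneg {ι : Type} [Fintype ι] [Nonempty ι] (A Z : ι → ℝ)
    (h1 : ∀ i, |A i + Z i| < 1) (h2 : ∀ i, |A i - Z i| < 1) {g k : ℝ} (hg : AdmP g k)
    (hz : 0 ≤ avg Z) :
    ∃ g' k', AdmP g' k' ∧
      k * (hh (avg A) - avg (fun i => hbar (A i) (Z i))) - g
          + 2 * (hh (avg A) - hbar (avg A) (avg Z)) ≤
        avg (fun i => KK (A i) (Z i))
          + k' * (hbar (avg A) (avg Z) - avg (fun i => hbar (A i) (Z i))) - g' := by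
  have H1 := step_abs_add h1
  have H2 := step_abs_sub h2
  have hE := fun k => step_edge h1 h2 (k := k)
  have hw := step_hbar h1 h2
  generalize avg A = a at *
  generalize avg Z = z at *
  generalize avg (fun i => KK (A i) (Z i)) = Q at *
  generalize avg (fun i => hbar (A i) (Z i)) = e at *
  have F1 := step_two_le H1 H2
  have hK := KK_decomp H1 H2
  have hG := gg_decomp H1 H2
  rw [abs_lt] at H1 H2
  have ha : 0 < 1 - a := by linarith
  have ha' : 0 < 1 + a := by linarith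
  have hβ : 0 < 1 - a ^ 2 := by nlinarith
  rcases hz.eq_or_lt with rfl | hz
  · have F0 : KK a 0 ≤ Q := by simpa using hE 0 le_rfl (by rw [zero_mul]; positivity)
    have h3 : hbar a 0 = hh a := by simp [hbar]
    refine ⟨g, k, hg, ?_⟩
    rw [h3] at F1 ⊢
    linarith
  have hβ' : 1 - a ^ 2 = (1 - a) * (1 + a) := by ring
  have huv : z / (1 - a) * (z / (1 + a)) = z ^ 2 / (1 - a ^ 2) := by rw [hβ']; field_simp
  have hp : z / (1 + a) / (z / (1 - a) + z / (1 + a)) = (1 - a) / 2 := by field_simp; ring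
  have hq : z / (1 - a) / (z / (1 - a) + z / (1 + a)) = (1 + a) / 2 := by field_simp; ring
  obtain ⟨g', k', hg', h4⟩ := spsi_core (u := z / (1 - a)) (v := z / (1 + a)) (w := hbar a z - e)
    (by positivity) (by rw [div_lt_one ha]; linarith) (by positivity)
    (by rw [div_lt_one ha']; linarith) (by linarith) hg
  rw [huv, hp, hq, ← hG] at h4
  have hc : 0 < z ^ 2 / (1 - a ^ 2) := by positivity
  have h5 := hE (2 * (z ^ 2 / (1 - a ^ 2)) / (2 + z ^ 2 / (1 - a ^ 2))) (by positivity)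
    (le_of_eq (div_mul_cancel₀ _ (by positivity)))
  refine ⟨g', k', hg', ?_⟩
  unfold psi at h4
  nlinarith

theorem step_Spsi {ι : Type} [Fintype ι] [Nonempty ι] (A Z : ι → ℝ)
    (h1 : ∀ i, |A i + Z i| < 1) (h2 : ∀ i, |A i - Z i| < 1) {g k : ℝ} (hg : AdmP g k) :
    ∃ g' k', AdmP g' k' ∧
      k * (hh (avg A) - avg (fun i => hbar (A i) (Z i))) - g
          + 2 * (hh (avg A) - hbar (avg A) (avg Z)) ≤
        avg (fun i => KK (A i) (Z i))
          + k' * (hbar (avg A) (avg Z) - avg (fun i => hbar (A i) (Z i))) - g' := by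
  rcases le_total 0 (avg Z) with hz | hz
  · exact step_Spsi_nonneg A Z h1 h2 hg hz
  · have := step_Spsi_nonneg A (fun i => -Z i) (fun i => by simpa [sub_eq_add_neg] using h2 i)
      (fun i => by simpa using h1 i) hg (by rw [avg_neg]; linarith)
    simpa only [avg_neg, KK_neg, hbar_neg] using this

end Vale.Agent.P322
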